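import Crest.Agent.N221.A1.Defs
import Crest.Agent.N221.Ex.UB
import Crest.Agent.N221.Ch.Sym
import Crest.Agent.N221.Ch.Unif
import Crest.Agent.N221.G0.Sys
import Crest.Agent.N221.Ex.Inst

-- ▼ part N221/G0/Im0
section

/-! Row 221, block G0, instance (helper39): the form `dfm A`, pull back of forms. -/

set_option autoImplicit false

open Set Filter Topology Metric
open scoped ContDiff RealInnerProductSpace
open Crest.GeometryTopology.Submanifold

noncomputable section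

namespace Crest.Agent.N221

variable {m : ℕ}

instance finFm : FiniteDimensional ℝ (Fm m) :=
  Module.Finite.of_injective ContinuousMultilinearMap.toMultilinearMapLinear
    ContinuousMultilinearMap.toMultilinearMap_injective

/-- determinant of the rows -/
def detM (m : ℕ) : ContinuousMultilinearMap ℝ (fun _ : Fin m => Euc m) ℝ where
  toMultilinearMap :=
    (Matrix.detRowAlternating (n := Fin m) (R := ℝ)).toMultilinearMap.compLinearMap
      fun _ => (WithLp.linearEquiv 2 ℝ (Fin m → ℝ)).toLinearMap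
  cont := Continuous.matrix_det (A := fun v : Fin m → Euc m => Matrix.of fun i j => v i j)
    (continuous_pi fun i => continuous_pi fun j => by simp only [Matrix.of_apply]; fun_prop)

lemma detM_apply (v : Fin m → Euc m) : detM m v = (Matrix.of fun i j => v i j).det := rfl

lemma detM_map (L : Euc m →L[ℝ] Euc m) (v : Fin m → Euc m) :
    detM m (fun i => L (v i)) = L.det * detM m v := by
  let b := (EuclideanSpace.basisFun (Fin m) ℝ).toBasis
  have h := b.det_comp (L : Euc m →ₗ[ℝ] Euc m) v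
  have e : ∀ w : Fin m → Euc m, b.det w = detM m w := fun w => by
    rw [Module.Basis.det_apply, detM_apply, ← Matrix.det_transpose]
    rfl
  rw [e, e] at h
  exact h

lemma detM_single : detM m (fun i => EuclideanSpace.single i 1) = 1 := by
  rw [detM_apply, ← Matrix.det_one (n := Fin m)]
  congr 1
  ext i j
  simp [Matrix.one_apply, eq_comm]

/-- `p - A q` -/
def prA (A : Euc m →L[ℝ] Euc m) : ZZ m →L[ℝ] Euc m :=
  ContinuousLinearMap.snd ℝ _ _ - A ∘L ContinuousLinearMap.fst ℝ _ _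

lemma prA_apply (A : Euc m →L[ℝ] Euc m) (v : ZZ m) : prA A v = v.2 - A v.1 := rfl

/-- `dform A` as a continuous multilinear map -/
def dfm (A : Euc m →L[ℝ] Euc m) : Fm m := (detM m).compContinuousLinearMap fun _ => prA A


lemma contDiff_dfm : ContDiff ℝ ∞ (dfm : (Euc m →L[ℝ] Euc m) → Fm m) := by
  have h : ContDiff ℝ ∞ (prA : (Euc m →L[ℝ] Euc m) → _) :=
    contDiff_const.sub (contDiff_id.clm_comp contDiff_const)
  exact (ContinuousMultilinearMap.compContinuousLinearMapLRight (E := fun _ => ZZ m)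
    (detM m)).contDiff.comp (contDiff_pi.2 fun _ => h)

lemma dfm_gbas (A B : Euc m →L[ℝ] Euc m) : dfm A (gbas B) = (-1) ^ m * (A - B).det := by
  have h := detM_map (B - A) fun i => EuclideanSpace.single i 1
  rw [detM_single, mul_one] at h
  have e : B - A = (-1 : ℝ) • (A - B) := by ext; simp
  have e2 : ((-1 : ℝ) • (A - B)).det = (-1) ^ m * (A - B).det := by
    rw [ContinuousLinearMap.det, ContinuousLinearMap.toLinearMap_smul, LinearMap.det_smul,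
      finrank_euclideanSpace_fin]
  rw [← e2, ← e, ← h]
  rfl

/-- pull back of forms -/
def pbk (D : ZZ m →L[ℝ] ZZ m) : Fm m →L[ℝ] Fm m :=
  ContinuousMultilinearMap.compContinuousLinearMapL fun _ => D

lemma pbk_apply (D : ZZ m →L[ℝ] ZZ m) (φ : Fm m) :
    pbk D φ = φ.compContinuousLinearMap fun _ => D := rfl

lemma contDiff_pbk : ContDiff ℝ ∞ (pbk : (ZZ m →L[ℝ] ZZ m) → _) := by
  have h1 := ContinuousMultilinearMap.contDiff (𝕜 := ℝ) (E := fun _ : Fin m => ZZ m →L[ℝ] ZZ m)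
    (F := Fm m →L[ℝ] Fm m) (n := ∞)
    (ContinuousMultilinearMap.compContinuousLinearMapContinuousMultilinear ℝ
      (fun _ : Fin m => ZZ m) (fun _ => ZZ m) ℝ)
  have h2 : ContDiff ℝ ∞ fun (D : ZZ m →L[ℝ] ZZ m) (_ : Fin m) => D :=
    contDiff_pi.2 fun _ => contDiff_id
  exact h1.comp h2

lemma pbk_pbk {D D' : ZZ m →L[ℝ] ZZ m} (h : ∀ v, D' (D v) = v) (φ : Fm m) :
    pbk D (pbk D' φ) = φ := by
  ext v
  simp [pbk_apply, h]

/-- a symplectic map that takes the graph of `A` to the graph of `A'` -/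
lemma dfm_pbk {D : ZZ m →L[ℝ] ZZ m} {A A' L : Euc m →L[ℝ] Euc m}
    (hD : ∀ v w, om (D v) (D w) = om v w) (hA : ∀ x y, ⟪A x, y⟫ = ⟪x, A y⟫)
    (hA' : ∀ x y, ⟪A' x, y⟫ = ⟪x, A' y⟫) (hL : ∀ e, D (e, A e) = (L e, A' (L e))) :
    dfm A = L.det • pbk D (dfm A') := by
  have k : ∀ v, L.adjoint (prA A' (D v)) = prA A v := fun v => ext_inner_right ℝ fun e => by
    have h := hD (e, A e) v
    rw [hL] at h
    simp only [om] at h
    rw [ContinuousLinearMap.adjoint_inner_left, prA_apply, prA_apply, inner_sub_left,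
      inner_sub_left, hA', hA, real_inner_comm (A' (L e)), real_inner_comm (A e)]
    linarith
  have d : L.adjoint.det = L.det := by
    let b := EuclideanSpace.basisFun (Fin m) ℝ
    rw [ContinuousLinearMap.det, ContinuousLinearMap.det, ← ContinuousLinearMap.adjoint_toLinearMap,
      ← LinearMap.det_toMatrix b.toBasis, LinearMap.toMatrix_adjoint, Matrix.det_conjTranspose,
      LinearMap.det_toMatrix, star_trivial]
  ext v
  have h := detM_map L.adjoint fun i => prA A' (D (v i))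
  simp only [k, d] at h
  exact h

/-- evaluation on the standard basis of a graph -/
def evG (A : Euc m →L[ℝ] Euc m) : Fm m →L[ℝ] ℝ :=
  ContinuousMultilinearMap.apply ℝ (fun _ : Fin m => ZZ m) ℝ (gbas A)


/-- the map `(q, p) ↦ (q, A q)` -/
def grA (A : Euc m →L[ℝ] Euc m) : ZZ m →L[ℝ] ZZ m :=
  (ContinuousLinearMap.fst ℝ _ _).prod (A ∘L ContinuousLinearMap.fst ℝ _ _)

lemma contDiff_evG : ContDiff ℝ ∞ (evG : (Euc m →L[ℝ] Euc m) → _) := by
  have h : ContDiff ℝ ∞ (grA : (Euc m →L[ℝ] Euc m) → _) :=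
    (ContinuousLinearMap.prodₗᵢ (𝕜 := ℝ) (E := ZZ m) (F := Euc m) (G := Euc m) ℝ).contDiff.comp
      (f := fun A => (ContinuousLinearMap.fst ℝ _ _, A ∘L ContinuousLinearMap.fst ℝ _ _))
      (contDiff_const.prodMk (contDiff_id.clm_comp contDiff_const))
  have e : (evG : (Euc m →L[ℝ] Euc m) → _) = fun A => evG 0 ∘L pbk (grA A) := by
    ext A φ
    rfl
  rw [e]
  exact contDiff_const.clm_comp (contDiff_pbk.comp h)

end Crest.Agent.N221
end
end

-- ▼ part N221/G0/Im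
section

/-! Row 221, block G0, instance (helper39): the section `MM = (σ⁻, 1)`, its cocycle `Bc`, the slice
relation `lam = (σ⁺, -(-1)^m)`. -/

set_option autoImplicit false
set_option linter.unusedSectionVars false
set_option linter.unusedVariables false

open MeasureTheory Set Filter Topology Metric
open scoped ContDiff RealInnerProductSpace ENNReal
open Crest.GeometryTopology.Submanifold
open Crest.Agent.R241.DDefs Crest.Agent.R241.D2
open Crest.Agent.R208.J Crest.Agent.R208.L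

noncomputable section

namespace Crest.Agent.N221

/-- the fibre -/
abbrev WW (m : ℕ) := Fm m × ℝ

/-- `(φ, t) ↦ (s φ ∘ D, t)` -/
def bc {m : ℕ} (k : ℝ × (ZZ m →L[ℝ] ZZ m)) : WW m →L[ℝ] WW m :=
  (k.1 • pbk k.2).prodMap (ContinuousLinearMap.id ℝ ℝ)

lemma bc_apply {m : ℕ} (k : ℝ × (ZZ m →L[ℝ] ZZ m)) (w : WW m) :
    bc k w = (k.1 • pbk k.2 w.1, w.2) := rfl

lemma contDiff_bc {m : ℕ} : ContDiff ℝ ∞ (bc : ℝ × (ZZ m →L[ℝ] ZZ m) → _) :=
  contDiff_clm_apply_iff.2 fun w => (contDiff_fst.smul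
    ((contDiff_pbk.comp contDiff_snd).clm_apply (contDiff_const (c := w.1)))).prodMk contDiff_const

/-- `(e^{-s} dfm (-A), 1)` -/
def nu0 {m : ℕ} (k : ℝ × (Euc m →L[ℝ] Euc m)) : WW m := (Real.exp (-k.1) • dfm (-k.2), 1)

lemma contDiff_nu0 {m : ℕ} : ContDiff ℝ ∞ (nu0 : ℝ × (Euc m →L[ℝ] Euc m) → _) :=
  ((contDiff_fst.neg.exp).smul (contDiff_dfm.comp contDiff_snd.neg)).prodMk contDiff_const

/-- `(φ, t) ↦ e^{-s} φ (gbas A) - (-1)^m t` -/
def lam0 {m : ℕ} (k : ℝ × (Euc m →L[ℝ] Euc m)) : WW m →L[ℝ] ℝ :=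
  Real.exp (-k.1) • (evG k.2 ∘L ContinuousLinearMap.fst ℝ (Fm m) ℝ) -
    ((-1 : ℝ) ^ m) • ContinuousLinearMap.snd ℝ (Fm m) ℝ

lemma contDiff_lam0 {m : ℕ} : ContDiff ℝ ∞ (lam0 : ℝ × (Euc m →L[ℝ] Euc m) → _) :=
  ((contDiff_fst.neg.exp).smul ((contDiff_evG.comp contDiff_snd).clm_comp contDiff_const)).sub
    contDiff_const

namespace Cov

variable {n N m : ℕ} {a : ℝ} {S : Set (Euc N)} {G : Geo n N (-(a ^ 2)) S} (C : Cov G)

/-- `(σ⁻, 1)` on the unstable graph of `η` -/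
def nu (α : TT N → ℝ) (c : ℝ) (f : FF n N m) (η : Euc n) (q : Euc m) : WW m :=
  nu0 (C.aa α c f η q, C.HH f η q)

/-- `(σ⁻, 1)` in the chart -/
def MM (α : TT N → ℝ) (c : ℝ) (f : FF n N m) (z : ZZ m) : WW m := C.nu α c f (C.ge f z).2 z.1

/-- the slice relation on the stable graph of `ξ` -/
def lam (α : TT N → ℝ) (c : ℝ) (f : FF n N m) (ξ : Euc n) (q : Euc m) : WW m →L[ℝ] ℝ :=
  lam0 (C.aa α c f ξ q, C.HH f ξ q)

/-- the differential of the transition on `E^u` -/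
def Lu (f f' : FF n N m) (z : ZZ m) : Euc m →L[ℝ] Euc m :=
  ContinuousLinearMap.fst ℝ _ _ ∘L fderiv ℝ (C.Tf f f') z ∘L
    (ContinuousLinearMap.id ℝ _).prod (C.Su f z)

/-- its orientation -/
def sg (f f' : FF n N m) (z : ZZ m) : ℝ := SignType.sign (C.Lu f f' z).det

/-- the cocycle (pull back from the chart `f'` to the chart `f`) -/
def Bc (h : ℝ) (f f' : FF n N m) (z : ZZ m) : WW m →L[ℝ] WW m :=
  bc (C.sg f f' z * Real.exp (h * C.tm f f' z), fderiv ℝ (C.Tf f f') z)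

variable {f f' : FF n N m} {z : ZZ m} {ξ η : Euc n} {q : Euc m} {g : Euc n → Euc n}
  {h c : ℝ} {α : TT N → ℝ}

lemma MM_eq (f : FF n N m) (z : ZZ m) : C.MM α c f z =
    (Real.exp (-C.aa α c f (C.ge f z).2 z.1) • dfm (C.Su f z), 1) := rfl


lemma lam_apply (f : FF n N m) (ξ : Euc n) (q : Euc m) (w : WW m) : C.lam α c f ξ q w =
    Real.exp (-C.aa α c f ξ q) * w.1 (gbas (C.HH f ξ q)) - (-1) ^ m * w.2 := rfl

lemma Bc_apply (f f' : FF n N m) (z : ZZ m) (w : WW m) : C.Bc h f f' z w =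
    ((C.sg f f' z * Real.exp (h * C.tm f f' z)) •
      w.1.compContinuousLinearMap fun _ => fderiv ℝ (C.Tf f f') z, w.2) := rfl


variable (H : Hyp n N a S) (hm : m + 1 = n)
include H hm

lemma MM_gu (hf : C.Frm f) (hη : C.Fw (fp f) η) (hq : ‖q‖ ≤ 2 * C.rr m) :
    C.MM α c f (C.gu f η q) = C.nu α c f η q := by
  rw [MM, (C.ge_gu H hm hf hη hq).2.2]
  rfl

lemma lam_MM (hc : Co G h α c) (hf : C.Frm f) (hz : z ∈ C.Dm f) :
    C.lam α c f (C.ge f z).1 z.1 (C.MM α c f z) = 0 := by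
  have e := C.det_Su_sub_Ss H hm hc hf hz
  rw [lam_apply, MM_eq]
  change _ * (_ * dfm (C.Su f z) (gbas (C.Ss f z))) - _ = 0
  rw [dfm_gbas, e, Real.exp_add, Real.exp_neg, Real.exp_neg]
  field_simp
  ring

lemma lam_gs (hc : Co G h α c) (hf : C.Frm f) (hξ : C.Fw f ξ) (hq : ‖q‖ ≤ 2 * C.rr m) :
    C.lam α c f ξ q (C.MM α c f (C.gs f ξ q)) = 0 := by
  obtain ⟨h1, -, h2⟩ := C.ge_gs H hm hf hξ hq
  have := C.lam_MM H hm hc hf h1
  rwa [h2] at this

lemma Lu_eq (hf : C.Frm f) (hf' : C.Frm f') (hz : z ∈ C.dm f f') :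
    C.Lu f f' z = fderiv ℝ (C.lf (fp f) (fp f') (C.ge f z).2) z.1 :=
  ContinuousLinearMap.ext fun e => congrArg Prod.fst (C.fderiv_Tf_u H hm hf hf' hz e)

lemma abs_det_Lu (hc : Co G h α c) (hf : C.Frm f) (hf' : C.Frm f') (hz : z ∈ C.dm f f') :
    |(C.Lu f f' z).det| = Real.exp (h * C.tm f f' z + C.aa α c f (C.ge f z).2 z.1 -
      C.aa α c f' (C.ge f' (C.Tf f f' z)).2 (C.Tf f f' z).1) := by
  have r0 := C.rr_pos H hm
  have h1 : ‖z‖ ≤ 2 * C.rr m := by linarith [hz.1]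
  have hη := C.back H hm hf h1
  have e := C.eq_gu H hf (C.Dm_of_le H hm hf h1)
  obtain ⟨a1, a2, a3⟩ := C.Tf_gu H hm hf hf' hη (q := z.1) (by rwa [e])
  rw [e] at a1 a3
  rw [C.Lu_eq H hm hf hf' hz, C.abs_det_lf H hm hf.fp hf'.fp hc hη a2, a3,
    (C.Tf_spec H hm hf' hz).2, a1, aa_fp, aa_fp]
  congr 1
  simp only [gu]
  ring

lemma det_Lu_ne (hf : C.Frm f) (hf' : C.Frm f') (hz : z ∈ C.dm f f') : (C.Lu f f' z).det ≠ 0 := by
  have r0 := C.rr_pos H hm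
  intro e
  obtain ⟨v, hv, h0⟩ := (Submodule.ne_bot_iff _).1
    (LinearMap.det_eq_zero_iff_ker_ne_bot.1 e)
  have k := C.fderiv_Tf_u H hm hf hf' hz v
  rw [← C.Lu_eq H hm hf hf' hz, show C.Lu f f' z v = 0 from hv, map_zero] at k
  have k2 := C.fderiv_Tf_symm H hm hf hf' hz (v, C.Su f z v)
  rw [k, show ((0 : Euc m), (0 : Euc m)) = 0 from rfl, map_zero] at k2
  exact h0 (congrArg Prod.fst k2).symm

lemma sg_sq (hf : C.Frm f) (hf' : C.Frm f') (hz : z ∈ C.dm f f') :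
    C.sg f f' z = 1 ∨ C.sg f f' z = -1 := by
  rcases lt_or_gt_of_ne (C.det_Lu_ne H hm hf hf' hz) with e | e
  · right; simp [sg, sign_neg e]
  · left; simp [sg, sign_pos e]

lemma sg_ev (hf : C.Frm f) (hf' : C.Frm f') (hz : z ∈ C.dm f f') :
    ∀ᶠ w in 𝓝 z, C.sg f f' w = C.sg f f' z := by
  have r0 := C.rr_pos H hm
  have hD := C.Dm_of_le H hm hf (z := z) (by linarith [hz.1])
  have c1 : ContinuousAt (C.Su f) z :=
    ((C.continuousOn_Su H hm).comp (f := fun w => (f, w)) (s := C.Dm f) (by fun_prop)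
      fun w hw => ⟨hf, hw⟩).continuousAt ((C.isOpen_Dm H hf).mem_nhds hD)
  have c2 : ContinuousAt (fderiv ℝ (C.Tf f f')) z :=
    ((C.contDiffAt_Tf H hm hf hf' hz).fderiv_right (m := 0) (by simp)).continuousAt
  have c3 : ContinuousAt (fun w => (ContinuousLinearMap.id ℝ (Euc m)).prod (C.Su f w)) z :=
    (ContinuousLinearMap.prodₗᵢ (𝕜 := ℝ) (E := Euc m) (F := Euc m) (G := Euc m)
      ℝ).continuous.continuousAt.comp (f := fun w => (ContinuousLinearMap.id ℝ (Euc m), C.Su f w))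
      (continuousAt_const.prodMk c1)
  have c4 : ContinuousAt (fun w => (C.Lu f f' w).det) z :=
    ContinuousLinearMap.continuous_det.continuousAt.comp
      (continuousAt_const.clm_comp (c2.clm_comp c3))
  rcases lt_or_gt_of_ne (C.det_Lu_ne H hm hf hf' hz) with e | e
  · filter_upwards [c4.eventually (gt_mem_nhds e)] with w hw
    simp [sg, sign_neg e, sign_neg hw]
  · filter_upwards [c4.eventually (lt_mem_nhds e)] with w hw
    simp [sg, sign_pos e, sign_pos hw]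

/-- INVARIANCE -/
lemma MM_Tf (hc : Co G h α c) (hf : C.Frm f) (hf' : C.Frm f') (hz : z ∈ C.dm f f') :
    C.MM α c f z = C.Bc h f f' z (C.MM α c f' (C.Tf f f' z)) := by
  have r0 := C.rr_pos H hm
  have n0 : ∀ {f : FF n N m} {z : ZZ m}, C.Frm f → ‖z‖ < C.rr m → ∀ x y,
      ⟪C.Su f z x, y⟫ = ⟪x, C.Su f z y⟫ := fun {f z} hf hz x y => by
    have := C.HH_symm H (bas_ne0 (C.ge_GG H hf (C.Dm_of_le H hm hf (z := z) (by linarith))).2.1)
      f z.1 x y
    simp only [Su, neg_apply, inner_neg_left, inner_neg_right, this]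
  have k := dfm_pbk (C.om_Tf H hm hf hf' hz) (n0 hf hz.1) (n0 hf' (C.Tf_spec H hm hf' hz).1)
    (C.fderiv_Tf_u H hm hf hf' hz)
  rw [← C.Lu_eq H hm hf hf' hz] at k
  have e := C.abs_det_Lu H hm hc hf hf' hz
  rw [MM_eq, MM_eq, Bc, bc_apply, k, map_smul, smul_smul, smul_smul]
  congr 2
  rw [← sign_mul_abs (C.Lu f f' z).det, e, sub_eq_add_neg, Real.exp_add, Real.exp_add,
    Real.exp_neg (C.aa α c f _ _)]
  simp only [sg]
  field_simp

lemma sg_symm (hf : C.Frm f) (hf' : C.Frm f') (hz : z ∈ C.dm f f') :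
    C.sg f f' z * C.sg f' f (C.Tf f f' z) = 1 := by
  have k : C.Lu f' f (C.Tf f f' z) ∘L C.Lu f f' z = ContinuousLinearMap.id ℝ _ :=
    ContinuousLinearMap.ext fun e => by
      have k1 := C.fderiv_Tf_u H hm hf hf' hz e
      rw [← C.Lu_eq H hm hf hf' hz] at k1
      have k2 := C.fderiv_Tf_symm H hm hf hf' hz (e, C.Su f z e)
      rw [k1] at k2
      exact congrArg Prod.fst k2
  have d : (C.Lu f f' z).det * (C.Lu f' f (C.Tf f f' z)).det = 1 := by
    rw [mul_comm, ← UDn.det_comp, k]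
    exact LinearMap.det_id
  rw [sg, sg, ← SignType.coe_mul, ← sign_mul, d]
  simp

lemma Bc_Bc (hf : C.Frm f) (hf' : C.Frm f') (hz : z ∈ C.dm f f') (w : WW m) :
    C.Bc h f f' z (C.Bc h f' f (C.Tf f f' z) w) = w := by
  rw [Bc, Bc, bc_apply, bc_apply, map_smul, smul_smul, pbk_pbk (C.fderiv_Tf_symm H hm hf hf' hz),
    (C.Tf_symm H hm hf hf' hz).2.2, mul_mul_mul_comm, C.sg_symm H hm hf hf' hz, ← Real.exp_add]
  simp

lemma Bc_Bc' (hf : C.Frm f) (hf' : C.Frm f') (hz : z ∈ C.dm f f') (w : WW m) :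
    C.Bc h f' f (C.Tf f f' z) (C.Bc h f f' z w) = w := by
  obtain ⟨h1, h2, -⟩ := C.Tf_symm H hm hf hf' hz
  have := C.Bc_Bc H hm (h := h) hf' hf h1 w
  rwa [h2] at this

lemma MM_Tf' (hc : Co G h α c) (hf : C.Frm f) (hf' : C.Frm f') (hz : z ∈ C.dm f f') :
    C.Bc h f' f (C.Tf f f' z) (C.MM α c f z) = C.MM α c f' (C.Tf f f' z) := by
  rw [C.MM_Tf H hm hc hf hf' hz, C.Bc_Bc' H hm hf hf' hz]

end Cov

end Crest.Agent.N221
end
end

-- ▼ part N221/G0/Im2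

/-! Row 221, block G0, instance (helper39): uniform bounds of `nu`, `lam`, `Bc`, deck invariance,
continuity, the ambient part `Am` of a step. -/

set_option autoImplicit false
set_option linter.unusedSectionVars false
set_option linter.unusedVariables false

open MeasureTheory Set Filter Topology Metric
open scoped ContDiff RealInnerProductSpace ENNReal
open Crest.GeometryTopology.Submanifold
open Crest.Agent.R241.DDefs Crest.Agent.R241.D2
open Crest.Agent.R208.J Crest.Agent.R208.L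

noncomputable section

namespace Crest.Agent.N221

open Ex G0

lemma Ex.UB.uj {ι X Y : Type} [NormedAddCommGroup X] [NormedSpace ℝ X] [NormedAddCommGroup Y]
    [NormedSpace ℝ Y] {U : ι → Set X} {φ : ι → X → Y} (h : UB U φ) :
    ∃ c : ℕ → ℝ, (∀ k, 1 ≤ c k) ∧ ∀ i, ∀ x ∈ U i, UJ c (φ i) x := by
  obtain ⟨c, h1, h2⟩ := h.bds
  exact ⟨c, h1, fun i x hx => ⟨h.at hx, fun k => h2 k i x hx⟩⟩

lemma G0.UJ.mono {X Y : Type} [NormedAddCommGroup X] [NormedSpace ℝ X] [NormedAddCommGroup Y]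
    [NormedSpace ℝ Y] {c c' : ℕ → ℝ} {f : X → Y} {x : X} (h : UJ c f x) (hc : ∀ k, c k ≤ c' k) :
    UJ c' f x := ⟨h.1, fun k => (h.2 k).trans (hc k)⟩

lemma G0.UJ.congr {X Y : Type} [NormedAddCommGroup X] [NormedSpace ℝ X] [NormedAddCommGroup Y]
    [NormedSpace ℝ Y] {c : ℕ → ℝ} {f f' : X → Y} {x : X} (h : UJ c f x) (e : f' =ᶠ[𝓝 x] f) :
    UJ c f' x :=
  ⟨h.1.congr_of_eventuallyEq e, fun k => by rw [(e.iteratedFDeriv ℝ k).eq_of_nhds]; exact h.2 k⟩

lemma G0.UJ.neg {X Y : Type} [NormedAddCommGroup X] [NormedSpace ℝ X] [NormedAddCommGroup Y]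
    [NormedSpace ℝ Y] {c : ℕ → ℝ} {f : X → Y} {x : X} (h : UJ c f x) : UJ c (fun y => -f y) x :=
  ⟨h.1.neg, fun k => by
    have := iteratedFDeriv_neg_apply (𝕜 := ℝ) (i := k) (f := f) (x := x)
    rw [show (fun y => -f y) = -f from rfl, this, norm_neg]
    exact h.2 k⟩

lemma G0.UJ.norm_le {X Y : Type} [NormedAddCommGroup X] [NormedSpace ℝ X] [NormedAddCommGroup Y]
    [NormedSpace ℝ Y] {c : ℕ → ℝ} {f : X → Y} {x : X} (h : UJ c f x) :
    ‖f x‖ ≤ c 0 ∧ ‖fderiv ℝ f x‖ ≤ c 1 :=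
  ⟨norm_iteratedFDeriv_zero.symm.trans_le (h.2 0), (norm_iteratedFDeriv_one _).symm.trans_le (h.2 1)⟩

namespace Cov

variable {n N m : ℕ} {a : ℝ} {S : Set (Euc N)} {G : Geo n N (-(a ^ 2)) S} (C : Cov G)
variable {f f' : FF n N m} {z : ZZ m} {ξ η : Euc n} {q : Euc m} {g : Euc n → Euc n}
  {h c : ℝ} {α : TT N → ℝ}

/-- pairs of frames at distance `≤ R` -/
abbrev PR (m : ℕ) (R : ℝ) : Type :=
  {p : FF n N m × FF n N m // C.Frm p.1 ∧ C.Frm p.2 ∧ C.dd p.1.1 p.2.1 ≤ R}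

/-- frames with a boundary point in front -/
abbrev PF (m : ℕ) : Type := {p : FF n N m × Euc n // C.Frm p.1 ∧ C.Fw p.1 p.2}

variable (H : Hyp n N a S) (hm : m + 1 = n)
include H hm

lemma ub_tmP (R : ℝ) : UB (fun p : C.PR m R => C.dm p.1.1 p.1.2) fun p => C.tm p.1.1 p.1.2 :=
  ⟨fun p => C.isOpen_dm H hm p.2.1 p.2.2.1,
    fun p _ hz => (C.contDiffAt_tm H hm p.2.1 p.2.2.1 hz).contDiffWithinAt, fun k => by
      obtain ⟨B, hB⟩ := C.jb_tm H hm R k
      exact ⟨max B 1, by positivity, fun p z hz =>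
        (hB (p.1, z) ⟨p.2.1, p.2.2.1, p.2.2.2, hz⟩).trans (le_max_left _ _)⟩⟩

lemma ub_Bc (h R : ℝ) :
    UB (fun p : C.PR m R => C.dm p.1.1 p.1.2) fun p => C.Bc h p.1.1 p.1.2 := by
  have h1 := (C.ub_Tf H hm R).fderiv
  have h2 := (C.ub_tmP H hm R).smooth (Φ := fun t => Real.exp (h * t)) (by fun_prop)
  have o : ∀ p : C.PR m R × Bool, IsOpen (C.dm p.1.1.1 p.1.1.2) := fun p => h1.op p.1
  have k1 := h1.mono (Prod.fst : C.PR m R × Bool → _) o fun _ => Subset.rfl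
  have k2 := h2.mono (Prod.fst : C.PR m R × Bool → _) o fun _ => Subset.rfl
  have k3 := UB.const (M := 1) (c := fun p : C.PR m R × Bool => (bif p.2 then 1 else -1 : ℝ)) o
    fun p => by cases p.2 <;> simp
  have h3 := ((UB.bilin (ContinuousLinearMap.mul ℝ ℝ) k3 k2).prod k1).smooth (contDiff_bc (m := m))
  refine h3.of_local h1.op fun p z hz => ?_
  have e := C.sg_ev H hm p.2.1 p.2.2.1 hz
  rcases C.sg_sq H hm p.2.1 p.2.2.1 hz with k | k
  · exact ⟨(p, true), hz, e.mono fun w hw => by rw [Bc, hw, k]; rfl⟩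
  · exact ⟨(p, false), hz, e.mono fun w hw => by rw [Bc, hw, k]; rfl⟩

/-- the push forward cocycle -/
lemma ub_Bc' (h R : ℝ) : UB (fun p : C.PR m R => C.dm p.1.1 p.1.2)
    fun p z => C.Bc h p.1.2 p.1.1 (C.Tf p.1.1 p.1.2 z) :=
  UB.comp (V := fun p : C.PR m R => C.dm p.1.2 p.1.1) (ψ := fun p => C.Bc h p.1.2 p.1.1)
    ((C.ub_Bc H hm h R).mono (fun p : C.PR m R => (⟨(p.1.2, p.1.1), p.2.2.1, p.2.1,
      (C.dd_comm _ _).trans_le p.2.2.2⟩ : C.PR m R)) (fun p => C.isOpen_dm H hm p.2.2.1 p.2.1)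
      fun _ => Subset.rfl) (C.ub_Tf H hm R) fun p _ hz => (C.Tf_symm H hm p.2.1 p.2.2.1 hz).1

lemma ub_aaH (hc : Co G h α c) : UB (fun _ : C.PF m => ball (0 : Euc m) (2 * C.rr m))
    fun p q => (C.aa α c p.1.1 p.1.2 q, C.HH p.1.1 p.1.2 q) :=
  UB.prod ⟨fun _ => isOpen_ball, fun p q hq => ((C.jc_aa H hm hc).sm (p.1, q)
      ⟨p.2.1, p.2.2, (mem_ball_zero_iff.1 hq).le⟩).contDiffWithinAt, fun k => by
      obtain ⟨B, hB⟩ := C.jb_aa H hm hc k
      exact ⟨max B 1, by positivity, fun p q hq =>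
        (hB (p.1, q) ⟨p.2.1, p.2.2, (mem_ball_zero_iff.1 hq).le⟩).trans (le_max_left _ _)⟩⟩
    ⟨fun _ => isOpen_ball, fun p q hq =>
      ((C.jc_HH H).sm (p.1, q) p.2.2.1).contDiffWithinAt, fun k => by
      obtain ⟨B, hB⟩ := C.jb_HH (m := m) H (2 * C.rr m) k
      exact ⟨max B 1, by positivity, fun p q hq =>
        (hB (p.1, q) ⟨p.2.1, p.2.2.1, (mem_ball_zero_iff.1 hq).le⟩).trans (le_max_left _ _)⟩⟩

lemma ub_lam (hc : Co G h α c) : UB (fun _ : C.PF m => ball (0 : Euc m) (2 * C.rr m))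
    fun p => C.lam α c p.1.1 p.1.2 := (C.ub_aaH H hm hc).smooth contDiff_lam0

/-- `nu` on the unstable graphs; the parameter is `(fp f, η)` -/
lemma ub_nu (hc : Co G h α c) : UB (fun _ : C.PF m => ball (0 : Euc m) (2 * C.rr m))
    fun p => C.nu α c p.1.1 p.1.2 := (C.ub_aaH H hm hc).smooth contDiff_nu0

lemma uj_nu (hc : Co G h α c) : ∃ d : ℕ → ℝ, (∀ k, 1 ≤ d k) ∧ ∀ (f : FF n N m) (η : Euc n)
    (q : Euc m), C.Frm f → C.Fw (fp f) η → ‖q‖ < 2 * C.rr m → UJ d (C.nu α c f η) q := by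
  obtain ⟨d, h1, h2⟩ := (C.ub_nu H hm hc).uj
  exact ⟨d, h1, fun f η q hf hη hq => h2 ⟨(fp f, η), hf.fp, hη⟩ q (mem_ball_zero_iff.2 hq)⟩

lemma uj_lam (hc : Co G h α c) : ∃ d : ℕ → ℝ, (∀ k, 1 ≤ d k) ∧ ∀ (f : FF n N m) (ξ : Euc n)
    (q : Euc m), C.Frm f → C.Fw f ξ → ‖q‖ < 2 * C.rr m → UJ d (C.lam α c f ξ) q := by
  obtain ⟨d, h1, h2⟩ := (C.ub_lam H hm hc).uj
  exact ⟨d, h1, fun f ξ q hf hξ hq => h2 ⟨(f, ξ), hf, hξ⟩ q (mem_ball_zero_iff.2 hq)⟩

/-- everything the ambient part `Am` of a step needs, `φ = Tf f f'`, `A w = Bc f' f (φ w)` -/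
lemma am_all (hc : Co G h α c) (R : ℝ) : ∃ (b : ℝ) (d : ℕ → ℝ), 1 ≤ b ∧ (∀ k, 1 ≤ d k) ∧
    ∀ (f f' : FF n N m) (w : ZZ m), C.Frm f → C.Frm f' → C.dd f.1 f'.1 ≤ R → w ∈ C.dm f f' →
      UJ d (C.Tf f f') w ∧ UJ d (fun w => C.Bc h f' f (C.Tf f f' w)) w ∧
      ‖C.Bc h f' f (C.Tf f f' w)‖ ≤ b ∧ (∀ v, ‖v‖ ≤ b * ‖C.Bc h f' f (C.Tf f f' w) v‖) ∧
      ‖fderiv ℝ (C.Tf f f') w‖ ≤ b ∧ (∀ v, ‖v‖ ≤ b * ‖fderiv ℝ (C.Tf f f') w v‖) ∧
      C.Bc h f' f (C.Tf f f' w) (C.MM α c f w) = C.MM α c f' (C.Tf f f' w) := by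
  obtain ⟨d1, a1, k1⟩ := (C.ub_Tf H hm R).uj
  obtain ⟨d2, a2, k2⟩ := (C.ub_Bc' H hm h R).uj
  obtain ⟨d3, a3, k3⟩ := (C.ub_Bc H hm h R).uj
  have := a1 1
  have := a2 0
  have := a3 0
  refine ⟨d1 1 + d2 0 + d3 0, fun k => d1 k + d2 k, by linarith, fun k => by linarith [a1 k, a2 k],
    fun f f' w hf hf' hd hw => ⟨(k1 ⟨(f, f'), hf, hf', hd⟩ w hw).mono fun k => by linarith [a2 k],
    (k2 ⟨(f, f'), hf, hf', hd⟩ w hw).mono fun k => by linarith [a1 k],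
    (k2 ⟨(f, f'), hf, hf', hd⟩ w hw).norm_le.1.trans (by linarith), fun v => ?_,
    (k1 ⟨(f, f'), hf, hf', hd⟩ w hw).norm_le.2.trans (by linarith), fun v => ?_,
    C.MM_Tf' H hm hc hf hf' hw⟩⟩
  · conv_lhs => rw [← C.Bc_Bc H hm (h := h) hf hf' hw v]
    exact ContinuousLinearMap.le_of_opNorm_le _
      ((k3 ⟨(f, f'), hf, hf', hd⟩ w hw).norm_le.1.trans (by linarith)) _
  · conv_lhs => rw [← C.fderiv_Tf_symm H hm hf hf' hw v]
    exact ContinuousLinearMap.le_of_opNorm_le _ ((k1 ⟨(f', f), hf', hf, (C.dd_comm _ _).trans_le hd⟩ _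
      (C.Tf_symm H hm hf hf' hw).1).norm_le.2.trans (by linarith)) _

omit hm in
lemma nu_fg (hf : C.Frm f) (hg : C.Deck g) (hη : η ≠ 0) :
    C.nu α c (fg g f) (C.act g η) = C.nu α c f η := by
  funext q
  rw [nu, nu, C.aa_fg H α c hf hg hη, C.HH_fg H hf hg hη]


omit hm in
lemma MM_fg (hf : C.Frm f) (hg : C.Deck g) (hz : z ∈ C.Dm f) :
    C.MM α c (fg g f) z = C.MM α c f z := by
  rw [MM, MM, C.ge_fg H hf hg hz, C.nu_fg H hf hg (bas_ne0 (C.ge_GG H hf hz).2.1)]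


end Cov

end Crest.Agent.N221
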