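import Crest.Agent.N221.G0.LDefs
import Crest.Agent.N221.A1.PRem_Mg

/-! Row 221, block G0/L: Taylor polynomials at a moving centre. -/

set_option autoImplicit false
set_option linter.unusedSectionVars false

open Set Metric Filter Topology Real
open scoped ContDiff Nat

namespace Crest.Agent.N221.G0.L

variable {E V : Type} [NormedAddCommGroup E] [NormedSpace ℝ E] [NormedAddCommGroup V]
  [NormedSpace ℝ V] {K : ℕ} {w g : E → V} {a z : E}

lemma li (k : ℕ) : (k : WithTop ℕ∞) ≤ ∞ := by exact_mod_cast le_top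

lemma Ty_eq (K : ℕ) (w : E → V) (a z : E) : Ty K w a z = PS.tay K (fun v => w (a + v)) (z - a) := by
  simp only [Ty, PS.tay, iteratedFDeriv_comp_add_left, add_zero]


/-- polynomial of degree `≤ K` -/
structure Poly (K : ℕ) (g : E → V) : Prop where
  sm : ContDiff ℝ ∞ g
  zero : ∀ z, iteratedFDeriv ℝ (K + 1) g z = 0

lemma Poly.zero' (h : Poly K g) {n : ℕ} (hn : K < n) (z : E) : iteratedFDeriv ℝ n g z = 0 := by
  induction n, hn using Nat.le_induction generalizing z with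
  | base => exact h.zero z
  | succ n _ ih =>
    rw [← norm_eq_zero, ← norm_fderiv_iteratedFDeriv, show iteratedFDeriv ℝ n g = fun _ => 0 from
      funext ih, fderiv_fun_const]
    exact ContinuousLinearMap.opNorm_zero

lemma Poly.sub {g' : E → V} (h : Poly K g) (h' : Poly K g') : Poly K fun z => g z - g' z :=
  ⟨h.sm.sub h'.sm, fun z => by
    rw [fun_iteratedFDeriv_sub_apply (h.sm.contDiffAt.of_le (li _)) (h'.sm.contDiffAt.of_le (li _)),
      h.zero, h'.zero, sub_zero]⟩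

lemma diag_sm {i : ℕ} (M : E [×i]→L[ℝ] V) : ContDiff ℝ ∞ fun x : E => M fun _ => x :=
  M.contDiff.comp (contDiff_pi.2 fun _ => contDiff_id)

lemma diag_zero {i n : ℕ} (M : E [×i]→L[ℝ] V) (hn : i < n) (x : E) :
    iteratedFDeriv ℝ n (fun x : E => M fun _ => x) x = 0 := by
  set h : E → V := fun x => M fun _ => x with hh
  have hs : ContDiff ℝ n h := (diag_sm M).of_le (li n)
  have key : ∀ c : ℝ, c ≠ 0 →
      iteratedFDeriv ℝ n h x = c ^ (n - i) • iteratedFDeriv ℝ n h (c • x) := by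
    intro c hc
    have e1 := congrFun (iteratedFDeriv_comp_const_smul c hs) x
    have e2 : (fun z => h (c • z)) = fun z => c ^ i • h z := funext fun z => by
      simp only [hh]
      rw [M.map_smul_univ (fun _ => c) fun _ => z]; simp
    rw [e2, iteratedFDeriv_const_smul_apply' hs.contDiffAt] at e1
    apply smul_right_injective _ (pow_ne_zero i hc)
    simp only
    rw [e1, smul_smul, ← pow_add, Nat.add_sub_cancel' hn.le]
  have hc : Continuous fun c : ℝ => c ^ (n - i) • iteratedFDeriv ℝ n h (c • x) :=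
    (continuous_pow _).smul ((hs.continuous_iteratedFDeriv le_rfl).comp (by fun_prop))
  have h0 : Tendsto (fun c : ℝ => c ^ (n - i) • iteratedFDeriv ℝ n h (c • x)) (𝓝[≠] 0) (𝓝 0) := by
    have := (hc.tendsto 0).mono_left (nhdsWithin_le_nhds (s := {0}ᶜ))
    rwa [zero_pow (by omega), zero_smul] at this
  have h1 : (fun c : ℝ => c ^ (n - i) • iteratedFDeriv ℝ n h (c • x)) =ᶠ[𝓝[≠] 0]
      fun _ => iteratedFDeriv ℝ n h x := eventually_mem_nhdsWithin.mono fun c hc => (key c hc).symm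
  exact tendsto_nhds_unique tendsto_const_nhds (h0.congr' h1)

lemma poly_Ty (K : ℕ) (w : E → V) (a : E) : Poly K (Ty K w a) := by
  have h : ∀ i, ContDiff ℝ ∞ fun z : E => iteratedFDeriv ℝ i w a fun _ => z - a := fun i =>
    (diag_sm _).comp (contDiff_id.sub contDiff_const)
  refine ⟨ContDiff.sum fun i _ => (h i).const_smul _, fun z => ?_⟩
  unfold Ty
  rw [iteratedFDeriv_fun_sum_apply fun i _ => ((h i).const_smul _).contDiffAt.of_le (li _)]
  refine Finset.sum_eq_zero fun i hi => ?_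
  rw [iteratedFDeriv_const_smul_apply' ((h i).contDiffAt.of_le (li _)),
    iteratedFDeriv_comp_sub (f := fun x : E => iteratedFDeriv ℝ i w a fun _ => x),
    diag_zero _ (Finset.mem_range.1 hi), smul_zero]

lemma shift_sm {r : ℝ} (hw : ContDiffOn ℝ ∞ w (ball a r)) :
    ContDiffOn ℝ ∞ (fun v => w (a + v)) (ball 0 r) :=
  hw.comp (contDiff_const.add contDiff_id).contDiffOn fun v hv => by simpa using hv

lemma Ty_rem [CompleteSpace V] {r D : ℝ} (hw : ContDiffOn ℝ ∞ w (ball a r))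
    (hD : ∀ y ∈ ball a r, ‖iteratedFDeriv ℝ (K + 1) w y‖ ≤ D) (hz : z ∈ ball a r) :
    ‖w z - Ty K w a z‖ ≤ D * ‖z - a‖ ^ (K + 1) := by
  have := PS.Tay.rem (n := K) (shift_sm hw) (D := D) (x := z - a) (fun x hx => by
    rw [iteratedFDeriv_comp_add_left]; exact hD _ (by simpa using hx))
    (by rwa [mem_ball_zero_iff, ← mem_ball_iff_norm])
  rwa [add_sub_cancel, ← Ty_eq] at this

lemma Poly.eq_Ty [CompleteSpace V] (h : Poly K g) (a z : E) : g z = Ty K g a z := by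
  have := Ty_rem (K := K) (a := a) (z := z) (r := ‖z - a‖ + 1) (D := 0) h.sm.contDiffOn
    (fun y _ => by rw [h.zero, norm_zero]) (by rw [mem_ball_iff_norm]; linarith)
  rwa [zero_mul, norm_le_zero_iff, sub_eq_zero] at this

lemma Poly.remez [CompleteSpace V] (h : Poly K g) {r L η : ℝ} (hr : 0 < r) (hL : r ≤ L)
    (hη : ∀ y, ‖y - a‖ ≤ r → ‖g y‖ ≤ η) (hz : ‖z - a‖ ≤ L) : ‖g z‖ ≤ (6 * L / r) ^ K * η := by
  rw [h.eq_Ty a z, Ty_eq]
  refine PS.Tay.remez PS.remS _ hr hL (fun x hx => ?_) hz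
  have := hη (a + x) (by simpa using hx)
  rwa [h.eq_Ty a, Ty_eq, add_sub_cancel_left] at this

lemma Ty_size {L η : ℝ} (hL : 1 ≤ L) (hη : ∀ i ≤ K, ‖iteratedFDeriv ℝ i w a‖ ≤ η)
    (hz : ‖z - a‖ ≤ L) : ‖Ty K w a z‖ ≤ (K + 1) * L ^ K * η := by
  rw [Ty_eq]
  exact PS.Tay.size _ hL (fun i hi => by
    rw [iteratedFDeriv_comp_add_left, add_zero]; exact hη i hi) hz

lemma Ty_sub_self {δ : ℝ} (h : ∀ i < K, ‖iteratedFDeriv ℝ (i + 1) w a‖ * ‖z - a‖ ^ (i + 1) ≤ δ) :
    ‖Ty K w a z - w a‖ ≤ K * δ := by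
  rw [Ty, Finset.sum_range_succ']
  simp only [Nat.factorial_zero, Nat.cast_one, inv_one, one_smul, iteratedFDeriv_zero_apply,
    add_sub_cancel_right]
  refine (norm_sum_le _ _).trans ((Finset.sum_le_card_nsmul _ _ δ fun i hi => ?_).trans_eq (by simp))
  rw [norm_smul]
  exact (mul_le_of_le_one_left (norm_nonneg _) (PS.Tay.inv_fact_le _)).trans
    ((PS.Tay.norm_diag_le _ _).trans (h i (Finset.mem_range.1 hi)))

/-- derivatives of a polynomial from its sup norm -/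
lemma poly_jets (K : ℕ) : ∃ C : ℝ, 0 < C ∧ ∀ (E V : Type) [NormedAddCommGroup E] [NormedSpace ℝ E]
    [NormedAddCommGroup V] [NormedSpace ℝ V] [CompleteSpace V] (g : E → V) (a : E) (r η : ℝ),
    Poly K g → 0 < r → (∀ y ∈ ball a (2 * r), ‖g y‖ ≤ η) →
    ∀ i, ∀ y ∈ ball a r, ‖iteratedFDeriv ℝ i g y‖ ≤ C * η / r ^ i := by
  obtain ⟨C, hC, h⟩ := X.int_all (K + 1)
  refine ⟨C, hC, fun E V _ _ _ _ _ g a r η hg hr hη i y hy => ?_⟩
  have η0 : 0 ≤ η := (norm_nonneg _).trans (hη a (mem_ball_self (by positivity)))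
  rcases lt_or_ge K i with hi | hi
  · rw [hg.zero' hi, norm_zero]; positivity
  have := h E V g a (2 * r) η 0 (by positivity) (hg.sm.contDiffOn.of_le (li _)) hη
    (fun y _ => by rw [hg.zero, norm_zero]) i (by omega) y (by rwa [mul_div_cancel_left₀ _ two_ne_zero])
  rw [zero_mul, add_zero] at this
  refine this.trans ?_
  rw [mul_div_assoc]
  gcongr
  linarith

lemma loc_bd (hw : ∀ᶠ z in 𝓝 a, ContDiffAt ℝ ∞ w z) (n : ℕ) {X : ℝ}
    (hX : ‖iteratedFDeriv ℝ n w a‖ < X) : ∃ r > 0, ContDiffOn ℝ ∞ w (ball a r) ∧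
      ∀ y ∈ ball a r, ‖iteratedFDeriv ℝ n w y‖ ≤ X := by
  have h1 : ContinuousAt (iteratedFDeriv ℝ n w) a :=
    (hw.self_of_nhds.iteratedFDeriv_right (m := 0) (by exact_mod_cast le_top)).continuousAt
  obtain ⟨r, hr, h2⟩ := Metric.mem_nhds_iff.1 ((h1.norm.eventually_lt_const hX).and hw)
  exact ⟨r, hr, fun y hy => (h2 hy).2.contDiffWithinAt, fun y hy => (h2 hy).1.le⟩

lemma isBigO_rem [CompleteSpace V] (hw : ∀ᶠ z in 𝓝 a, ContDiffAt ℝ ∞ w z) (K : ℕ) :
    (fun z => w z - Ty K w a z) =O[𝓝 a] fun z => ‖z - a‖ ^ (K + 1) := by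
  obtain ⟨r, hr, h1, h2⟩ := loc_bd hw (K + 1) (lt_add_one _)
  refine Asymptotics.IsBigO.of_bound (‖iteratedFDeriv ℝ (K + 1) w a‖ + 1) ?_
  filter_upwards [ball_mem_nhds a hr] with z hz
  simpa using Ty_rem h1 h2 hz

lemma Ty_congr [CompleteSpace V] (hw : ∀ᶠ z in 𝓝 a, ContDiffAt ℝ ∞ w z)
    (hg : ∀ᶠ z in 𝓝 a, ContDiffAt ℝ ∞ g z)
    (h : (fun z => w z - g z) =O[𝓝 a] fun z => ‖z - a‖ ^ (K + 1)) (z : E) :
    Ty K w a z = Ty K g a z := by
  obtain ⟨c, hc⟩ := h.bound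
  obtain ⟨r, hr, h2⟩ := Metric.mem_nhds_iff.1 (hc.and (hw.and hg))
  have := (PS.tayS PS.remS E V K).2.2.1 _ _ r c hr
    (shift_sm (w := w) (a := a) fun y hy => (h2 hy).2.1.contDiffWithinAt)
    (shift_sm (w := g) (a := a) fun y hy => (h2 hy).2.2.contDiffWithinAt) fun x hx => by
      simpa using (h2 (show a + x ∈ ball a r by simpa using hx)).1
  rw [Ty_eq, Ty_eq, this]

/-- moving the centre along a Lipschitz path -/
lemma path [CompleteSpace V] {γ : ℝ → E} {l r X : ℝ} (hr : 0 < r)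
    (hγ : ∀ s ∈ Icc (0 : ℝ) 1, ∀ t ∈ Icc (0 : ℝ) 1, ‖γ t - γ s‖ ≤ l * |t - s|)
    (hw : ∀ t ∈ Icc (0 : ℝ) 1, (∀ᶠ y in 𝓝 (γ t), ContDiffAt ℝ ∞ w y) ∧
      ‖iteratedFDeriv ℝ (K + 1) w (γ t)‖ < X ∧ ‖z - γ t‖ ≤ r) :
    ‖Ty K w (γ 1) z - Ty K w (γ 0) z‖ ≤ (6 * r) ^ K * (X * (1 + 2 ^ (K + 1))) * l := by
  have l0 : 0 ≤ l := by simpa using (norm_nonneg _).trans (hγ 0 (by simp) 1 (by simp))
  have X0 : 0 < X := (norm_nonneg _).trans_lt (hw 0 (by simp)).2.1
  set M := (6 * r) ^ K * (X * (1 + 2 ^ (K + 1))) with hM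
  have M0 : 0 ≤ M := by positivity
  have loc : ∀ s ∈ Icc (0 : ℝ) 1, ∀ᶠ t in 𝓝[Icc 0 1] s,
      ‖Ty K w (γ t) z - Ty K w (γ s) z‖ ≤ M * l * |t - s| := by
    intro s hs
    obtain ⟨ρ, hρ, h1, h2⟩ := loc_bd (hw s hs).1 (K + 1) (hw s hs).2.1
    have hev : ∀ᶠ t in 𝓝 s, l * |t - s| < min r (ρ / 4) :=
      (by fun_prop : ContinuousAt (fun t => l * |t - s|) s).eventually_lt continuousAt_const
        (by simpa using ⟨hr, hρ⟩)
    filter_upwards [self_mem_nhdsWithin, hev.filter_mono nhdsWithin_le_nhds] with t ht hlt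
    have h3 := hγ s hs t ht
    obtain ⟨h4, h5⟩ := lt_min_iff.1 (h3.trans_lt hlt)
    rcases eq_or_ne (γ t) (γ s) with e | e
    · rw [e, sub_self, norm_zero]; positivity
    set h := ‖γ t - γ s‖ with hh
    have h0 : 0 < h := norm_pos_iff.2 (sub_ne_zero.2 e)
    have sub : ball (γ t) (3 * h) ⊆ ball (γ s) ρ :=
      ball_subset_ball' (by rw [dist_eq_norm]; linarith)
    have := ((poly_Ty K w (γ t)).sub (poly_Ty K w (γ s))).remez (a := γ s) (z := z)
      (η := X * (1 + 2 ^ (K + 1)) * h ^ (K + 1)) h0 h4.le (fun y hy => by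
        have hy' : ‖y - γ t‖ ≤ 2 * h := by
          have := norm_sub_le_norm_sub_add_norm_sub y (γ s) (γ t)
          rw [norm_sub_rev (γ s)] at this; linarith
        have a1 := Ty_rem h1 h2 (z := y) (by rw [mem_ball_iff_norm]; linarith)
        have a2 := Ty_rem (h1.mono sub) (fun y hy => h2 y (sub hy)) (z := y)
          (by rw [mem_ball_iff_norm]; linarith)
        have a3 : X * ‖y - γ s‖ ^ (K + 1) ≤ X * h ^ (K + 1) := by gcongr
        have a4 : X * ‖y - γ t‖ ^ (K + 1) ≤ X * (2 * h) ^ (K + 1) := by gcongr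
        have a5 := norm_sub_le_norm_sub_add_norm_sub (Ty K w (γ t) y) (w y) (Ty K w (γ s) y)
        rw [norm_sub_rev _ (w y)] at a5
        rw [mul_pow] at a4
        linarith) (hw s hs).2.2
    refine this.trans ?_
    have e2 : (6 * r / h) ^ K * (X * (1 + 2 ^ (K + 1)) * h ^ (K + 1)) = M * h := by
      rw [div_pow, hM]; field_simp; ring
    rw [e2, mul_assoc M]
    gcongr
  have hc : ContinuousOn (fun t => Ty K w (γ t) z) (Icc 0 1) := fun s hs => by
    rw [ContinuousWithinAt, tendsto_iff_norm_sub_tendsto_zero]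
    refine squeeze_zero' (Eventually.of_forall fun _ => norm_nonneg _) (loc s hs) ?_
    have : ContinuousAt (fun t => M * l * |t - s|) s := by fun_prop
    simpa using this.tendsto.mono_left nhdsWithin_le_nhds
  have := image_le_of_liminf_slope_right_le_deriv_boundary
    (f := fun t => ‖Ty K w (γ t) z - Ty K w (γ 0) z‖) (a := 0) (b := 1) (B := fun t => M * l * t)
    (B' := fun _ => M * l) (hc.sub continuousOn_const).norm (by simp) (by fun_prop)
    (fun x _ => by simpa using ((hasDerivAt_id x).const_mul (M * l)).hasDerivWithinAt)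
    (fun x hx ρ hρ => by
      have h1 : 𝓝[>] x ≤ 𝓝[Icc 0 1] x := nhdsWithin_le_iff.2
        (mem_of_superset (Ioo_mem_nhdsGT hx.2) fun t ht => ⟨hx.1.trans ht.1.le, ht.2.le⟩)
      refine (((loc x ⟨hx.1, hx.2.le⟩).filter_mono h1).and self_mem_nhdsWithin).frequently.mono
        fun t ⟨h2, h3⟩ => lt_of_le_of_lt ?_ hρ
      have h4 : 0 < t - x := sub_pos.2 h3
      rw [slope_def_field, div_le_iff₀ h4]
      rw [abs_of_pos h4] at h2
      exact (norm_sub_norm_le _ _).trans (by simpa using h2)) (right_mem_Icc.2 zero_le_one)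
  simpa using this

section
variable {Q P A A' X Y : Type} [NormedAddCommGroup Q] [NormedSpace ℝ Q] [NormedAddCommGroup P]
  [NormedSpace ℝ P] [NormedAddCommGroup A] [NormedSpace ℝ A] [NormedAddCommGroup A']
  [NormedSpace ℝ A'] {β : Box Q P A A' X Y} {x : X} {w : Q × P → A} {q : Q} {τ : ℝ}

theorem Box.Fml.of_jets (h : ∀ y, β.u y q = β.s x q → ∀ i ≤ K,
    ‖iteratedFDeriv ℝ i (fun t => β.df (β.gu y t) (w (β.gu y t))) q‖ ≤ τ) :
    β.Fml x w q K ((K + 1) * τ) := fun y hy q' hq' => by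
  simpa using Ty_size le_rfl (h y hy) hq'


end

end Crest.Agent.N221.G0.L
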