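import Crest.Agent.N221.G0.Top
import Crest.Agent.N221.G0.LPoly
import Crest.Agent.N221.G0.Ly
import Crest.Agent.N221.A1.PAll
import Crest.Agent.N221.Ex.UB
import Crest.Agent.N221.G0.ApB
import Crest.Agent.N221.G0.SgD

-- ▼ part N221/G0/Sm2
section

/-!
Row 221, block G0: uniqueness for normalised relations (leaf UbS, helper38).
-/

set_option autoImplicit false

open Set Metric Filter Topology
open scoped ContDiff

noncomputable section

namespace Crest.Agent.N221.G0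

namespace Ub

variable {E W : Type} [NormedAddCommGroup E] [NormedSpace ℝ E] [NormedAddCommGroup W]
  [NormedSpace ℝ W] {S : Sy E W}

lemma r2_le (hS : S.Ok) : S.r2 ≤ S.R / 2 ∧ S.R / 2 ≤ S.R0 := by
  have h1 := hS.b01
  have h2 := hS.r1p
  have h3 := hS.r1R
  have h4 := hS.RR0
  have h5 : 0 ≤ S.R := by nlinarith
  refine ⟨?_, by nlinarith⟩
  rw [Sy.r2, div_le_iff₀ (by linarith)]
  nlinarith

/-- a relation of the box is a relation of the system, normalised by `ψ` -/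
lemma sr (hS : S.Ok) {n N : ℕ} {f : S.F} {ψ : Vf W (n + 1) →L[ℝ] ℝ} {x : {z // S.Pq false f z S.r1}}
    {g : E → Vf W (n + 1)} {q : E} {ρ ε B : ℝ} (h : (S.bx n f ψ).SR N x g q ρ ε B) :
    S.SR n N f (S.pt false f x q) g ρ ε B ∧ |ψ (g q) - 1| ≤ ε ∧ ‖g q‖ ≤ B := by
  have hq : q ∈ ball q ρ := mem_ball_self h.pos
  have h1 : ‖S.pt false f x q‖ < S.r2 := mem_ball_zero_iff.1 (h.sub q hq)
  have h2 := hS.g_lab false f x q x.2.1 (by linarith [(r2_le hS).1, (r2_le hS).2])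
  have h3 : ∀ y ∈ ball q ρ, ‖S.io n f (S.pt false f x y) (g y)‖ ≤ ε ∧ |ψ (g y) - 1| ≤ ε := fun y hy => by
    have := norm_prod_le_iff.1 (h.df y hy)
    simpa [L.Box.df, Sy.bx, L.Box.gs, Sy.pt] using this
  refine ⟨⟨by linarith [(r2_le hS).1], h.pos, h.le, h.one, h.sm, fun y hy => ?_, h.bd⟩, (h3 q hq).2, ?_⟩
  · rw [Sy.pt, h2]
    exact (h3 y hy).1
  · simpa using h.bd q hq 0 (Nat.zero_le N)

end Ub

theorem ubS : UbS := by
  intro E W _ _ _ _ _ _ S hS n f N a θ hθ ⟨C, hC⟩ a' θ' ha h1 h0 hθ' hθ1 ψ hψ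
  refine ⟨2 ^ (n + 1) * |C| + 4, fun x g g' q ρ ε B hg hg' => ?_⟩
  obtain ⟨s1, s2, s3⟩ := Ub.sr hS hg
  obtain ⟨t1, t2, t3⟩ := Ub.sr hS hg'
  have e0 : 0 ≤ ε := (abs_nonneg _).trans s2
  have b1 : B ≤ B / ρ := le_div_self (by linarith [hg.one]) hg.pos hg.le
  have b2 : 1 ≤ B / ρ := hg.one.trans b1
  have b3 : B ≤ (B / ρ) ^ a' := b1.trans (le_self_pow₀ b2 (by omega))
  have b4 : (B / ρ) ^ a ≤ (B / ρ) ^ a' := pow_le_pow_right₀ b2 ha
  have p0 : 0 ≤ ε ^ θ' := Real.rpow_nonneg e0 _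
  have p1 : 0 ≤ (2 : ℝ) ^ (n + 1) * |C| * (B / ρ) ^ a' * ε ^ θ' := by positivity
  have B0 : 0 ≤ B := by linarith [hg.one]
  by_cases hε : 1 / 2 ≤ ε
  · have c1 : (1 / 2 : ℝ) ^ (1 : ℝ) ≤ (1 / 2) ^ θ' :=
      Real.rpow_le_rpow_of_exponent_ge (by norm_num) (by norm_num) hθ1
    have c2 : (1 / 2 : ℝ) ^ θ' ≤ ε ^ θ' := Real.rpow_le_rpow (by norm_num) hε h0.le
    rw [Real.rpow_one] at c1
    have c3 : B * (1 / 2) ≤ (B / ρ) ^ a' * ε ^ θ' := mul_le_mul b3 (c1.trans c2) (by norm_num) (by positivity)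
    nlinarith [norm_sub_le (g q) (g' q)]
  · have hε1 : ε ≤ 1 := by linarith
    have c1 : ε ^ θ ≤ ε ^ θ' := Real.rpow_le_rpow_of_exponent_ge' e0 hε1 h0.le hθ'
    have c2 : ε ^ (1 : ℝ) ≤ ε ^ θ' := Real.rpow_le_rpow_of_exponent_ge' e0 hε1 h0.le hθ1
    rw [Real.rpow_one] at c2
    have c3 : 1 / 2 ≤ ‖g q‖ := by
      have := ψ.le_of_opNorm_le hψ (g q)
      rw [Real.norm_eq_abs, one_mul] at this
      linarith [le_abs_self (ψ (g q)), (abs_le.1 s2).1]
    have u := hC f _ g g' ρ ε B s1 t1 ψ hψ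
    change ‖g q‖ ^ (n + 1) * ‖ψ (g q) • g' q - ψ (g' q) • g q‖ ≤ _ at u
    set X := ‖ψ (g q) • g' q - ψ (g' q) • g q‖ with hX
    have X0 : 0 ≤ X := norm_nonneg _
    have u1 : (1 / 2) ^ (n + 1) * X ≤ |C| * (B / ρ) ^ a' * ε ^ θ' :=
      (mul_le_mul_of_nonneg_right (pow_le_pow_left₀ (by norm_num) c3 _) X0).trans (u.trans (by
        have := Real.rpow_nonneg e0 θ
        gcongr
        exact le_abs_self C))
    have u2 : X ≤ 2 ^ (n + 1) * |C| * (B / ρ) ^ a' * ε ^ θ' := by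
      have := mul_le_mul_of_nonneg_left u1 (show (0 : ℝ) ≤ 2 ^ (n + 1) by positivity)
      rw [← mul_assoc, ← mul_pow, show (2 : ℝ) * (1 / 2) = 1 by norm_num, one_pow, one_mul] at this
      linarith
    have d : g q - g' q = (ψ (g q) - 1) • g' q - (ψ (g' q) - 1) • g q -
        (ψ (g q) • g' q - ψ (g' q) • g q) := by module
    have n1 : ‖(ψ (g q) - 1) • g' q‖ ≤ ε * B := by
      rw [norm_smul]; exact mul_le_mul s2 t3 (norm_nonneg _) e0
    have n2 : ‖(ψ (g' q) - 1) • g q‖ ≤ ε * B := by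
      rw [norm_smul]; exact mul_le_mul t2 s3 (norm_nonneg _) e0
    have n3 : ε * B ≤ ε ^ θ' * (B / ρ) ^ a' := mul_le_mul c2 b3 B0 p0
    have n4 := mul_nonneg e0 B0
    rw [d]
    refine (norm_sub_le _ _).trans ((add_le_add (norm_sub_le _ _) u2).trans ?_)
    nlinarith

end Crest.Agent.N221.G0
end
end

-- ▼ part N221/G0/Sm4
section

/-!
Row 221, block G0: rank zero (helper36).  `NR` with `ε = 0` kills every local exact relation.
-/

set_option autoImplicit false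

open Set Metric Filter Topology
open scoped ContDiff

noncomputable section

namespace Crest.Agent.N221.G0

namespace Sm4

variable {E W : Type} [NormedAddCommGroup E] [NormedSpace ℝ E] [NormedAddCommGroup W]
  [NormedSpace ℝ W] {S : Sy E W}

/-- a local exact relation is a slice relation with `ε = 0` -/
theorem sr_of {n : ℕ} (N : ℕ) {f : S.F} {z : E × E} (hz : ‖z‖ ≤ S.R / 2) {Ψ : E → Vf W (n + 1)}
    (h : ∀ᶠ y in 𝓝 z.1, ContDiffAt ℝ ∞ Ψ y ∧ S.io n f (S.pt false f z y) (Ψ y) = 0) :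
    ∃ ρ B, S.SR n N f z Ψ ρ 0 B := by
  set B := 1 + ∑ i ∈ Finset.range (N + 1), ‖iteratedFDeriv ℝ i Ψ z.1‖
  have h1 : ∀ᶠ y in 𝓝 z.1, ∀ i ∈ Finset.range (N + 1), ‖iteratedFDeriv ℝ i Ψ y‖ ≤ B := by
    refine (eventually_all_finset _).2 fun i hi => ?_
    have c : ContinuousAt (fun y => ‖iteratedFDeriv ℝ i Ψ y‖) z.1 :=
      (h.self_of_nhds.1.continuousAt_iteratedFDeriv (by exact_mod_cast le_top)).norm
    have := Finset.single_le_sum (f := fun i => ‖iteratedFDeriv ℝ i Ψ z.1‖) (fun _ _ => norm_nonneg _) hi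
    exact (c.eventually_lt_const (by simp only [B]; linarith)).mono fun _ => le_of_lt
  obtain ⟨ρ, hρ, k⟩ := Metric.eventually_nhds_iff_ball.1 (h.and h1)
  have k' : ∀ y ∈ ball z.1 (min ρ 1), _ := fun y hy => k y (ball_subset_ball (min_le_left _ _) hy)
  exact ⟨min ρ 1, B, hz, lt_min hρ one_pos, min_le_right _ _,
    le_add_of_nonneg_right (Finset.sum_nonneg fun _ _ => norm_nonneg _),
    fun y hy => (k' y hy).1.1.contDiffWithinAt, fun y hy => by rw [(k' y hy).1.2, norm_zero],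
    fun y hy i hi => (k' y hy).2 i (Finset.mem_range_succ_iff.2 hi)⟩

/-- no local exact relations -/
theorem nr_zero {n : ℕ} (hN : S.NR n) {f : S.F} {z : E × E} (hz : ‖z‖ ≤ S.R / 2) {Ψ : E → Vf W (n + 1)}
    (h : ∀ᶠ y in 𝓝 z.1, ContDiffAt ℝ ∞ Ψ y ∧ S.io n f (S.pt false f z y) (Ψ y) = 0) : Ψ z.1 = 0 := by
  obtain ⟨N, a, θ, C, hθ, hN⟩ := hN
  obtain ⟨ρ, B, hs⟩ := sr_of N hz h
  have := hN f z Ψ ρ 0 B hs
  rwa [Real.zero_rpow hθ.ne', mul_zero, norm_le_zero_iff] at this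

end Sm4

theorem z0S : Z0S := by
  intro E W _ _ _ _ _ _ S hS hN
  obtain ⟨f⟩ := hS.ne
  have hR : 0 < S.R / 2 := by linarith [hS.r0p, hS.r0R]
  refine ⟨f, ball 0 (S.R / 2), 0, fun _ => 0, isOpen_ball, nonempty_ball.2 hR, subset_rfl, contDiffOn_const,
    fun _ _ => rfl, fun z hz θ hθ v _ => ?_⟩
  let L : (W →L[ℝ] ℝ) ≃ₗᵢ[ℝ] Vf W 1 := ContinuousAlternatingMap.ofSubsingletonLIE (0 : Fin 1)
  have h := Sm4.nr_zero (n := 0) hN (f := f) (mem_ball_zero_iff.1 hz).le (Ψ := fun y => L (θ y))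
    (hθ.mono fun y hy => ⟨L.contDiff.contDiffAt.comp y hy.1, by ext w; exact hy.2⟩)
  rw [L.map_eq_zero_iff.1 h]
  rfl

end Crest.Agent.N221.G0
end
end

-- ▼ part N221/G0/LTay
section

/-! Row 221, block G0/L: approximate relations on ambient balls; slices, comparison, and the Taylor
polynomial of a formal relation. -/

set_option autoImplicit false
set_option linter.unusedSectionVars false

open Set Metric Filter Topology Real
open scoped ContDiff Nat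

namespace Crest.Agent.N221.G0.L

section
variable {ι E F V : Type} [NormedAddCommGroup E] [NormedSpace ℝ E] [NormedAddCommGroup F]
  [NormedSpace ℝ F]

lemma ub_lip {R : ℝ} {γ : ι → E → F} (h : Ex.UB (fun _ => ball (0 : E) R) γ) : ∃ L : ℝ, 1 ≤ L ∧
    ∀ i, ∀ q ∈ ball (0 : E) R, ∀ q' ∈ ball (0 : E) R, ‖γ i q' - γ i q‖ ≤ L * ‖q' - q‖ := by
  obtain ⟨c, hc, hb⟩ := h.bdn 1
  exact ⟨c, hc, fun i q hq q' hq' => (convex_ball _ _).norm_image_sub_le_of_norm_fderiv_le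
    (fun u hu => (h.at hu).differentiableAt (by simp))
    (fun u hu => (norm_iteratedFDeriv_one _).symm.trans_le (hb 1 le_rfl i u hu)) hq hq'⟩

lemma ub_comp {U : ι → Set E} {γ : ι → E → F} (h : Ex.UB U γ) (n : ℕ) : ∃ C : ℝ, 1 ≤ C ∧
    ∀ (V : Type) [NormedAddCommGroup V] [NormedSpace ℝ V] (g : F → V) (B : ℝ) (i : ι), ∀ q ∈ U i,
      ContDiff ℝ ∞ g → (∀ m ≤ n, ‖iteratedFDeriv ℝ m g (γ i q)‖ ≤ B) →
      ∀ m ≤ n, ‖iteratedFDeriv ℝ m (fun t => g (γ i t)) q‖ ≤ C * B := by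
  obtain ⟨D, hD, hb⟩ := h.bdn n
  have f1 : (1 : ℝ) ≤ n ! := by exact_mod_cast n.factorial_pos
  refine ⟨n ! * D ^ n, one_le_mul_of_one_le_of_one_le f1 (one_le_pow₀ hD),
    fun V _ _ g B i q hq hg hB m hm => ?_⟩
  have B0 : 0 ≤ B := (norm_nonneg _).trans (hB 0 n.zero_le)
  rw [← iteratedFDerivWithin_of_isOpen m (h.op i) hq]
  refine (norm_iteratedFDerivWithin_comp_le (C := B) (D := D) hg.contDiffOn (h.sm i) (li m)
    uniqueDiffOn_univ (h.op i).uniqueDiffOn (mapsTo_univ _ _) hq (fun j hj => ?_)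
    fun j h1 hj => ?_).trans ?_
  · rw [iteratedFDerivWithin_univ]; exact hB j (hj.trans hm)
  · rw [iteratedFDerivWithin_of_isOpen j (h.op i) hq]
    exact (hb j (hj.trans hm) i q hq).trans (le_self_pow₀ hD (by omega))
  · rw [mul_right_comm]
    gcongr

end

namespace Box

variable {Q P A A' X Y : Type} [NormedAddCommGroup Q] [NormedSpace ℝ Q] [NormedAddCommGroup P]
  [NormedSpace ℝ P] [NormedAddCommGroup A] [NormedSpace ℝ A] [NormedAddCommGroup A']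
  [NormedSpace ℝ A'] {β : Box Q P A A' X Y}

/-- approximate relation on an ambient ball -/
structure AR (β : Box Q P A A' X Y) (N : ℕ) (g : Q × P → A) (z : Q × P) (r ε B : ℝ) : Prop where
  pos : 0 < r
  le : r ≤ 1
  one : 1 ≤ B
  sub : ball z r ⊆ β.Om
  sm : ContDiff ℝ ∞ g
  df : ∀ y ∈ ball z r, ‖β.df y (g y)‖ ≤ ε
  bd : ∀ y ∈ ball z r, ∀ i ≤ N, ‖iteratedFDeriv ℝ i g y‖ ≤ B

variable {N : ℕ} {g : Q × P → A} {z z' : Q × P} {r ε B r' ε' B' : ℝ}

lemma AR.mono (h : β.AR N g z r ε B) (h0 : 0 < r') (h1 : r' ≤ 1) (hs : ball z' r' ⊆ ball z r)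
    (hε : ε ≤ ε') (hB : B ≤ B') : β.AR N g z' r' ε' B' :=
  ⟨h0, h1, h.one.trans hB, hs.trans h.sub, h.sm, fun y hy => (h.df y (hs hy)).trans hε,
    fun y hy i hi => (h.bd y (hs hy) i hi).trans hB⟩

lemma AR.nonneg (h : β.AR N g z r ε B) : 0 ≤ ε :=
  (norm_nonneg _).trans (h.df z (mem_ball_self h.pos))

lemma Ok.mem (h : β.Ok) (hz : z ∈ β.Om) : z.1 ∈ ball (0 : Q) β.R := by
  have := h.sub z hz
  rw [mem_ball_zero_iff]; linarith [norm_nonneg z.1]

lemma Ok.mem' (h : β.Ok) (hs : ball z r ⊆ β.Om) {q : Q} (hq : ‖q - z.1‖ < r) :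
    q ∈ ball (0 : Q) β.R :=
  h.mem (z := (q, z.2)) (hs (by
    rw [mem_ball_iff_norm, Prod.norm_def]
    simpa using hq))

lemma Ok.ubgs (h : β.Ok) : Ex.UB (fun _ : X => ball (0 : Q) β.R) β.gs :=
  (Ex.UB.id (M := β.R) h.ubs.op fun _ _ hx => (mem_ball_zero_iff.1 hx).le).prod h.ubs

lemma Ok.ubgu (h : β.Ok) : Ex.UB (fun _ : Y => ball (0 : Q) β.R) β.gu :=
  (Ex.UB.id (M := β.R) h.ubu.op fun _ _ hx => (mem_ball_zero_iff.1 hx).le).prod h.ubu

lemma Ok.norm_D (h : β.Ok) : ∃ c : ℝ, 1 ≤ c ∧ ∀ z ∈ β.Om, ‖β.D z‖ ≤ c := by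
  obtain ⟨c, hc, hb⟩ := h.ubD.bdn 0
  obtain ⟨L, δ, -, h1⟩ := h.cross
  refine ⟨c, hc, fun z hz => ?_⟩
  obtain ⟨y, hy, -⟩ := h1 z hz
  have := hb 0 le_rfl y z.1 (h.mem hz)
  rwa [norm_iteratedFDeriv_zero, gu, hy] at this

/-- restriction to a stable slice -/
lemma Ok.slice (h : β.Ok) (N : ℕ) : ∃ L C : ℝ, 1 ≤ L ∧ 1 ≤ C ∧
    ∀ (g : Q × P → A) (z : Q × P) (r ε B : ℝ) (x : X) (q : Q), β.AR N g z r ε B →
      β.gs x q ∈ ball z (r / 2) → β.SR N x (fun t => g (β.gs x t)) q (r / (2 * L)) ε (C * B) := by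
  obtain ⟨L, hL, hl⟩ := ub_lip h.ubgs
  obtain ⟨C, hC, hc⟩ := ub_comp h.ubgs N
  refine ⟨L, C, hL, hC, fun g z r ε B x q hg hq => ?_⟩
  have hr := hg.pos
  have s0 : ball (β.gs x q) (r / 2) ⊆ ball z r :=
    ball_subset_ball' (by rw [mem_ball] at hq; linarith)
  have e1 : r / (2 * L) ≤ r / 2 := by gcongr; linarith
  have m1 : ∀ q' ∈ ball q (r / (2 * L)), q' ∈ ball (0 : Q) β.R := fun q' hq' =>
    h.mem' (s0.trans hg.sub) ((mem_ball_iff_norm.1 hq').trans_le e1)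
  have m2 : ∀ q' ∈ ball q (r / (2 * L)), β.gs x q' ∈ ball z r := fun q' hq' => s0 (by
    rw [mem_ball_iff_norm]
    refine (hl x q (m1 q (mem_ball_self (by positivity))) q' (m1 q' hq')).trans_lt ?_
    calc L * ‖q' - q‖ < L * (r / (2 * L)) := by gcongr; exact mem_ball_iff_norm.1 hq'
      _ = r / 2 := by field_simp)
  exact ⟨by positivity, e1.trans (by linarith [hg.le]), one_le_mul_of_one_le_of_one_le hC hg.one,
    fun q' hq' => hg.sub (m2 q' hq'), hg.sm.comp_contDiffOn ((h.ubgs.sm x).mono m1),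
    fun q' hq' => hg.df _ (m2 q' hq'),
    fun q' hq' => hc A g B x q' (m1 q' hq') hg.sm (hg.bd _ (m2 q' hq'))⟩

/-- two approximate relations on an ambient ball are close -/
lemma Ok.cmp (h : β.Ok) {a : ℕ} {θ : ℝ} (hU : β.UQ N a θ) : ∃ C : ℝ, 1 ≤ C ∧
    ∀ (g g' : Q × P → A) (z : Q × P) (r ε B : ℝ), β.AR N g z r ε B → β.AR N g' z r ε B →
      ∀ y ∈ ball z (r / 2), ‖g y - g' y‖ ≤ C * (B / r) ^ a * ε ^ θ := by
  obtain ⟨L, C, hL, hC, hs⟩ := h.slice N
  obtain ⟨Cu, hu⟩ := hU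
  have h2 : 1 ≤ C * (2 * L) := one_le_mul_of_one_le_of_one_le hC (by linarith)
  refine ⟨max Cu 1 * (C * (2 * L)) ^ a, one_le_mul_of_one_le_of_one_le (le_max_right _ _)
    (one_le_pow₀ h2), fun g g' z r ε B hg hg' y hy => ?_⟩
  have hr := hg.pos
  have hB := hg.one
  have hε := hg.nonneg
  obtain ⟨x, hx⟩ := h.cov y (hg.sub (ball_subset_ball (by linarith) hy))
  have e : β.gs x y.1 = y := by rw [gs, hx]
  have := hu x _ _ y.1 _ ε _ (hs g z r ε B x y.1 hg (e.symm ▸ hy)) (hs g' z r ε B x y.1 hg' (e.symm ▸ hy))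
  simp only [e] at this
  refine this.trans ?_
  rw [show C * B / (r / (2 * L)) = C * (2 * L) * (B / r) by field_simp, mul_pow, ← mul_assoc]
  gcongr
  exact le_max_left _ _

set_option maxHeartbeats 1600000 in
/-- the Taylor polynomial of a formal relation is an approximate relation -/
lemma Ok.tay [CompleteSpace A] [CompleteSpace A'] (h : β.Ok) (hR : 0 < β.R) (N K : ℕ) :
    ∃ C L δ : ℝ, 1 ≤ C ∧ 1 ≤ L ∧ 0 < δ ∧
    ∀ (x : X) (w : Q × P → A) (q : Q) (z : Q × P) (r M τ : ℝ), 0 < r → r ≤ δ → 1 ≤ M → 0 ≤ τ →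
      ball z r ⊆ β.Om → ‖z - β.gs x q‖ ≤ r →
      (∀ q' ∈ ball q (L * r), β.gs x q' ∈ β.Om ∧ (∀ᶠ y in 𝓝 (β.gs x q'), ContDiffAt ℝ ∞ w y) ∧
        β.Fml x w q' K τ ∧ ∀ i ≤ K + 1, ‖iteratedFDeriv ℝ i w (β.gs x q')‖ ≤ M) →
      β.AR N (Ty K w (β.gs x q)) z r (C * (M * r ^ (K + 1) + τ)) (C * M) := by
  obtain ⟨Ls, hLs, hs⟩ := ub_lip h.ubgs
  obtain ⟨Lu, hLu, hu⟩ := ub_lip h.ubgu
  obtain ⟨Cu, hCu, hcu⟩ := ub_comp h.ubgu (K + 1)
  obtain ⟨cD, hcD, hD⟩ := h.ubD.bdn (K + 1)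
  obtain ⟨cb, hcb, hb⟩ := h.ubb.bdn (K + 1)
  obtain ⟨c0, hc0, hD0⟩ := h.norm_D
  obtain ⟨Lc, δc, hδc, hx⟩ := h.cross
  obtain ⟨Cp, hCp, hp⟩ := poly_jets K
  set Cj := max (Cp * ((K + 1) * 2 ^ K)) 1 with hCj
  have hCj1 : 1 ≤ Cj := le_max_right _ _
  have jets : ∀ (w : Q × P → A) (c : Q × P) (M : ℝ), 1 ≤ M →
      (∀ i ≤ K + 1, ‖iteratedFDeriv ℝ i w c‖ ≤ M) → ∀ y ∈ ball c 1, ∀ i,
      ‖iteratedFDeriv ℝ i (Ty K w c) y‖ ≤ Cj * M := fun w c M hM hw y hy i => by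
    have := hp _ A (Ty K w c) c 1 _ (poly_Ty K w c) one_pos (fun y hy => Ty_size one_le_two
      (fun i hi => hw i (by omega)) (by simpa using (mem_ball_iff_norm.1 hy).le)) i y hy
    rw [one_pow, div_one, ← mul_assoc] at this
    exact this.trans (mul_le_mul_of_nonneg_right (le_max_left _ _) (by linarith))
  set L1 := (|Lc| + 1) * (4 * Ls) with hL1
  have L10 : 0 < L1 := by positivity
  set ρ := min (β.R / 2) (1 / Lu) with hρ
  have ρ0 : 0 < ρ := by positivity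
  set G := 2 ^ (K + 1) * (cD * (Cu * Cj)) + cb with hG
  set Cγ := (6 * (2 + Ls * (L1 + 2))) ^ K * (2 * (1 + 2 ^ (K + 1))) * (Ls * (L1 + 2)) with hCγ
  have G0 : 0 ≤ G * L1 ^ (K + 1) := by positivity
  have γ0 : 0 ≤ c0 * Cγ := by positivity
  refine ⟨Cj + G * L1 ^ (K + 1) + c0 * Cγ, L1 + 2, min (min (1 / 2) (δc / (8 * Ls))) (ρ / (2 * L1)),
    by linarith, by linarith, by positivity, fun x w q z r M τ hr hrδ hM hτ hsub hz hw => ?_⟩
  obtain ⟨⟨r1, r2⟩, r3⟩ := (le_min_iff.1 hrδ).imp_left le_min_iff.1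
  rw [le_div_iff₀ (by positivity)] at r2 r3
  have hq := hw q (mem_ball_self (by positivity))
  have near : ∀ y ∈ ball z r, ‖y - β.gs x q‖ < 2 * r := fun y hy => by
    have := norm_sub_le_norm_sub_add_norm_sub y z (β.gs x q)
    rw [mem_ball_iff_norm] at hy; linarith
  refine ⟨hr, by linarith, one_le_mul_of_one_le_of_one_le (by linarith) hM, hsub,
    (poly_Ty K w _).sm, fun y hy => ?_, fun y hy i _ => (jets w _ M hM hq.2.2.2 y
      (mem_ball_iff_norm.2 ((near y hy).trans_le (by linarith))) i).trans (by gcongr; linarith)⟩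
  obtain ⟨v, hv, hx⟩ := hx y (hsub hy)
  have ev : β.gu v y.1 = y := by rw [gu, hv]
  have n1 : ‖y.1 - q‖ < 2 * r := (norm_fst_le (y - β.gs x q)).trans_lt (near y hy)
  have n2 : ‖β.s x y.1 - y.2‖ ≤ 4 * Ls * r := by
    have a1 := hs x q (h.mem hq.1) y.1 (h.mem (hsub hy))
    have a2 := norm_sub_le_norm_sub_add_norm_sub (β.gs x y.1) (β.gs x q) y
    have a3 : ‖β.s x y.1 - y.2‖ ≤ ‖β.gs x y.1 - y‖ := norm_snd_le (β.gs x y.1 - y)
    have a4 := near y hy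
    rw [norm_sub_rev] at a4
    nlinarith
  obtain ⟨q1, e1, n3⟩ := hx x (by nlinarith)
  have n4 : ‖q1 - y.1‖ ≤ L1 * r := n3.trans (by
    rw [hL1, mul_assoc]
    exact mul_le_mul ((le_abs_self _).trans (by linarith)) n2 (norm_nonneg _) (by positivity))
  have n5 : ‖q1 - q‖ < (L1 + 2) * r := by
    have := norm_sub_le_norm_sub_add_norm_sub q1 y.1 q
    linarith
  have hq1 := hw q1 (mem_ball_iff_norm.2 n5)
  have e2 : β.gu v q1 = β.gs x q1 := by rw [gu, gs, e1]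
  set T1 := Ty K w (β.gs x q1) with hT1
  have sT := (poly_Ty K w (β.gs x q1)).sm
  have sb : ball q1 ρ ⊆ ball (0 : Q) β.R := ball_subset_ball' (by
    have := h.sub _ hq1.1
    have h2 : ρ ≤ β.R / 2 := min_le_left _ _
    rw [dist_zero_right]; simp only [gs] at this; linarith)
  have mq1 := sb (mem_ball_self ρ0)
  have s1 : ∀ t ∈ ball (0 : Q) β.R, ∀ g : Q × P → A, ContDiffAt ℝ ∞ g (β.gu v t) →
      ContDiffAt ℝ ∞ (fun t => β.df (β.gu v t) (g (β.gu v t))) t := fun t ht g hg =>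
    ((h.ubD.at ht).clm_apply (hg.comp t (h.ubgu.at ht))).sub (h.ubb.at ht)
  have d1 : ∀ t ∈ ball q1 ρ,
      ‖iteratedFDeriv ℝ (K + 1) (fun t => β.df (β.gu v t) (T1 (β.gu v t))) t‖ ≤ G * M := by
    intro t ht
    have b1 : β.gu v t ∈ ball (β.gs x q1) 1 := by
      rw [mem_ball_iff_norm, ← e2]
      refine (hu v q1 mq1 t (sb ht)).trans_lt ?_
      have := (mem_ball_iff_norm.1 ht).trans_le (min_le_right _ _)
      rwa [lt_div_iff₀' (by positivity)] at this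
    have c1 : ContDiffAt ℝ (K + 1 : ℕ) (fun t => T1 (β.gu v t)) t :=
      (sT.contDiffAt.comp t (h.ubgu.at (i := v) (sb ht))).of_le (li (K + 1))
    have c2 := (h.ubD.at (i := v) (sb ht)).of_le (li (K + 1))
    have b2 := bil_le (ContinuousLinearMap.id ℝ (A →L[ℝ] A')) (K + 1) zero_le_one
      (fun a p => by simpa using a.le_opNorm p) c2 c1 (fun i hi => hD i hi v t (sb ht))
      (hcu A T1 _ v t (sb ht) sT fun i _ => jets w _ M hM hq1.2.2.2 _ b1 i)
    unfold df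
    rw [fun_iteratedFDeriv_sub_apply (c2.clm_apply c1) ((h.ubb.at (i := v) (sb ht)).of_le (li _))]
    refine (norm_sub_le _ _).trans ((add_le_add b2 (hb _ le_rfl v t (sb ht))).trans ?_)
    rw [hG]; nlinarith
  have my : y.1 ∈ ball q1 ρ := by rw [mem_ball_iff_norm, norm_sub_rev]; nlinarith
  have d2 := Ty_rem (fun t ht => (s1 t (sb ht) T1 sT.contDiffAt).contDiffWithinAt) d1 my
  have ct : Tendsto (β.gu v) (𝓝 q1) (𝓝 (β.gs x q1)) := e2 ▸ (h.ubgu.at mq1).continuousAt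
  have nb : ∀ᶠ t in 𝓝 q1, t ∈ ball (0 : Q) β.R := isOpen_ball.mem_nhds mq1
  rw [Ty_congr (g := fun t => β.df (β.gu v t) (w (β.gu v t)))
    (nb.mono fun t ht => s1 t ht T1 sT.contDiffAt)
    ((nb.and (ct.eventually hq1.2.1)).mono fun t ht => s1 t ht.1 w ht.2) (by
      have o1 := (isBigO_rem hq1.2.1 K).comp_tendsto ct
      have o2 : (fun t => ‖β.gu v t - β.gs x q1‖ ^ (K + 1)) =O[𝓝 q1] fun t => ‖t - q1‖ ^ (K + 1) :=
        (Asymptotics.IsBigO.of_bound Lu (nb.mono fun t ht => by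
          simpa [e2] using hu v q1 mq1 t ht)).pow _
      refine (Asymptotics.IsBigO.of_bound cD (nb.mono fun t ht => ?_)).trans (o1.trans o2)
      have := hD 0 (by omega) v t ht
      rw [norm_iteratedFDeriv_zero] at this
      simp only [df, sub_sub_sub_cancel_right, ← map_sub, Function.comp]
      rw [norm_sub_rev (w _)]
      exact (β.D _).le_of_opNorm_le this _)] at d2
  have ρ1 : ρ ≤ 1 := (min_le_right _ _).trans (by rw [div_le_one (by positivity)]; exact hLu)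
  have d3 := hq1.2.2.1 v e1 y.1 ((mem_ball_iff_norm.1 my).le.trans ρ1)
  simp only [ev] at d2
  have d4 : ‖β.df y (T1 y)‖ ≤ G * L1 ^ (K + 1) * (M * r ^ (K + 1)) + τ := by
    have a1 : G * M * ‖y.1 - q1‖ ^ (K + 1) ≤ G * M * (L1 * r) ^ (K + 1) := by
      rw [norm_sub_rev]; gcongr
    have a2 := norm_le_norm_add_norm_sub' (β.df y (T1 y))
      (Ty K (fun t => β.df (β.gu v t) (w (β.gu v t))) q1 y.1)
    rw [mul_pow] at a1
    linarith
  have seg : ∀ t ∈ Icc (0 : ℝ) 1, ‖q + t • (q1 - q) - q‖ < (L1 + 2) * r := fun t ht => by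
    rw [add_sub_cancel_left, norm_smul, Real.norm_of_nonneg ht.1]
    exact (mul_le_of_le_one_left (norm_nonneg _) ht.2).trans_lt n5
  have sg := fun t ht => hw _ (mem_ball_iff_norm.2 (seg t ht))
  have d5 := path (K := K) (w := w) (z := y) (γ := fun t => β.gs x (q + t • (q1 - q)))
    (l := Ls * (L1 + 2) * r) (r := (2 + Ls * (L1 + 2)) * r) (X := 2 * M) (by positivity)
    (fun s hs' t ht => by
      refine (hs x _ (h.mem (sg s hs').1) _ (h.mem (sg t ht).1)).trans ?_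
      simp only [gs]
      rw [add_sub_add_left_eq_sub, ← sub_smul, norm_smul, Real.norm_eq_abs, mul_comm |t - s|,
        ← mul_assoc, mul_assoc Ls (L1 + 2)]
      gcongr)
    (fun t ht => ⟨(sg t ht).2.1, ((sg t ht).2.2.2 _ le_rfl).trans_lt (by linarith), by
      have a1 := hs x q (h.mem hq.1) _ (h.mem (sg t ht).1)
      have a2 := norm_sub_le_norm_sub_add_norm_sub y (β.gs x q) (β.gs x (q + t • (q1 - q)))
      have a3 := near y hy
      have a4 := seg t ht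
      simp only [gs] at a1 a2 a3 ⊢
      rw [norm_sub_rev] at a1
      nlinarith⟩)
  simp only [one_smul, add_sub_cancel, zero_smul, add_zero] at d5
  have d6 : ‖T1 y - Ty K w (β.gs x q) y‖ ≤ Cγ * (M * r ^ (K + 1)) :=
    d5.trans_eq (by rw [hCγ, ← mul_assoc 6, mul_pow _ r]; ring)
  have e3 : β.df y (Ty K w (β.gs x q) y) = β.df y (T1 y) - β.D y (T1 y - Ty K w (β.gs x q) y) := by
    simp only [df, map_sub]; abel
  have d7 := ((β.D y).le_of_opNorm_le (hD0 y (hsub hy)) _).trans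
    (mul_le_mul_of_nonneg_left d6 (by linarith))
  have p1 : 0 ≤ M * r ^ (K + 1) := by positivity
  rw [e3]
  refine (norm_sub_le _ _).trans ?_
  nlinarith [mul_nonneg G0 hτ, mul_nonneg γ0 hτ, mul_nonneg (sub_nonneg.2 hCj1) hτ,
    mul_nonneg (zero_le_one.trans hCj1) p1]

end Box

end Crest.Agent.N221.G0.L
end

-- ▼ part N221/G0/LStep
section

/-! Row 221, block G0/L: one step of the ladder. -/

set_option autoImplicit false
set_option linter.unusedSectionVars false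

open Set Metric Filter Topology Real
open scoped ContDiff Nat

namespace Crest.Agent.N221.G0.L

noncomputable def rho (χ : ℝ) (j : ℕ) : ℝ := exp (-(χ / 2) * j)

noncomputable def al (χ ε' : ℝ) (K : ℕ) : ℝ := χ / 2 * (K + 1) - ε' * (K + 2)

noncomputable def be (ε' : ℝ) (K : ℕ) : ℝ := ε' * (K + 2)

noncomputable def mm (a : ℕ) (θ χ ε' : ℝ) (K : ℕ) : ℝ :=
  θ * al χ ε' K - a * (be ε' K + 1 + χ / 2)

lemma rho_pos (χ : ℝ) (j : ℕ) : 0 < rho χ j := exp_pos _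

lemma rho_anti {χ : ℝ} (hχ : 0 < χ) {i j : ℕ} (h : i ≤ j) : rho χ j ≤ rho χ i := by
  have : (i : ℝ) ≤ j := by exact_mod_cast h
  exact exp_le_exp.2 (by nlinarith)

lemma ev (C : ℝ) {η s t : ℝ} (hη : 0 < η) (h : s < t) :
    ∀ᶠ j : ℕ in atTop, C * exp (s * j) ≤ η * exp (t * j) := by
  have h1 : Tendsto (fun j : ℕ => C * exp ((s - t) * j)) atTop (𝓝 (C * 0)) :=
    (tendsto_exp_atBot.comp (tendsto_natCast_atTop_atTop.const_mul_atTop_of_neg
      (sub_neg.2 h))).const_mul C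
  rw [mul_zero] at h1
  filter_upwards [h1.eventually (gt_mem_nhds hη)] with j hj
  calc C * exp (s * j) = C * exp ((s - t) * j) * exp (t * j) := by
        rw [mul_assoc, ← exp_add]; ring_nf
    _ ≤ _ := by gcongr

lemma ev1 (C : ℝ) {η s t : ℝ} (hη : 0 < η) (h : s < t) :
    ∀ᶠ j : ℕ in atTop, C * exp (s * (j + 1 : ℕ)) ≤ η * exp (t * (j + 1 : ℕ)) :=
  (tendsto_add_atTop_nat 1).eventually (ev C hη h)

lemma num {C1 C2 : ℝ} (h2 : 0 ≤ C2) (γ α θ t : ℝ) (a : ℕ) :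
    (C1 * exp (γ * t)) ^ a * (C2 * exp (-α * t)) ^ θ =
      C1 ^ a * C2 ^ θ * exp (-(θ * α - a * γ) * t) := by
  rw [mul_pow, mul_rpow h2 (exp_pos _).le, ← exp_mul, ← exp_nat_mul, mul_mul_mul_comm, ← exp_add]
  ring_nf

namespace Box

variable {Q P A A' X Y : Type} [NormedAddCommGroup Q] [NormedSpace ℝ Q] [NormedAddCommGroup P]
  [NormedSpace ℝ P] [NormedAddCommGroup A] [NormedSpace ℝ A] [NormedAddCommGroup A']
  [NormedSpace ℝ A'] {β : Box Q P A A' X Y}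

/-- a polynomial prediction of level `j` at `p` -/
structure Lv (β : Box Q P A A' X Y) (N : ℕ) (χ ε' : ℝ) (K : ℕ) (C : ℝ) (j : ℕ) (p : Q × P)
    (G : Q × P → A) : Prop where
  poly : Poly K G
  ar : β.AR N G p (4 * rho χ j) (C * exp (-al χ ε' K * j)) (C * exp (be ε' K * j))

set_option maxHeartbeats 1600000 in
lemma Ok.step [CompleteSpace A] [CompleteSpace A'] (h : β.Ok) (hR : 0 < β.R) {N a k K0 K : ℕ}
    {θ χ ε' Λ c c' : ℝ} (hχ : 0 < χ) (hε : 0 < ε') (hε' : 4 * ε' ≤ χ) (h1 : c' < c)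
    (h2 : c' < χ / 2) (hK : K0 ≤ K) (hm : (k + 2) * (|Λ| + χ + 2) ≤ mm a θ χ ε' K0)
    (hF : β.Fam N a θ χ ε' k Λ c K) (A0 : ℝ) :
    ∃ C' : ℝ, 1 ≤ C' ∧ ∀ C : ℝ, 1 ≤ C → ∀ᶠ j : ℕ in atTop,
      ∀ (p : Q × P) (G : Q × P → Q × P → A) (A1 : ℝ), A1 ≤ exp (1 / 2 * j) →
      (∀ p' ∈ ball p (exp (-c' * j)), β.Lv N χ ε' K0 C j p' (G p') ∧ ∀ y ∈ ball p' (rho χ j),
        ‖G p' y‖ ≤ A0 ∧ ∀ i ≤ k + 1, ‖iteratedFDeriv ℝ i (G p') y‖ ≤ A1) →
      ∃ G', β.Lv N χ ε' K C' (j + 1) p G' ∧ ‖G' p - G p p‖ ≤ C' * (1 + A1) * rho χ j := by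
  obtain ⟨CF0, jF, hF⟩ := hF (A0 + 1)
  obtain ⟨L, Cs, hL, hCs, hsl⟩ := h.slice N
  obtain ⟨Ls, hLs, hs⟩ := ub_lip h.ubgs
  obtain ⟨Ck, hCk, hck⟩ := ub_comp h.ubgs (k + 1)
  obtain ⟨Ci, hCi, hi⟩ := N221.X.int_all (k + 1)
  obtain ⟨CT, LT, δT, hCT, hLT, hδT, hT⟩ := h.tay hR N K
  obtain ⟨CF, hCF, hCF0⟩ : ∃ CF : ℝ, 1 ≤ CF ∧ CF0 ≤ CF := ⟨_, le_max_right _ _, le_max_left _ _⟩
  have p1 : 0 ≤ CT * CF * (4 ^ (K + 1) + 1) := by positivity
  have p2 : 0 ≤ K * CF ^ 2 := by positivity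
  refine ⟨CT * CF * (4 ^ (K + 1) + 1) + K * CF ^ 2 + 1, by linarith, fun C hC => ?_⟩
  set m := mm a θ χ ε' K0 with hmm
  set κ := |Λ| + χ + 2 with hκ
  have Λ0 := abs_nonneg Λ
  have k0 : (0 : ℝ) ≤ k := k.cast_nonneg
  have κ0 : 0 < κ := by positivity
  set Cδ := CF * ((Cs * C * exp 1 * L / 2) ^ a * C ^ θ) with hCδ
  have Cδ0 : 0 ≤ Cδ := by positivity
  filter_upwards [eventually_ge_atTop jF, ev Cδ one_pos (show -m < -(χ / 2) by nlinarith),
    ev Ls one_pos (show -κ < -(χ / 2) by linarith),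
    ev (Ci * Cδ) one_half_pos (show -m + k * κ < 0 by nlinarith),
    ev (Ci * (CF * exp |Λ| + Ck)) one_half_pos (show |Λ| + 1 + -κ < 0 by linarith),
    ev (Ck + 1) one_pos (show (1 : ℝ) / 2 < 1 by norm_num),
    ev (Ls * LT * 4) (show (0 : ℝ) < 1 / 4 by norm_num) (show -(χ / 2) < -c' by linarith),
    ev (Ls * exp (-c)) (show (0 : ℝ) < 1 / 4 by norm_num) (show -c < -c' by linarith),
    ev 1 (show (0 : ℝ) < 1 / 4 by norm_num) (show -(χ / 2) < -c' by linarith),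
    ev1 CF one_pos (show -χ < -(χ / 2) by linarith),
    ev1 4 hδT (show -(χ / 2) < 0 by linarith),
    ev1 CF one_pos (show ε' + -χ < 0 by linarith)] with j e1 e2 e3 e4 e5 e6 e7 e8 e9 e10 e11 e12
  intro p G A1 hA1 hG
  simp only [zero_mul, exp_zero, mul_one, one_mul] at e2 e3 e4 e5 e6 e9 e10 e11 e12
  have j0 : (0 : ℝ) ≤ j := j.cast_nonneg
  have eJ : ((j + 1 : ℕ) : ℝ) = j + 1 := by push_cast; ring
  change _ ≤ rho χ j at e2 e3
  change _ * rho χ j ≤ _ at e7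
  change rho χ j ≤ _ at e9
  change _ ≤ rho χ (j + 1) at e10
  change 4 * rho χ (j + 1) ≤ _ at e11
  have ρ0 := rho_pos χ j
  have ρ0' := rho_pos χ (j + 1)
  have ρ1 : rho χ (j + 1) < rho χ j := exp_lt_exp.2 (by rw [eJ]; linarith only [hχ])
  set col := exp (-c' * j) with hcol
  have col0 : 0 < col := exp_pos _
  have hp := hG p (mem_ball_self col0)
  have ρ2 : rho χ j ≤ 1 := by linarith [hp.1.ar.le]
  have A10 : 0 ≤ A1 := (norm_nonneg _).trans ((hp.2 p (mem_ball_self ρ0)).2 0 (by omega))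
  have sO : ball p col ⊆ β.Om := fun y hy => (hG y hy).1.ar.sub (mem_ball_self (by positivity))
  obtain ⟨x, O, w, hx, hw⟩ := hF (j + 1) (by omega) p (sO (mem_ball_self col0))
  set d := CF * exp (-χ * (j + 1 : ℕ)) with hd
  have n0 : ‖p - β.gs x p.1‖ ≤ d := by
    rw [norm_sub_rev, Prod.norm_def]
    simp only [gs, Prod.fst_sub, sub_self, norm_zero, Prod.snd_sub]
    rw [max_eq_right (norm_nonneg _)]
    refine hx.trans ?_
    rw [hd, neg_mul]; gcongr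
  have hA0 : ∀ p' ∈ ball p col, ∀ q, β.gs x q ∈ ball p' (rho χ j) →
      q ∈ O ∧ ‖w (β.gs x q) - G p' (β.gs x q)‖ ≤ Cδ * exp (-m * j) := by
    intro p' hp' q hq
    have a1 := hsl _ _ _ _ _ x q (hG p' hp').1.ar (ball_subset_ball (by linarith) hq)
    have a2 : CF0 * (Cs * (C * exp (be ε' K0 * j)) * exp (j + 1 : ℕ) / (4 * rho χ j / (2 * L))) ^ a *
        (C * exp (-al χ ε' K0 * j)) ^ θ ≤ Cδ * exp (-m * j) := by
      have : Cs * (C * exp (be ε' K0 * j)) * exp (j + 1 : ℕ) / (4 * rho χ j / (2 * L)) =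
          Cs * C * exp 1 * L / 2 * exp ((be ε' K0 + 1 + χ / 2) * j) := by
        rw [eJ, rho, neg_mul, exp_neg, add_mul, add_mul, exp_add, exp_add, exp_add, one_mul]
        field_simp; ring
      rw [this, mul_assoc, num (by linarith), hCδ, mul_assoc CF]
      exact mul_le_mul_of_nonneg_right hCF0 (by positivity)
    have a3 : exp (-(χ * (K + 1) * (j + 1 : ℕ))) ≤ C * exp (-al χ ε' K0 * j) := by
      refine le_trans (exp_le_exp.2 ?_) (le_mul_of_one_le_left (exp_pos _).le hC)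
      have b1 : (K0 : ℝ) ≤ K := by exact_mod_cast hK
      have b2 : (0 : ℝ) ≤ K0 := K0.cast_nonneg
      have b3 : al χ ε' K0 ≤ χ * (K + 1) := by unfold al; nlinarith only [b1, b2, hχ, hε]
      rw [eJ]; nlinarith only [b1, b2, b3, hχ, j0]
    have := hw.new _ q _ _ _ a1 a3 (a2.trans (e2.trans ρ2))
    exact ⟨this.1, this.2.trans a2⟩
  have hA : ∀ q, β.gs x q ∈ ball p col → β.gs x q ∈ β.Om ∧ q ∈ O ∧ ‖w (β.gs x q)‖ ≤ A0 + 1 ∧
      ∀ i ≤ k, ‖iteratedFDeriv ℝ i (fun t => w (β.gs x t)) q‖ ≤ exp (j + 1 : ℕ) := by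
    intro q hq
    have hc := hG _ hq
    set σ := exp (-κ * j) with hσ
    have σ0 : 0 < σ := exp_pos _
    have σ1 : σ ≤ rho χ j := (le_mul_of_one_le_left σ0.le hLs).trans e3
    have b0 : ∀ t ∈ ball q σ, t ∈ ball (0 : Q) β.R := fun t ht =>
      h.mem' hc.1.ar.sub ((mem_ball_iff_norm.1 ht).trans_le (by linarith))
    have b1 : ∀ t ∈ ball q σ, β.gs x t ∈ ball (β.gs x q) (rho χ j) := fun t ht => by
      rw [mem_ball_iff_norm]
      refine (hs x q (b0 q (mem_ball_self σ0)) t (b0 t ht)).trans_lt (lt_of_lt_of_le ?_ e3)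
      gcongr; exact mem_ball_iff_norm.1 ht
    have b2 : ∀ t ∈ ball q σ, β.gs x t ∈ β.Om := fun t ht =>
      hc.1.ar.sub (ball_subset_ball (by linarith) (b1 t ht))
    have b3 : ∀ t ∈ ball q σ, ‖w (β.gs x t)‖ ≤ A0 + 1 := fun t ht => by
      have := norm_le_norm_add_norm_sub' (w (β.gs x t)) (G (β.gs x q) (β.gs x t))
      linarith [(hA0 _ hq t (b1 t ht)).2, (hc.2 _ (b1 t ht)).1]
    have b4 : ∀ t ∈ ball q σ, ContDiffAt ℝ ∞ (fun t => w (β.gs x t)) t := fun t ht =>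
      (hw.sm t (hA0 _ hq t (b1 t ht)).1 (b2 t ht)).self_of_nhds.comp t (h.ubgs.at (b0 t ht))
    have b5 : ∀ t ∈ ball q σ, ContDiffAt ℝ ∞ (fun t => G (β.gs x q) (β.gs x t)) t := fun t ht =>
      hc.1.poly.sm.contDiffAt.comp t (h.ubgs.at (b0 t ht))
    have b6 : ∀ t ∈ ball q σ, ∀ i ≤ k + 1,
        ‖iteratedFDeriv ℝ i (fun t => G (β.gs x q) (β.gs x t)) t‖ ≤ Ck * A1 := fun t ht =>
      hck A _ A1 x t (b0 t ht) hc.1.poly.sm (hc.2 _ (b1 t ht)).2
    have hqσ := mem_ball_self (x := q) σ0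
    refine ⟨b2 q hqσ, (hA0 _ hq q (b1 q hqσ)).1, b3 q hqσ, fun i hik => ?_⟩
    have x1 : 1 ≤ exp (1 / 2 * (j : ℝ)) := one_le_exp (by positivity)
    have c1 := hi Q A (fun t => w (β.gs x t) - G (β.gs x q) (β.gs x t)) q σ (Cδ * exp (-m * j))
      ((CF * exp |Λ| + Ck) * exp ((|Λ| + 1) * j)) σ0
      (fun t ht => (((b4 t ht).sub (b5 t ht)).of_le (li _)).contDiffWithinAt)
      (fun t ht => (hA0 _ hq t (b1 t ht)).2) (fun t ht => by
        rw [fun_iteratedFDeriv_sub_apply ((b4 t ht).of_le (li _)) ((b5 t ht).of_le (li _))]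
        have c2 := hw.crude t (hA0 _ hq t (b1 t ht)).1 (b2 t ht) (b3 t ht)
        have c3 : CF0 * exp (Λ * (j + 1 : ℕ)) ≤ CF * exp |Λ| * exp ((|Λ| + 1) * j) := by
          rw [mul_assoc, ← exp_add, eJ]
          exact mul_le_mul hCF0 (exp_le_exp.2 (by nlinarith only [le_abs_self Λ, j0])) (exp_pos _).le
            (by linarith)
        have c4 : Ck * A1 ≤ Ck * exp ((|Λ| + 1) * j) :=
          mul_le_mul_of_nonneg_left (hA1.trans (exp_le_exp.2 (by nlinarith only [Λ0, j0]))) (by linarith)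
        linarith [norm_sub_le (iteratedFDeriv ℝ (k + 1) (fun t => w (β.gs x t)) t)
          (iteratedFDeriv ℝ (k + 1) (fun t => G (β.gs x q) (β.gs x t)) t), b6 t ht _ le_rfl])
      i (by omega) q (mem_ball_self (by positivity))
    have σ2 : σ ≤ 1 := σ1.trans ρ2
    have c5 : Cδ * exp (-m * j) / σ ^ i ≤ Cδ * exp ((-m + k * κ) * j) := by
      refine (div_le_div_of_nonneg_left (by positivity) (pow_pos σ0 k)
        (pow_le_pow_of_le_one σ0.le σ2 hik)).trans_eq ?_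
      rw [hσ, ← exp_nat_mul, mul_div_assoc, ← exp_sub]; ring_nf
    have c6 : (CF * exp |Λ| + Ck) * exp ((|Λ| + 1) * j) * σ ^ (k + 1 - i) ≤
        (CF * exp |Λ| + Ck) * exp ((|Λ| + 1 + -κ) * j) := by
      rw [add_mul (|Λ| + 1), exp_add, ← mul_assoc]
      gcongr
      exact pow_le_of_le_one σ0.le σ2 (by omega)
    have c7 : ‖iteratedFDeriv ℝ i (fun t => w (β.gs x t) - G (β.gs x q) (β.gs x t)) q‖ ≤ 1 := by
      refine c1.trans ((mul_le_mul_of_nonneg_left (add_le_add c5 c6) hCi.le).trans ?_)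
      linarith
    rw [fun_iteratedFDeriv_sub_apply ((b4 q hqσ).of_le (li _)) ((b5 q hqσ).of_le (li _))] at c7
    have c8 := norm_le_norm_add_norm_sub' (iteratedFDeriv ℝ i (fun t => w (β.gs x t)) q)
      (iteratedFDeriv ℝ i (fun t => G (β.gs x q) (β.gs x t)) q)
    have c9 : exp (j : ℝ) ≤ exp (j + 1 : ℕ) := exp_le_exp.2 (by rw [eJ]; linarith)
    have c10 : Ck * A1 ≤ Ck * exp (1 / 2 * j) := mul_le_mul_of_nonneg_left hA1 (by linarith)
    linarith [b6 q hqσ i (by omega)]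
  have hB : ∀ q, Ls * ‖q - p.1‖ ≤ col / 2 → β.gs x q ∈ ball p col := fun q hq => by
    have a0 : ‖q - p.1‖ ≤ Ls * ‖q - p.1‖ := le_mul_of_one_le_left (norm_nonneg _) hLs
    have a1 := hs x p.1 (h.mem (sO (mem_ball_self col0))) q (h.mem' sO (by linarith))
    have a2 := norm_sub_le_norm_sub_add_norm_sub (β.gs x q) (β.gs x p.1) p
    rw [norm_sub_rev] at n0
    rw [mem_ball_iff_norm]; linarith
  have hC1 : ∀ q ∈ ball p.1 (LT * (4 * rho χ (j + 1))), Ls * ‖q - p.1‖ ≤ col / 4 := fun q hq => by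
    have : ‖q - p.1‖ ≤ LT * (4 * rho χ j) :=
      (mem_ball_iff_norm.1 hq).le.trans (by gcongr)
    linarith only [mul_le_mul_of_nonneg_left this (zero_le_one.trans hLs), e7]
  have hJ : ∀ q ∈ ball p.1 (LT * (4 * rho χ (j + 1))), ∀ i ≤ K + 1,
      ‖iteratedFDeriv ℝ i w (β.gs x q)‖ ≤ CF * exp (ε' * (i + 1) * (j + 1 : ℕ)) := fun q hq i hi =>
    (hw.apr q (fun t ht => hA t (hB t (by
      have a1 := hC1 q hq
      have a2 := norm_sub_le_norm_sub_add_norm_sub t q p.1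
      have a3 : ‖t - q‖ ≤ exp (-c) * exp (-c * j) := (mem_ball_iff_norm.1 ht).le.trans_eq (by
        rw [eJ, ← exp_add]; ring_nf)
      linarith only [mul_le_mul_of_nonneg_left (a2.trans (add_le_add_left a3 _))
        (zero_le_one.trans hLs), a1, e8]))) i hi).trans (by gcongr)
  set M := CF * exp (be ε' K * (j + 1 : ℕ)) with hM
  have be0 : 0 ≤ be ε' K := by unfold be; positivity
  have M1 : 1 ≤ M := one_le_mul_of_one_le_of_one_le hCF (one_le_exp (by positivity))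
  have d0 : 0 < d := by positivity
  have hAR := hT x w p.1 p (4 * rho χ (j + 1)) M (CF * exp (-(χ * (K + 1) * (j + 1 : ℕ))))
    (by positivity) e11 M1 (by positivity) ((ball_subset_ball (by linarith)).trans hp.1.ar.sub)
    (by linarith) fun q hq => by
      have a1 := hA q (hB q (by linarith [hC1 q hq]))
      refine ⟨a1.1, hw.sm q a1.2.1 a1.1, fun y hy t ht =>
        (hw.fml q a1.2.1 a1.1 a1.2.2.1 y hy t ht).trans (by gcongr), fun i hi => (hJ q hq i hi).trans ?_⟩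
      have : (i : ℝ) ≤ K + 1 := by exact_mod_cast hi
      have a2 : ε' * (i + 1) ≤ be ε' K := mul_le_mul_of_nonneg_left (by linarith) hε.le
      rw [hM]; gcongr
  have x4 : (1 : ℝ) ≤ 4 ^ (K + 1) := one_le_pow₀ (by norm_num)
  refine ⟨_, ⟨poly_Ty K w _, hAR.mono hAR.pos hAR.le subset_rfl ?_ ?_⟩, ?_⟩
  · have a1 : M * (4 * rho χ (j + 1)) ^ (K + 1) = CF * 4 ^ (K + 1) * exp (-al χ ε' K * (j + 1 : ℕ)) := by
      rw [hM, mul_pow, rho, ← exp_nat_mul, mul_mul_mul_comm, ← exp_add, al, be]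
      push_cast; ring_nf
    have a2 : exp (-(χ * (K + 1) * (j + 1 : ℕ))) ≤ exp (-al χ ε' K * (j + 1 : ℕ)) := by
      have b2 : (0 : ℝ) ≤ K := K.cast_nonneg
      have b3 : al χ ε' K ≤ χ * (K + 1) := by unfold al; nlinarith only [b2, hχ, hε]
      exact exp_le_exp.2 (by rw [eJ]; nlinarith only [b3, j0])
    have a3 := exp_pos (-al χ ε' K * (j + 1 : ℕ))
    have a4 : CT * (CF * exp (-(χ * (K + 1) * (j + 1 : ℕ)))) ≤
      CT * (CF * exp (-al χ ε' K * (j + 1 : ℕ))) := by gcongr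
    rw [a1]
    linarith only [mul_nonneg p2 a3.le, a4, a3]
  · rw [hM, ← mul_assoc]
    gcongr
    have a1 : 0 ≤ CT * CF * 4 ^ (K + 1) := by positivity
    linarith only [a1, p2]
  · have m0 : β.gs x p.1 ∈ ball p (rho χ j) := by
      rw [mem_ball_iff_norm, norm_sub_rev]; linarith
    have a1 := (hA0 p (mem_ball_self col0) p.1 m0).2
    have a2 : ‖G p (β.gs x p.1) - G p p‖ ≤ A1 * ‖β.gs x p.1 - p‖ :=
      (convex_ball _ _).norm_image_sub_le_of_norm_fderiv_le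
        (fun u _ => hp.1.poly.sm.contDiffAt.differentiableAt (by simp))
        (fun u hu => (norm_iteratedFDeriv_one _).symm.trans_le ((hp.2 u hu).2 1 (by omega)))
        (mem_ball_self ρ0) m0
    have a3 : A1 * ‖β.gs x p.1 - p‖ ≤ A1 * rho χ j := by
      gcongr; exact (mem_ball_iff_norm.1 m0).le
    have a4 := Ty_sub_self (K := K) (w := w) (a := β.gs x p.1) (z := p) (δ := CF ^ 2 * rho χ j)
      fun i hi => by
        have b1 := hJ p.1 (mem_ball_self (by positivity)) (i + 1) (by omega)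
        have b2 : CF * exp (ε' * ((i + 1 : ℕ) + 1) * (j + 1 : ℕ)) * d ^ (i + 1) =
            CF ^ 2 * exp ((2 * ε' + -χ) * (j + 1 : ℕ)) * (CF * exp ((ε' + -χ) * (j + 1 : ℕ))) ^ i := by
          rw [hd, mul_pow, mul_pow, ← exp_nat_mul, ← exp_nat_mul, mul_mul_mul_comm, ← exp_add,
            mul_mul_mul_comm, ← exp_add]
          push_cast; ring_nf
        have b3 : exp ((2 * ε' + -χ) * (j + 1 : ℕ)) ≤ rho χ j :=
          exp_le_exp.2 (by rw [eJ]; nlinarith only [hε', hε, hχ, j0])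
        calc _ ≤ CF * exp (ε' * ((i + 1 : ℕ) + 1) * (j + 1 : ℕ)) * d ^ (i + 1) := by gcongr
          _ ≤ CF ^ 2 * rho χ j * 1 := by
            rw [b2]; gcongr; exact pow_le_one₀ (by positivity) e12
          _ = _ := mul_one _
    have a5 := norm_sub_le_norm_sub_add_norm_sub (Ty K w (β.gs x p.1) p) (w (β.gs x p.1)) (G p p)
    have a6 := norm_sub_le_norm_sub_add_norm_sub (w (β.gs x p.1)) (G p (β.gs x p.1)) (G p p)
    linarith only [mul_nonneg p1 ρ0.le, mul_nonneg (mul_nonneg p1 A10) ρ0.le,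
      mul_nonneg (mul_nonneg p2 A10) ρ0.le, a1, a2, a3, a4, a5, a6, e2]

end Box

end Crest.Agent.N221.G0.L
end

-- ▼ part N221/G0/LMain
section

/-! Row 221, block G0/L: start, first run, limit, second run. -/

set_option autoImplicit false
set_option linter.unusedSectionVars false

open Set Metric Filter Topology Real
open scoped ContDiff Nat

namespace Crest.Agent.N221.G0.L

lemma exists_level {η ρ : ℝ} (hη : 0 < η) (hρ : 0 < ρ) {J : ℕ} (h : ρ ≤ exp (-η * J)) :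
    ∃ j : ℕ, J ≤ j ∧ exp (-η * (j + 1 : ℕ)) < ρ ∧ ρ ≤ exp (-η * j) := by
  have h1 : (J : ℝ) ≤ -log ρ / η := by
    rw [le_div_iff₀ hη]; linarith [(log_le_iff_le_exp hρ).2 h]
  have h2 := Nat.floor_le (J.cast_nonneg.trans h1)
  have h3 := Nat.lt_floor_add_one (-log ρ / η)
  rw [le_div_iff₀ hη] at h2
  rw [div_lt_iff₀ hη] at h3
  exact ⟨⌊-log ρ / η⌋₊, Nat.le_floor h1, (lt_log_iff_exp_lt hρ).1 (by push_cast; linarith),
    (log_le_iff_le_exp hρ).1 (by linarith)⟩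

lemma al_nonneg {χ ε' : ℝ} (hχ : 0 < χ) (h : 4 * ε' ≤ χ) (K : ℕ) : 0 ≤ al χ ε' K := by
  have : (0 : ℝ) ≤ K := K.cast_nonneg
  unfold al; nlinarith

namespace Box

variable {Q P A A' X Y : Type} [NormedAddCommGroup Q] [NormedSpace ℝ Q] [NormedAddCommGroup P]
  [NormedSpace ℝ P] [NormedAddCommGroup A] [NormedSpace ℝ A] [NormedAddCommGroup A']
  [NormedSpace ℝ A'] {β : Box Q P A A' X Y} {N a k K n : ℕ} {θ χ ε' η : ℝ}

lemma Lv.mono {C C' : ℝ} {j : ℕ} {p : Q × P} {G : Q × P → A} (h : β.Lv N χ ε' K C j p G)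
    (hC : C ≤ C') : β.Lv N χ ε' K C' j p G :=
  ⟨h.poly, h.ar.mono h.ar.pos h.ar.le subset_rfl (by gcongr) (by gcongr)⟩

set_option maxHeartbeats 800000 in
lemma Ok.start [CompleteSpace A] (h : β.Ok) (hη : 0 < η) (h1 : η ≤ ε') (h2 : η < χ / 2)
    (h3 : η * (k + 1) < 1 / 2) (h4 : al χ ε' K ≤ η * n) (h5 : K + 1 ≤ n) (hS : β.Start n) :
    ∃ C a0 : ℝ, 1 ≤ C ∧ ∀ J : ℕ, ∃ j, J ≤ j ∧ ∃ (z : Q × P) (ρ : ℝ), exp (-η * (j + 1 : ℕ)) < ρ ∧
      ∀ p ∈ ball z (ρ / 2), ∃ G, β.Lv N χ ε' K C j p G ∧ ∀ y ∈ ball p (rho χ j), ‖G y‖ ≤ a0 ∧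
        ∀ i ≤ k + 1, ‖iteratedFDeriv ℝ i G y‖ ≤ exp (1 / 2 * j) - 1 := by
  obtain ⟨C0', hS⟩ := hS
  obtain ⟨C0, hC0, hC0'⟩ : ∃ C0 : ℝ, 1 ≤ C0 ∧ C0' ≤ C0 := ⟨_, le_max_right _ _, le_max_left _ _⟩
  obtain ⟨c0, hc0, hD⟩ := h.norm_D
  obtain ⟨Cp, hCp, hp⟩ := poly_jets K
  set C1 := Cp * ((K + 1) * C0) with hC1
  have q1 : 0 ≤ c0 * (C0 * (4 * exp η) ^ (K + 1)) := by positivity
  have q2 : 0 ≤ C1 * (2 * exp η) ^ K := by positivity
  refine ⟨C0 + c0 * (C0 * (4 * exp η) ^ (K + 1)) + C1 * (2 * exp η) ^ K, (K + 1) * C0,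
    by linarith, fun J => ?_⟩
  obtain ⟨J1, hJ1⟩ := eventually_atTop.1 ((ev 4 (show 0 < exp (-η) / 2 by positivity)
    (show -(χ / 2) < -η by linarith)).and ((ev (C1 * (2 * exp η) ^ (k + 1)) one_half_pos h3).and
      (ev 1 one_half_pos (show (0 : ℝ) < 1 / 2 by norm_num))))
  obtain ⟨ρ, z, g, ρ0, ρ1, hsub, hg, hb⟩ := hS _ (exp_pos (-η * (max J J1 : ℕ)))
  obtain ⟨j, hj, l1, l2⟩ := exists_level hη ρ0 ρ1.le
  obtain ⟨e1, e2, e3⟩ := hJ1 j (le_of_max_le_right hj)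
  refine ⟨j, le_of_max_le_left hj, z, ρ, l1, fun p hpz => ?_⟩
  have j0 : (0 : ℝ) ≤ j := j.cast_nonneg
  have K0 : (0 : ℝ) ≤ K := K.cast_nonneg
  have r0 := rho_pos χ j
  have l3 : exp (-η) * exp (-η * j) < ρ := by
    rw [← exp_add]; refine lt_of_eq_of_lt ?_ l1; push_cast; ring_nf
  have l4 : 4 * rho χ j ≤ ρ / 2 := by unfold rho; linarith
  have l5 : ρ ≤ 1 := l2.trans (exp_le_one_iff.2 (by nlinarith))
  have l6 : 1 / ρ ≤ exp η * exp (η * j) := by
    rw [div_le_iff₀ ρ0]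
    calc (1 : ℝ) = exp η * exp (η * j) * (exp (-η) * exp (-η * j)) := by
          simp only [← exp_add]; ring_nf; simp
      _ ≤ _ := by gcongr
  have s1 : ball p (ρ / 2) ⊆ ball z ρ := ball_subset_ball' (by rw [mem_ball] at hpz; linarith)
  have s2 : ball p (4 * rho χ j) ⊆ ball p (ρ / 2) := ball_subset_ball l4
  have b1 : ∀ y ∈ ball z ρ, ∀ i ≤ n, ‖iteratedFDeriv ℝ i g y‖ ≤ C0 / ρ ^ i := fun y hy i hi =>
    ((hb y hy).2 i hi).trans (by gcongr)
  have mp := s1 (mem_ball_self (by positivity))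
  have b2 : ∀ y ∈ ball p (2 * (ρ / 2)), ‖Ty K g p y‖ ≤ (K + 1) * C0 := fun y hy => by
    have a1 := Ty_sub_self (K := K) (w := g) (a := p) (z := y) (δ := C0) fun i hi => by
      have : ‖y - p‖ ≤ ρ := by rw [mem_ball_iff_norm] at hy; linarith
      calc _ ≤ C0 / ρ ^ (i + 1) * ρ ^ (i + 1) := by gcongr; exact b1 p mp _ (by omega)
        _ = C0 := by field_simp
    have a2 := b1 p mp 0 (by omega)
    rw [norm_iteratedFDeriv_zero, pow_zero, div_one] at a2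
    linarith [norm_le_norm_add_norm_sub' (Ty K g p y) (g p)]
  have b3 : ∀ y ∈ ball p (ρ / 2), ∀ m i, i ≤ m →
      ‖iteratedFDeriv ℝ i (Ty K g p) y‖ ≤ C1 * (2 * exp η) ^ m * exp (η * m * j) := by
    intro y hy m i hi
    refine (hp _ A _ p (ρ / 2) _ (poly_Ty K g p) (by positivity) b2 i y hy).trans ?_
    have a1 : 1 ≤ 1 / ρ := by rw [le_div_iff₀ ρ0]; linarith
    calc _ = C1 * (2 * (1 / ρ)) ^ i := by rw [hC1, mul_one_div, div_pow, div_pow]; field_simp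
      _ ≤ C1 * (2 * (1 / ρ)) ^ m := by gcongr; linarith
      _ ≤ C1 * (2 * (exp η * exp (η * j))) ^ m := by gcongr
      _ = _ := by rw [← mul_assoc 2, mul_pow, ← exp_nat_mul, mul_assoc C1]; ring_nf
  have be1 : η * K ≤ be ε' K := by unfold be; nlinarith
  have x1 : 1 ≤ exp (be ε' K * j) := one_le_exp (by nlinarith [mul_nonneg hη.le K0])
  refine ⟨Ty K g p, ⟨poly_Ty K g p, by positivity, by linarith,
    one_le_mul_of_one_le_of_one_le (by linarith) x1, (s2.trans s1).trans hsub, (poly_Ty K g p).sm,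
    fun y hy => ?_, fun y hy i _ => ?_⟩, fun y hy => ⟨b2 y (ball_subset_ball (by linarith) hy),
      fun i hi => (b3 y (ball_subset_ball (by linarith) hy) (k + 1) i hi).trans ?_⟩⟩
  · have my := s1 (s2 hy)
    have a1 := Ty_rem (K := K) (hg.mono s1) (fun y hy => b1 y (s1 hy) _ h5) (s2 hy)
    have a2 : C0 / ρ ^ (K + 1) * ‖y - p‖ ^ (K + 1) ≤
        C0 * (4 * exp η) ^ (K + 1) * exp (-al χ ε' K * j) := by
      calc _ = C0 * (‖y - p‖ * (1 / ρ)) ^ (K + 1) := by rw [mul_one_div, div_pow]; field_simp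
        _ ≤ C0 * (4 * rho χ j * (exp η * exp (η * j))) ^ (K + 1) := by
          gcongr; exact (mem_ball_iff_norm.1 hy).le
        _ = C0 * (4 * exp η) ^ (K + 1) * exp ((η - χ / 2) * (K + 1) * j) := by
          rw [rho, mul_mul_mul_comm, ← exp_add, mul_pow _ (exp _), ← exp_nat_mul, mul_assoc C0]
          push_cast; ring_nf
        _ ≤ _ := by gcongr; unfold al; nlinarith
    have a3 : C0' * ρ ^ n ≤ C0 * exp (-al χ ε' K * j) := by
      calc _ ≤ C0 * exp (-η * j) ^ n := by gcongr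
        _ ≤ _ := by rw [← exp_nat_mul]; gcongr C0 * exp ?_; nlinarith
    have e : β.df y (Ty K g p y) = β.df y (g y) - β.D y (g y - Ty K g p y) := by
      simp only [df, map_sub]; abel
    have a4 := ((β.D y).le_of_opNorm_le (hD y (hsub my)) _).trans
      (mul_le_mul_of_nonneg_left (a1.trans a2) (by linarith))
    rw [e]
    linarith only [norm_sub_le (β.df y (g y)) (β.D y (g y - Ty K g p y)), a4, a3, (hb y my).1,
      mul_nonneg q2 (exp_pos (-al χ ε' K * j)).le]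
  · rcases lt_or_ge K i with hi | hi
    · rw [(poly_Ty K g p).zero' hi, norm_zero]; positivity
    · refine (b3 y (s2 hy) K i hi).trans ?_
      gcongr; linarith
  · push_cast
    simp only [zero_mul, exp_zero] at e3
    linarith

lemma Ok.cmpL (h : β.Ok) (hU : β.UQ N a θ) (hχ : 0 < χ) (hε : 0 < ε') (hε' : 4 * ε' ≤ χ) (K : ℕ)
    {C : ℝ} (hC : 1 ≤ C) : ∃ C2 : ℝ, 0 ≤ C2 ∧ ∀ (j i i' : ℕ) (p p' z : Q × P) (G G' : Q × P → A)
      (r : ℝ), j ≤ i → i ≤ j + 1 → j ≤ i' → i' ≤ j + 1 → β.Lv N χ ε' K C i p G →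
      β.Lv N χ ε' K C i' p' G' → rho χ (j + 1) ≤ r → r ≤ 1 → ball z r ⊆ ball p (4 * rho χ i) →
      ball z r ⊆ ball p' (4 * rho χ i') →
      ∀ y ∈ ball z (r / 2), ‖G y - G' y‖ ≤ C2 * exp (-mm a θ χ ε' K * j) := by
  obtain ⟨Cc, hCc, hc⟩ := h.cmp hU
  refine ⟨Cc * ((C * exp (be ε' K) * exp (χ / 2)) ^ a * C ^ θ), by positivity,
    fun j i i' p p' z G G' r a1 a2 a3 a4 hG hG' r1 r2 s1 s2 y hy => ?_⟩
  have al0 := al_nonneg hχ hε' K
  have be0 : 0 ≤ be ε' K := by unfold be; positivity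
  have r0 := rho_pos χ (j + 1)
  have j0 : (0 : ℝ) ≤ j := j.cast_nonneg
  have key : ∀ (i : ℕ) (p : Q × P) (G : Q × P → A), j ≤ i → i ≤ j + 1 → β.Lv N χ ε' K C i p G →
      ball z r ⊆ ball p (4 * rho χ i) →
      β.AR N G z r (C * exp (-al χ ε' K * j)) (C * exp (be ε' K * (j + 1))) := by
    intro i p G b1 b2 hG s
    have c1 : (j : ℝ) ≤ i := by exact_mod_cast b1
    have c2 : (i : ℝ) ≤ j + 1 := by exact_mod_cast b2
    exact hG.ar.mono (r0.trans_le r1) r2 s (by gcongr C * exp ?_; nlinarith) (by gcongr)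
  refine (hc _ _ _ _ _ _ (key i p G a1 a2 hG s1) (key i' p' G' a3 a4 hG' s2) y hy).trans ?_
  have b1 : C * exp (be ε' K * (j + 1)) / r ≤
      C * exp (be ε' K) * exp (χ / 2) * exp ((be ε' K + 1 + χ / 2) * j) := by
    calc _ ≤ C * exp (be ε' K * (j + 1)) / rho χ (j + 1) := by gcongr
      _ = C * exp (be ε' K) * exp (χ / 2) * exp ((be ε' K + χ / 2) * j) := by
        rw [rho, mul_div_assoc, ← exp_sub, mul_assoc, mul_assoc, ← exp_add, ← exp_add]
        push_cast; ring_nf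
      _ ≤ _ := by gcongr; linarith
  have r3 := r0.trans_le r1
  rw [mul_assoc, mul_assoc Cc, mm, ← num (by linarith)]
  gcongr

lemma Ok.lim [CompleteSpace A] (h : β.Ok) (hU : β.UQ N a θ) (hχ : 0 < χ) (hε : 0 < ε')
    (hε' : 4 * ε' ≤ χ) (hm : 0 < mm a θ χ ε' K) {C : ℝ} (hC : 1 ≤ C) : ∃ C3 : ℝ, 0 ≤ C3 ∧
    ∀ (j0 : ℕ) (p : Q × P) (G : ℕ → Q × P → A), (∀ j, j0 ≤ j → β.Lv N χ ε' K C j p (G j)) →
      ∃ v, Tendsto (fun j => G j p) atTop (𝓝 v) ∧
        ∀ j, j0 ≤ j → ‖G j p - v‖ ≤ C3 * exp (-mm a θ χ ε' K * j) := by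
  obtain ⟨C2, hC2, hc⟩ := h.cmpL hU hχ hε hε' K hC
  set m := mm a θ χ ε' K
  have r1 : exp (-m) < 1 := exp_lt_one_iff.2 (by linarith)
  have r2 : 0 < 1 - exp (-m) := by linarith
  refine ⟨C2 / (1 - exp (-m)), by positivity, fun j0 p G hG => ?_⟩
  have hu : ∀ i : ℕ, dist (G (i + j0) p) (G (i + 1 + j0) p) ≤ C2 * exp (-m * j0) * exp (-m) ^ i := by
    intro i
    have a1 := hG (i + j0 + 1) (by omega)
    have a2 := hc (i + j0) _ _ p p p _ _ _ le_rfl (by omega) (by omega) le_rfl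
      (hG (i + j0) (by omega)) a1 (by linarith [rho_pos χ (i + j0 + 1)]) a1.ar.le
      (ball_subset_ball (by linarith [rho_anti hχ (Nat.le_succ (i + j0))])) subset_rfl p
      (mem_ball_self (by linarith [a1.ar.pos]))
    rw [dist_eq_norm, Nat.add_right_comm]
    refine a2.trans_eq ?_
    rw [← exp_nat_mul, mul_assoc, ← exp_add]; push_cast; ring_nf
  obtain ⟨v, hv⟩ := cauchySeq_tendsto_of_complete
    (cauchySeq_of_le_geometric (f := fun i => G (i + j0) p) _ _ r1 hu)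
  refine ⟨v, (tendsto_add_atTop_iff_nat j0).1 hv, fun j hj => ?_⟩
  obtain ⟨i, rfl⟩ := Nat.exists_eq_add_of_le' hj
  have := dist_le_of_le_geometric_of_tendsto (f := fun i => G (i + j0) p) _ _ r1 hu hv i
  rw [dist_eq_norm] at this
  refine this.trans_eq ?_
  rw [← exp_nat_mul, mul_assoc, ← exp_add, div_mul_eq_mul_div]; push_cast; ring_nf

set_option maxHeartbeats 800000 in
/-- the first run -/
lemma Ok.first [CompleteSpace A] [CompleteSpace A'] (h : β.Ok) (hR : 0 < β.R) (hU : β.UQ N a θ)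
    {Λ c c' : ℝ} (hχ : 0 < χ) (hε : 0 < ε') (hε' : 4 * ε' ≤ χ) (h1 : c' < c) (h2 : c' < χ / 2)
    (hm : (k + 2) * (|Λ| + χ + 2) ≤ mm a θ χ ε' K) (hF : β.Fam N a θ χ ε' k Λ c K)
    (hη : 0 < η) (g1 : η ≤ ε') (g2 : η < c') (g3 : η * (k + 1) < 1 / 2) (g4 : al χ ε' K ≤ η * n)
    (g5 : K + 1 ≤ n) (hS : β.Start n) :
    ∃ (C A0 A1 r : ℝ) (j0 : ℕ) (z : Q × P), 1 ≤ C ∧ 0 < r ∧ A1 ≤ exp (1 / 2 * j0) ∧
      ∀ j, j0 ≤ j → ∀ p ∈ ball z r, ∃ G, β.Lv N χ ε' K C j p G ∧ ∀ y ∈ ball p (rho χ j),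
        ‖G y‖ ≤ A0 ∧ ∀ i ≤ k + 1, ‖iteratedFDeriv ℝ i G y‖ ≤ A1 := by
  obtain ⟨Cs, a0, hCs, hs⟩ := h.start (N := N) hη g1 (g2.trans h2) g3 g4 g5 hS
  obtain ⟨C', hC', hst⟩ := h.step hR hχ hε hε' h1 h2 le_rfl hm hF (a0 + 1)
  have hC : 1 ≤ max Cs C' := le_max_of_le_left hCs
  obtain ⟨C2, hC2, hc⟩ := h.cmpL hU hχ hε hε' K hC
  obtain ⟨Cp, hCp, hp⟩ := poly_jets K
  set m := mm a θ χ ε' K
  have c0 : 0 < c' := hη.trans g2
  have d0 : 0 < 1 - exp (-c') := sub_pos.2 (exp_lt_one_iff.2 (by linarith))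
  have d1 : 0 < 1 - exp (-1) := sub_pos.2 (exp_lt_one_iff.2 (by norm_num))
  have k0 : (0 : ℝ) ≤ k := k.cast_nonneg
  have Λ0 := abs_nonneg Λ
  obtain ⟨J, hJ⟩ := eventually_atTop.1 ((hst _ hC).and
    ((ev (1 - exp (-c'))⁻¹ (show 0 < exp (-η) / 4 by positivity) (show -c' < -η by linarith)).and
    ((ev C2 d1 (show -m < -1 by nlinarith)).and
    (ev (Cp * C2 * exp ((k + 1) * (χ / 2))) d1 (show -m + (k + 1) * (χ / 2) < -1 by nlinarith)))))
  obtain ⟨j0, hj0, z, ρ, l1, hz⟩ := hs J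
  have ρ0 : 0 < ρ := (exp_pos _).trans l1
  have key : ∀ j, j0 ≤ j → ∀ p ∈ ball z (ρ / 4 + (1 - exp (-c'))⁻¹ * exp (-c' * j)),
      ∃ G, β.Lv N χ ε' K (max Cs C') j p G ∧ ∀ y ∈ ball p (rho χ j),
        ‖G y‖ ≤ a0 + 1 - exp (-1 * j) ∧
        ∀ i ≤ k + 1, ‖iteratedFDeriv ℝ i G y‖ ≤ exp (1 / 2 * j0) - exp (-1 * j) := by
    intro j hj
    induction j, hj using Nat.le_induction with
    | base =>
      intro p hp'
      have a1 := (hJ j0 hj0).2.1
      have a2 : exp (-η) * exp (-η * j0) < ρ := by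
        rw [← exp_add]; refine lt_of_eq_of_lt ?_ l1; push_cast; ring_nf
      have a3 : exp (-1 * (j0 : ℝ)) ≤ 1 := exp_le_one_iff.2 (by linarith [j0.cast_nonneg (α := ℝ)])
      obtain ⟨G, b1, b2⟩ := hz p (ball_subset_ball (by linarith) hp')
      exact ⟨G, b1.mono (le_max_left _ _), fun y hy => ⟨by linarith [(b2 y hy).1],
        fun i hi => by linarith [(b2 y hy).2 i hi]⟩⟩
    | succ j hj ih =>
      intro p hp'
      obtain ⟨e1, -, e2, e3⟩ := hJ j (hj0.trans hj)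
      choose! G hG using ih
      have eJ : ((j + 1 : ℕ) : ℝ) = j + 1 := by push_cast; ring
      have s1 : ball p (exp (-c' * j)) ⊆ ball z (ρ / 4 + (1 - exp (-c'))⁻¹ * exp (-c' * j)) := by
        refine ball_subset_ball' ?_
        have : (1 - exp (-c'))⁻¹ * exp (-c' * j) =
            exp (-c' * j) + (1 - exp (-c'))⁻¹ * exp (-c' * (j + 1 : ℕ)) := by
          rw [eJ, mul_add (-c'), exp_add, mul_one]; field_simp; ring
        rw [mem_ball] at hp'; linarith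
      have x1 := exp_pos (-1 * (j : ℝ))
      have x2 : (j0 : ℝ) ≤ j := by exact_mod_cast hj
      obtain ⟨G', b1, -⟩ := e1 p G (exp (1 / 2 * j0)) (exp_le_exp.2 (by linarith)) fun p' hp'' =>
        ⟨(hG p' (s1 hp'')).1, fun y hy => ⟨by linarith [((hG p' (s1 hp'')).2 y hy).1],
          fun i hi => by linarith [((hG p' (s1 hp'')).2 y hy).2 i hi]⟩⟩
      have hp0 := hG p (s1 (mem_ball_self (exp_pos _)))
      have b2 := b1.mono (le_max_right Cs C')
      have r0 := rho_pos χ (j + 1)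
      have r1 := rho_anti hχ (Nat.le_succ j)
      have b3 := hc j _ _ p p p _ _ _ (Nat.le_succ j) le_rfl le_rfl (Nat.le_succ j) b2 hp0.1
        (by linarith) b2.ar.le subset_rfl (ball_subset_ball (by linarith))
      have x3 : (1 - exp (-1)) * exp (-1 * (j : ℝ)) = exp (-1 * j) - exp (-1 * (j + 1 : ℕ)) := by
        rw [eJ, mul_add, exp_add]; ring_nf
      refine ⟨G', b2, fun y hy => ⟨?_, fun i hi => ?_⟩⟩
      · linarith [b3 y (ball_subset_ball (by linarith) hy), (hp0.2 y (ball_subset_ball r1 hy)).1,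
          norm_le_norm_add_norm_sub' (G' y) (G p y)]
      have b4 := hp _ A _ p _ _ (b2.poly.sub hp0.1.poly) r0
        (fun y hy => b3 y (ball_subset_ball (by linarith) hy)) i y hy
      have b5 : Cp * (C2 * exp (-m * j)) / rho χ (j + 1) ^ i ≤
          Cp * C2 * exp ((k + 1) * (χ / 2)) * exp ((-m + (k + 1) * (χ / 2)) * j) := by
        refine (div_le_div_of_nonneg_left (by positivity) (pow_pos r0 (k + 1))
          (pow_le_pow_of_le_one r0.le (by linarith [b2.ar.le]) hi)).trans_eq ?_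
        rw [rho, ← exp_nat_mul, ← mul_assoc, mul_div_assoc, ← exp_sub, mul_assoc (Cp * C2), ← exp_add]
        push_cast; ring_nf
      rw [fun_iteratedFDeriv_sub_apply (b2.poly.sm.contDiffAt.of_le (li _))
        (hp0.1.poly.sm.contDiffAt.of_le (li _))] at b4
      linarith [(hp0.2 y (ball_subset_ball r1 hy)).2 i hi,
        norm_le_norm_add_norm_sub' (iteratedFDeriv ℝ i G' y) (iteratedFDeriv ℝ i (G p) y)]
  refine ⟨_, a0 + 1, _, ρ / 4, j0, z, hC, by positivity, le_rfl, fun j hj p hp' => ?_⟩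
  obtain ⟨G, b1, b2⟩ := key j hj p (ball_subset_ball (le_add_of_nonneg_right (by positivity)) hp')
  have x1 := exp_pos (-1 * (j : ℝ))
  exact ⟨G, b1, fun y hy => ⟨by linarith [(b2 y hy).1], fun i hi => by linarith [(b2 y hy).2 i hi]⟩⟩

end Box

end Crest.Agent.N221.G0.L
end

-- ▼ part N221/G0/LAll
section

/-! Row 221, block G0/L: the ladder theorem `ls : LS`. -/

set_option autoImplicit false
set_option linter.unusedSectionVars false

open Set Metric Filter Topology Real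
open scoped ContDiff Nat

namespace Crest.Agent.N221.G0.L

lemma mm_ge {a : ℕ} {θ χ : ℝ} (hθ : 0 < θ) (hχ : 0 < χ) (T : ℝ) (K0 : ℕ) :
    ∃ K, K0 ≤ K ∧ T ≤ mm a θ χ (θ * χ / (8 * (a + θ))) K := by
  obtain ⟨K1, hK1⟩ := exists_nat_ge ((T + a * (1 + χ / 2)) / (θ * χ / 4))
  refine ⟨max K0 K1, le_max_left _ _, ?_⟩
  have h1 : (K1 : ℝ) ≤ (max K0 K1 : ℕ) := by exact_mod_cast le_max_right _ _
  have h2 : (0 : ℝ) ≤ (max K0 K1 : ℕ) := Nat.cast_nonneg _
  rw [div_le_iff₀ (by positivity)] at hK1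
  have h3 : (a + θ) * (θ * χ / (8 * (a + θ))) = θ * χ / 8 := by field_simp
  have h4 : 0 < θ * χ := by positivity
  unfold mm al be
  generalize ((max K0 K1 : ℕ) : ℝ) = K at *
  generalize θ * χ / (8 * (a + θ)) = e at *
  have h5 : (a + θ) * e * (K + 2) = θ * χ / 8 * (K + 2) := by rw [h3]
  nlinarith [mul_le_mul_of_nonneg_left h1 h4.le, mul_nonneg h4.le h2]

set_option maxHeartbeats 800000 in
theorem ls : LS := by
  intro N a θ χ hθ hχ
  have a0 : (0 : ℝ) ≤ a := a.cast_nonneg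
  set ε' := θ * χ / (8 * (a + θ)) with hε'd
  have hε : 0 < ε' := by positivity
  have hε' : 4 * ε' ≤ χ := by
    rw [hε'd, ← mul_div_assoc, div_le_iff₀ (by positivity)]
    nlinarith [mul_pos hθ hχ, mul_nonneg a0 hχ.le]
  refine ⟨ε', hε, fun k Λ c hc => ?_⟩
  have k0 : (0 : ℝ) ≤ k := k.cast_nonneg
  have Λ0 := abs_nonneg Λ
  obtain ⟨K0, -, hK0⟩ := mm_ge (a := a) hθ hχ ((k + 2) * (|Λ| + χ + 2)) 0
  have m0 : 0 < mm a θ χ ε' K0 := lt_of_lt_of_le (by positivity) hK0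
  have cc : ∀ K, ∃ c' : ℝ, 0 < c' ∧ c' < c K ∧ c' < χ / 2 := fun K => by
    have := hc K
    refine ⟨min (c K) (χ / 2) / 2, by positivity, ?_, ?_⟩
    · linarith [min_le_left (c K) (χ / 2)]
    · linarith [min_le_right (c K) (χ / 2)]
  obtain ⟨c', c0, c1, c2⟩ := cc K0
  obtain ⟨η, η0, η1, η2, η3⟩ : ∃ η : ℝ, 0 < η ∧ η ≤ ε' ∧ η < c' ∧ η * (k + 1) < 1 / 2 := by
    refine ⟨min ε' (min (c' / 2) (1 / (4 * (k + 1)))), by positivity, min_le_left _ _, ?_, ?_⟩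
    · linarith [(min_le_right ε' _).trans (min_le_left (c' / 2) (1 / (4 * (k + 1))))]
    · have := (min_le_right ε' _).trans (min_le_right (c' / 2) (1 / (4 * ((k : ℝ) + 1))))
      rw [le_div_iff₀ (by positivity)] at this
      linarith
  obtain ⟨n1, hn1⟩ := exists_nat_ge (al χ ε' K0 / η)
  refine ⟨max n1 (K0 + 1), fun Q P A A' X Y _ _ _ _ _ _ _ _ _ _ β h hU hF hS => ?_⟩
  have hR : 0 < β.R := by
    obtain ⟨C, hC⟩ := hS
    obtain ⟨ρ, z, g, ρ0, -, hs, -⟩ := hC 1 one_pos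
    linarith [h.sub z (hs (mem_ball_self ρ0)), norm_nonneg z.1]
  obtain ⟨C, A0, A1, r, j0, z, hC, hr, hA1, h1⟩ := h.first hR hU hχ hε hε' c1 c2 hK0 (hF K0) η0 η1
    η2 η3 (by
      have : (n1 : ℝ) ≤ (max n1 (K0 + 1) : ℕ) := by exact_mod_cast le_max_left _ _
      rw [div_le_iff₀ η0] at hn1
      nlinarith) (le_max_right _ _) hS
  choose! G hG using h1
  obtain ⟨C3, -, hl⟩ := h.lim hU hχ hε hε' m0 hC
  have h2 := fun p (hp : p ∈ ball z r) => hl j0 p (fun j => G j p) fun j hj => (hG j hj p hp).1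
  choose! w hw _ using h2
  have sO : ball z r ⊆ β.Om := fun p hp =>
    (hG j0 le_rfl p hp).1.ar.sub (mem_ball_self (hG j0 le_rfl p hp).1.ar.pos)
  have tρ : Tendsto (rho χ) atTop (𝓝 0) :=
    tendsto_exp_atBot.comp (tendsto_natCast_atTop_atTop.const_mul_atTop_of_neg (by linarith))
  refine ⟨ball z (r / 4), w, isOpen_ball, nonempty_ball.2 (by positivity),
    (ball_subset_ball (by linarith)).trans sO, fun x hx =>
      (N221.X.contDiffOn_of_apx (Ω := ball z (r / 4)) (fun s x0 hx0 => ?_) x hx).contDiffWithinAt,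
    fun p hp => ?_⟩
  · obtain ⟨K, hK, hmK⟩ := mm_ge (a := a) hθ hχ (s * (χ / 2) + 1) K0
    have s0 : (0 : ℝ) ≤ s := s.cast_nonneg
    have m1 : 0 < mm a θ χ ε' K := lt_of_lt_of_le (by positivity) hmK
    obtain ⟨d, d0, d1, d2⟩ := cc K
    obtain ⟨C', hC', hst⟩ := h.step hR hχ hε hε' d1 d2 hK hK0 (hF K) A0
    obtain ⟨C4, hC4, hl'⟩ := h.lim hU hχ hε hε' m1 hC'
    obtain ⟨C5, hC5, hc5⟩ := h.cmpL hU hχ hε hε' K hC'
    obtain ⟨J, hJ⟩ := eventually_atTop.1 ((hst C hC).and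
      ((ev 1 (half_pos hr) (show -d < 0 by linarith)).and (eventually_ge_atTop j0)))
    have h3 : ∀ j, J + 1 ≤ j → ∀ p ∈ ball z (r / 2), ∃ G', β.Lv N χ ε' K C' j p G' ∧
        ‖G' p - G (j - 1) p p‖ ≤ C' * (1 + A1) * rho χ (j - 1) := by
      intro j hj p hp
      obtain ⟨i, rfl⟩ : ∃ i, j = i + 1 := ⟨j - 1, by omega⟩
      obtain ⟨e1, e2, e3⟩ := hJ i (by omega)
      have e4 : (j0 : ℝ) ≤ i := by exact_mod_cast e3
      simp only [zero_mul, exp_zero, mul_one, one_mul] at e2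
      exact e1 p (G i) A1 (hA1.trans (exp_le_exp.2 (by linarith))) fun p' hp' =>
        hG i e3 p' (ball_subset_ball' (by rw [mem_ball] at hp; linarith) hp')
    choose! G' hG' using h3
    have h4 : ∀ p ∈ ball z (r / 2), ∀ j, J + 1 ≤ j →
        ‖G' j p p - w p‖ ≤ C4 * exp (-mm a θ χ ε' K * j) := by
      intro p hp
      obtain ⟨v, hv, hv'⟩ := hl' (J + 1) p (fun j => G' j p) fun j hj => (hG' j hj p hp).1
      have t1 := (hw p (ball_subset_ball (by linarith) hp)).comp (tendsto_sub_atTop_nat 1)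
      have t2 := (tρ.comp (tendsto_sub_atTop_nat 1)).const_mul (C' * (1 + A1))
      have := le_of_tendsto_of_tendsto (hv.sub t1).norm t2
        ((eventually_ge_atTop (J + 1)).mono fun j hj => (hG' j hj p hp).2)
      rw [mul_zero, norm_le_zero_iff, sub_eq_zero] at this
      exact this ▸ hv'
    refine ⟨K + 1, (C4 + C5) * exp (s * (χ / 2)), min (r / 8) (rho χ (J + 1)),
      lt_min (by positivity) (rho_pos _ _), fun x hx ε ε0 hε1 => ?_⟩
    obtain ⟨b1, b2⟩ := lt_min_iff.1 hε1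
    obtain ⟨j, hj, l1, l2⟩ := exists_level (half_pos hχ) ε0 b2.le
    change rho χ (j + 1) < ε at l1
    change ε ≤ rho χ j at l2
    have hx' : dist x z < r / 4 + r / 8 := by
      linarith [dist_triangle x x0 z, mem_ball.1 hx0, (mem_ball.1 hx).trans_le (min_le_left _ _)]
    have hxz : x ∈ ball z (r / 2) := by rw [mem_ball]; linarith
    have g1 := (hG' j hj x hxz).1
    refine ⟨G' j x, g1.poly.sm.contDiffOn.of_le (li _), fun y hy => ⟨?_, by
      rw [g1.poly.zero, norm_zero, zero_mul]; positivity⟩⟩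
    have hyz : y ∈ ball z (r / 2) := by
      rw [mem_ball] at hy ⊢; linarith [dist_triangle y x z]
    have r0 := rho_pos χ j
    have a1 := hc5 j j j y x y _ _ (3 * rho χ j) le_rfl (Nat.le_succ j) le_rfl (Nat.le_succ j)
      (hG' j hj y hyz).1 g1 (by linarith) (by linarith [g1.ar.le]) (ball_subset_ball (by linarith))
      (ball_subset_ball' (by rw [mem_ball] at hy; linarith)) y (mem_ball_self (by positivity))
    have a2 := h4 y hyz j hj
    have a3 : exp (-mm a θ χ ε' K * j) ≤ exp (s * (χ / 2)) * ε ^ s := by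
      have j0' : (0 : ℝ) ≤ j := j.cast_nonneg
      have r1 := rho_pos χ (j + 1)
      calc _ ≤ exp (s * (χ / 2)) * rho χ (j + 1) ^ s := by
            rw [rho, ← exp_nat_mul, ← exp_add]
            refine exp_le_exp.2 ?_
            push_cast; nlinarith
        _ ≤ _ := by gcongr
    have a4 := norm_sub_le_norm_sub_add_norm_sub (w y) (G' j y y) (G' j x y)
    rw [norm_sub_rev (w y) (G' j y y)] at a4
    rw [mul_assoc]
    linarith [mul_le_mul_of_nonneg_left a3 (add_nonneg hC4 hC5)]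
  · have hp' : p ∈ ball z r := ball_subset_ball (by linarith) hp
    have t1 : Tendsto (fun j => ‖β.df p (G j p p)‖) atTop (𝓝 ‖β.df p (w p)‖) :=
      ((((β.D p).continuous.tendsto _).comp (hw p hp')).sub_const _).norm
    have al0 : 0 < al χ ε' K0 := by
      have : 0 ≤ a * (be ε' K0 + 1 + χ / 2) := by unfold be; positivity
      exact pos_of_mul_pos_left (by unfold mm at m0; linarith) hθ.le
    have t2 : Tendsto (fun j : ℕ => C * exp (-al χ ε' K0 * j)) atTop (𝓝 (C * 0)) :=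
      (tendsto_exp_atBot.comp (tendsto_natCast_atTop_atTop.const_mul_atTop_of_neg
        (by linarith))).const_mul C
    have := le_of_tendsto_of_tendsto t1 t2 ((eventually_ge_atTop j0).mono fun j hj =>
      (hG j hj p hp').1.ar.df p (mem_ball_self (hG j hj p hp').1.ar.pos))
    rwa [mul_zero, norm_le_zero_iff, Box.df, sub_eq_zero] at this

end Crest.Agent.N221.G0.L
end

-- ▼ part N221/G0/SgP
section

/-!
Row 221, block G0/SG (helper8): polynomial tools for the Siegel lemma.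
`Ty n j κ C f x` : `‖D^k f x‖ ≤ C κ^(k-j)` for `k ≤ n`; `Pd E d` polynomials of degree `≤ d`;
`Lag E d` unisolvent nodes with their Lagrange basis; `count` the dimension count; `Lag.Ok.int`
interpolation at perturbed nodes.
-/

set_option autoImplicit false

open Set Metric Filter Topology
open scoped ContDiff

noncomputable section

namespace Crest.Agent.N221.G0.Sg

open Crest.Agent.N221.Ex Crest.Agent.N221.PS

/-- type `j` at the point `x` up to order `n` -/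
def Ty {X Y : Type} [NormedAddCommGroup X] [NormedSpace ℝ X] [NormedAddCommGroup Y]
    [NormedSpace ℝ Y] (n j : ℕ) (κ C : ℝ) (f : X → Y) (x : X) : Prop :=
  ContDiffAt ℝ ∞ f x ∧ ∀ i ≤ n, ‖iteratedFDeriv ℝ i f x‖ ≤ C * κ ^ (i - j)

section ty

variable {X Y W W' : Type} [NormedAddCommGroup X] [NormedSpace ℝ X] [NormedAddCommGroup Y]
  [NormedSpace ℝ Y] [NormedAddCommGroup W] [NormedSpace ℝ W] [NormedAddCommGroup W']
  [NormedSpace ℝ W'] {n j j' : ℕ} {κ C C' : ℝ} {f f' : X → Y} {x : X}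

theorem Ty.norm_le (h : Ty n j κ C f x) : ‖f x‖ ≤ C := by simpa using h.2 0 n.zero_le

theorem Ty.nn (h : Ty n j κ C f x) : 0 ≤ C := (norm_nonneg _).trans h.norm_le

theorem Ty.mono (h : Ty n j κ C f x) (k0 : 0 ≤ κ) (k1 : κ ≤ 1) (hj : j ≤ j') (hC : C ≤ C') :
    Ty n j' κ C' f x :=
  ⟨h.1, fun i hi => (h.2 i hi).trans (mul_le_mul hC (pow_le_pow_of_le_one k0 k1 (by omega))
    (pow_nonneg k0 _) (h.nn.trans hC))⟩

theorem Ty.congr (h : Ty n j κ C f x) (e : f' =ᶠ[𝓝 x] f) : Ty n j κ C f' x :=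
  ⟨h.1.congr_of_eventuallyEq e, fun i hi => by
    rw [(e.iteratedFDeriv ℝ i).eq_of_nhds]; exact h.2 i hi⟩

theorem Ty.const (k0 : 0 ≤ κ) {c : Y} (hc : ‖c‖ ≤ C) : Ty n j κ C (fun _ : X => c) x :=
  ⟨contDiffAt_const, fun i _ => by
    rcases eq_or_ne i 0 with rfl | hk
    · rw [norm_iteratedFDeriv_zero]; simpa using hc
    · rw [iteratedFDeriv_const_of_ne hk]
      simpa using mul_nonneg ((norm_nonneg _).trans hc) (pow_nonneg k0 _)⟩

theorem Ty.clm (h : Ty n j κ C f x) (B : Y →L[ℝ] W) : Ty n j κ (‖B‖ * C) (fun y => B (f y)) x :=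
  ⟨B.contDiff.contDiffAt.comp x h.1, fun i hi =>
    (B.norm_iteratedFDeriv_comp_left h.1 (le_infty i)).trans (by
      rw [mul_assoc]; exact mul_le_mul_of_nonneg_left (h.2 i hi) (norm_nonneg _))⟩

theorem Ty.add (h : Ty n j κ C f x) (h' : Ty n j κ C' f' x) :
    Ty n j κ (C + C') (fun y => f y + f' y) x :=
  ⟨h.1.add h'.1, fun i hi => by
    rw [fun_iteratedFDeriv_add_apply (cda h.1 i) (cda h'.1 i), add_mul]
    exact (norm_add_le _ _).trans (add_le_add (h.2 i hi) (h'.2 i hi))⟩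

theorem Ty.sub (h : Ty n j κ C f x) (h' : Ty n j κ C' f' x) :
    Ty n j κ (C + C') (fun y => f y - f' y) x :=
  ⟨h.1.sub h'.1, fun i hi => by
    rw [fun_iteratedFDeriv_sub_apply (cda h.1 i) (cda h'.1 i), add_mul]
    exact (norm_sub_le _ _).trans (add_le_add (h.2 i hi) (h'.2 i hi))⟩

theorem Ty.bilin {g : X → W} (B : Y →L[ℝ] W →L[ℝ] W') (k0 : 0 ≤ κ) (k1 : κ ≤ 1)
    (h : Ty n j κ C f x) (h' : Ty n j' κ C' g x) :
    Ty n (j + j') κ (‖B‖ * 2 ^ n * C * C') (fun y => B (f y) (g y)) x :=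
  ⟨(B.contDiff.contDiffAt.comp x h.1).clm_apply h'.1, fun k hk => by
    have := h.nn; have := h'.nn
    refine (bilin_at B k h.1 h'.1).trans ?_
    have e : ∑ l ∈ Finset.range (k + 1), (k.choose l : ℝ) ≤ 2 ^ n := by
      have : ∑ l ∈ Finset.range (k + 1), (k.choose l : ℝ) = 2 ^ k := by
        exact_mod_cast Nat.sum_range_choose k
      rw [this]; exact pow_le_pow_right₀ one_le_two hk
    calc _ ≤ ‖B‖ * ∑ l ∈ Finset.range (k + 1), (k.choose l : ℝ) * (C * C' * κ ^ (k - (j + j'))) := by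
          refine mul_le_mul_of_nonneg_left (Finset.sum_le_sum fun l hl => ?_) (by positivity)
          have hl' := Finset.mem_range.1 hl
          refine (mul_le_mul (mul_le_mul_of_nonneg_left (h.2 l (by omega)) (by positivity))
            (h'.2 _ (by omega)) (norm_nonneg _) (by positivity)).trans ?_
          have e : κ ^ (l - j) * κ ^ (k - l - j') ≤ κ ^ (k - (j + j')) := by
            rw [← pow_add]; exact pow_le_pow_of_le_one k0 k1 (by omega)
          calc _ = (k.choose l : ℝ) * (C * C' * (κ ^ (l - j) * κ ^ (k - l - j'))) := by ring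
            _ ≤ _ := by gcongr
      _ = ‖B‖ * ((∑ l ∈ Finset.range (k + 1), (k.choose l : ℝ)) * (C * C' * κ ^ (k - (j + j')))) := by
          rw [Finset.sum_mul]
      _ ≤ ‖B‖ * (2 ^ n * (C * C' * κ ^ (k - (j + j')))) := by gcongr
      _ = _ := by ring⟩

theorem Ty.smul {g : X → ℝ} (k0 : 0 ≤ κ) (k1 : κ ≤ 1) (h : Ty n j κ C g x)
    (h' : Ty n j' κ C' f x) : Ty n (j + j') κ (2 ^ n * C * C') (fun y => g y • f y) x := by
  have := h.nn; have := h'.nn
  refine (Ty.bilin (ContinuousLinearMap.lsmul ℝ ℝ) k0 k1 h h').mono k0 k1 le_rfl ?_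
  have : ‖(ContinuousLinearMap.lsmul ℝ ℝ : ℝ →L[ℝ] Y →L[ℝ] Y)‖ ≤ 1 :=
    ContinuousLinearMap.opNorm_lsmul_le
  gcongr
  exact mul_le_of_le_one_left (by positivity) this


theorem Ty.sum {α : Type} (s : Finset α) {g : α → X → Y} {c : α → ℝ} (k0 : 0 ≤ κ)
    (h : ∀ a ∈ s, Ty n j κ (c a) (g a) x) :
    Ty n j κ (∑ a ∈ s, c a) (fun y => ∑ a ∈ s, g a y) x := by
  classical
  induction s using Finset.induction with
  | empty => simpa using Ty.const (c := (0 : Y)) k0 (by simp)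
  | insert a s ha ih =>
    simpa [Finset.sum_insert ha] using (h a (by simp)).add (ih fun b hb => h b (by simp [hb]))

theorem Ty.prod {α : Type} (s : Finset α) {g : α → X → ℝ} {e : α → ℕ} {c : α → ℝ} (k0 : 0 ≤ κ)
    (k1 : κ ≤ 1) (h : ∀ a ∈ s, Ty n (e a) κ (c a) (g a) x) :
    Ty n (∑ a ∈ s, e a) κ (∏ a ∈ s, (2 ^ n * c a)) (fun y => ∏ a ∈ s, g a y) x := by
  classical
  induction s using Finset.induction with
  | empty => simpa using Ty.const (c := (1 : ℝ)) k0 (by simp)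
  | insert a s ha ih =>
    simpa [Finset.sum_insert ha, Finset.prod_insert ha] using
      (h a (by simp)).smul k0 k1 (ih fun b hb => h b (by simp [hb]))

/-- derivatives of a rescaled map -/
theorem scale_le (q : X) {ρ : ℝ} (r0 : 0 ≤ ρ) (hf : ContDiffAt ℝ ∞ f (q + ρ • x)) (k : ℕ) :
    ‖iteratedFDeriv ℝ k (fun y => f (q + ρ • y)) x‖ ≤
      ‖iteratedFDeriv ℝ k f (q + ρ • x)‖ * ρ ^ k := by
  set L : X →L[ℝ] X := ρ • ContinuousLinearMap.id ℝ X
  have hL : ‖L‖ ≤ ρ := (norm_smul_le ρ (ContinuousLinearMap.id ℝ X)).trans (by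
    rw [Real.norm_of_nonneg r0]
    exact mul_le_of_le_one_right r0 ContinuousLinearMap.norm_id_le)
  obtain ⟨V, h1, hV, h3⟩ := _root_.eventually_nhds_iff.1 ((cda hf k).eventually (by simp))
  have hs : IsOpen ((fun z => q + z) ⁻¹' V) := hV.preimage (by fun_prop)
  have hg : ContDiffOn ℝ k (fun z => f (q + z)) ((fun z => q + z) ⁻¹' V) :=
    ContDiffOn.comp (fun y hy => (h1 y hy).contDiffWithinAt) (by fun_prop) fun _ h => h
  have hp : IsOpen (L ⁻¹' ((fun z => q + z) ⁻¹' V)) := hs.preimage L.continuous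
  have hx' : L x ∈ (fun z => q + z) ⁻¹' V := h3
  have e := L.iteratedFDerivWithin_comp_right hg hs.uniqueDiffOn hp.uniqueDiffOn hx' le_rfl
  rw [iteratedFDerivWithin_of_isOpen _ hp hx', iteratedFDerivWithin_of_isOpen _ hs hx',
    iteratedFDeriv_comp_add_left] at e
  have e' : (fun x => f (q + ρ • x)) = (fun z => f (q + z)) ∘ L := rfl
  rw [e', e]
  refine (ContinuousMultilinearMap.norm_compContinuousLinearMap_le _ _).trans ?_
  rw [Finset.prod_const, Finset.card_univ, Fintype.card_fin]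
  exact mul_le_mul_of_nonneg_left (pow_le_pow_left₀ (norm_nonneg _) hL k) (norm_nonneg _)

/-- a rescaled map with bounded jets has type `0` -/
theorem Ty.scale (q : X) {ρ : ℝ} (r0 : 0 ≤ ρ) (r1 : ρ ≤ κ) (hf : ContDiffAt ℝ ∞ f (q + ρ • x))
    (hb : ∀ i ≤ n, ‖iteratedFDeriv ℝ i f (q + ρ • x)‖ ≤ C) :
    Ty n 0 κ C (fun y => f (q + ρ • y)) x :=
  ⟨ContDiffAt.comp (f := fun y => q + ρ • y) x hf (by fun_prop), fun i hi =>
    (scale_le q r0 hf i).trans (mul_le_mul (hb i hi) (pow_le_pow_left₀ r0 r1 i) (by positivity)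
      ((norm_nonneg _).trans (hb i hi)))⟩

/-- a rescaled map with small value and small slope, divided by the scale, has type `0` -/
theorem Ty.scale_div (q : X) {ρ : ℝ} (r0 : 0 < ρ) (k0 : 0 ≤ κ) (k1 : κ ≤ 1) (r1 : ρ ≤ κ ^ 2)
    (hf : ContDiffAt ℝ ∞ f (q + ρ • x)) (h0 : ‖f (q + ρ • x)‖ ≤ C * ρ)
    (h1 : ‖fderiv ℝ f (q + ρ • x)‖ ≤ C * κ)
    (hb : ∀ i, 2 ≤ i → i ≤ n → ‖iteratedFDeriv ℝ i f (q + ρ • x)‖ ≤ C) :
    Ty n 0 κ C (fun y => ρ⁻¹ • f (q + ρ • y)) x := by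
  have hc : ContDiffAt ℝ ∞ (fun y => f (q + ρ • y)) x :=
    ContDiffAt.comp (f := fun y => q + ρ • y) x hf (by fun_prop)
  have C0 : 0 ≤ C := nonneg_of_mul_nonneg_left ((norm_nonneg _).trans h0) r0
  refine ⟨hc.const_smul _, fun i hi => ?_⟩
  rw [iteratedFDeriv_const_smul_apply' (cda hc i), norm_smul, Real.norm_of_nonneg (by positivity),
    inv_mul_le_iff₀ r0]
  refine (scale_le q r0.le hf i).trans ?_
  rcases i with _ | _ | i
  · rw [norm_iteratedFDeriv_zero]; simpa [mul_comm] using h0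
  · rw [zero_add, norm_iteratedFDeriv_one, Nat.sub_zero, pow_one, pow_one, mul_comm]
    exact mul_le_mul_of_nonneg_left h1 r0.le
  · have e : ρ ^ (i + 1) ≤ κ ^ (i + 1 + 1) := (pow_le_pow_left₀ r0.le r1 _).trans (by
      rw [← pow_mul]; exact pow_le_pow_of_le_one k0 k1 (by omega))
    calc _ ≤ C * (ρ ^ (i + 1) * ρ) := by
          rw [← pow_succ]; exact mul_le_mul_of_nonneg_right (hb _ (by omega) hi) (by positivity)
      _ ≤ C * (κ ^ (i + 1 + 1) * ρ) := by gcongr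
      _ = _ := by rw [Nat.sub_zero]; ring

theorem Ty.id (k0 : 0 ≤ κ) (hx : ‖x‖ ≤ C) (h1 : 1 ≤ C) : Ty n 1 κ C (fun y : X => y) x :=
  ⟨contDiffAt_id, fun k _ => by
    rcases k with _ | k
    · rw [norm_iteratedFDeriv_zero]; simpa using hx
    rw [← norm_iteratedFDeriv_fderiv, show fderiv ℝ (fun x : X => x) =
      fun _ => ContinuousLinearMap.id ℝ X from funext fun _ => fderiv_fun_id]
    rcases eq_or_ne k 0 with rfl | hk
    · rw [norm_iteratedFDeriv_zero]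
      simpa using ContinuousLinearMap.norm_id_le.trans h1
    · rw [iteratedFDeriv_const_of_ne hk]
      simp only [Pi.zero_apply, norm_zero]; positivity⟩

end ty

section pol

variable (E : Type) [NormedAddCommGroup E] [NormedSpace ℝ E] [FiniteDimensional ℝ E]

/-- coordinates -/
def cf (l : Fin (Module.finrank ℝ E)) : E →L[ℝ] ℝ :=
  LinearMap.toContinuousLinearMap ((Module.finBasis ℝ E).coord l)

/-- monomials -/
def mon (a : Fin (Module.finrank ℝ E) → ℕ) (x : E) : ℝ := ∏ l, cf E l x ^ a l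

/-- polynomials of degree `≤ d` -/
def Pd (d : ℕ) : Submodule ℝ (E → ℝ) := Submodule.span ℝ (mon E '' {a | ∑ l, a l ≤ d})

lemma Pd_le (d : ℕ) : Pd E d ≤ Submodule.span ℝ
    (range fun a : Fin (Module.finrank ℝ E) → Fin (d + 1) => mon E fun l => a l) :=
  Submodule.span_mono (by
    rintro _ ⟨a, ha, rfl⟩
    exact ⟨fun l => ⟨a l, Nat.lt_succ_of_le
      ((Finset.single_le_sum (fun _ _ => Nat.zero_le _) (Finset.mem_univ l)).trans ha)⟩, rfl⟩)

instance (d : ℕ) : FiniteDimensional ℝ (Pd E d) :=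
  have := FiniteDimensional.span_of_finite ℝ (finite_range
    fun a : Fin (Module.finrank ℝ E) → Fin (d + 1) => mon E fun l => a l)
  Submodule.finiteDimensional_of_le (Pd_le E d)

lemma finrank_Pd (d : ℕ) : Module.finrank ℝ (Pd E d) ≤ (d + 1) ^ Module.finrank ℝ E := by
  have := FiniteDimensional.span_of_finite ℝ (finite_range
    fun a : Fin (Module.finrank ℝ E) → Fin (d + 1) => mon E fun l => a l)
  refine (Submodule.finrank_mono (Pd_le E d)).trans ((finrank_range_le_card _).trans_eq ?_)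
  simp

variable {E}

/-- a polynomial of degree `d` of a map of type `j` has type `d j` -/
theorem Ty.pol {d : ℕ} {p : E → ℝ} (hp : p ∈ Pd E d) (n : ℕ) (C : ℝ) : ∃ C' : ℝ, 0 ≤ C' ∧
    ∀ (X : Type) [NormedAddCommGroup X] [NormedSpace ℝ X] (j : ℕ) (κ : ℝ) (f : X → E) (x : X),
      0 ≤ κ → κ ≤ 1 → Ty n j κ C f x → Ty n (d * j) κ C' (fun y => p (f y)) x := by
  induction hp using Submodule.span_induction with
  | mem p hp =>
    obtain ⟨a, ha, rfl⟩ := hp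
    refine ⟨|∏ l, (2 ^ n * ∏ _b ∈ Finset.range (a l), (2 ^ n * (‖cf E l‖ * C)))|, abs_nonneg _,
      fun X _ _ j κ f x k0 k1 h => ?_⟩
    have h1 : ∀ l, Ty n (a l * j) κ (∏ _b ∈ Finset.range (a l), (2 ^ n * (‖cf E l‖ * C)))
        (fun y => cf E l (f y) ^ a l) x := fun l => by
      have := Ty.prod (Finset.range (a l)) (e := fun _ => j) k0 k1 fun _ _ => h.clm (cf E l)
      simpa only [Finset.sum_const, Finset.card_range, smul_eq_mul, Finset.prod_const] using this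
    refine (Ty.prod Finset.univ k0 k1 fun l _ => h1 l).mono k0 k1 ?_ (le_abs_self _)
    rw [← Finset.sum_mul]
    exact Nat.mul_le_mul_right _ ha
  | zero => exact ⟨0, le_rfl, fun X _ _ j κ f x k0 _ _ => Ty.const (c := (0 : ℝ)) k0 (by simp)⟩
  | add p q _ _ hp hq =>
    obtain ⟨c, c0, hp⟩ := hp
    obtain ⟨c', c0', hq⟩ := hq
    exact ⟨c + c', by positivity, fun X _ _ j κ f x k0 k1 h =>
      (hp X j κ f x k0 k1 h).add (hq X j κ f x k0 k1 h)⟩
  | smul c p _ hp =>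
    obtain ⟨c', c0', hp⟩ := hp
    exact ⟨_, mul_nonneg (norm_nonneg _) c0', fun X _ _ j κ f x k0 k1 h =>
      (hp X j κ f x k0 k1 h).clm (c • ContinuousLinearMap.id ℝ ℝ)⟩

lemma Pd.ty {d : ℕ} {p : E → ℝ} (hp : p ∈ Pd E d) (n : ℕ) (x : E) : ∃ C, Ty n d 0 C p x := by
  obtain ⟨C, -, h⟩ := Ty.pol hp n (‖x‖ + 1)
  have := h E 1 0 _ x le_rfl zero_le_one (Ty.id le_rfl (by simp) (by simp))
  exact ⟨C, by simpa using this⟩

lemma Pd.smooth {d : ℕ} {p : E → ℝ} (hp : p ∈ Pd E d) : ContDiff ℝ ∞ p :=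
  contDiff_iff_contDiffAt.2 fun x => (Pd.ty hp 0 x).choose_spec.1

lemma Pd.der {d k : ℕ} {p : E → ℝ} (hp : p ∈ Pd E d) (hk : d < k) (x : E) :
    iteratedFDeriv ℝ k p x = 0 := by
  have := (Pd.ty hp k x).choose_spec.2 k le_rfl
  rw [zero_pow (by omega)] at this
  simpa using this

lemma Pd.eq_zero {d : ℕ} {p : E → ℝ} (hp : p ∈ Pd E d) (h : ∀ x ∈ ball (0 : E) 1, p x = 0) :
    p = 0 := by
  funext x
  obtain ⟨t1, t2, -⟩ := tay_ E ℝ d
  have e : ∀ y : E, p y = tay d p y := fun y => by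
    have := t1 p (‖y‖ + 1) 0 (Pd.smooth hp).contDiffOn
      (fun z _ => by rw [Pd.der hp d.lt_succ_self]; simp) y (by simp)
    simpa [sub_eq_zero] using this
  have := t2 p (1 / 2) (‖x‖ + 1) 0 (by norm_num) (by linarith [norm_nonneg x])
    (fun y hy => by rw [← e, h y (by rw [mem_ball_zero_iff]; linarith)]; simp) x (by linarith)
  rw [← e] at this
  simpa using this

lemma prod_mem {d i : ℕ} (hi : i ≤ d) (σ : Fin i → Fin (Module.finrank ℝ E)) :
    (fun x => ∏ k, cf E (σ k) x) ∈ Pd E d := by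
  classical
  refine Submodule.subset_span ⟨fun l => (Finset.univ.filter fun k => σ k = l).card, ?_, ?_⟩
  · have := Finset.card_eq_sum_card_fiberwise (f := σ) (s := Finset.univ) (t := Finset.univ)
      fun _ _ => Finset.mem_univ _
    change ∑ l, (Finset.univ.filter fun k => σ k = l).card ≤ d
    rw [← this]; simpa using hi
  · funext x
    rw [mon, ← Finset.prod_fiberwise Finset.univ σ fun k => cf E (σ k) x]
    refine Finset.prod_congr rfl fun l _ => ?_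
    rw [Finset.prod_congr rfl fun k hk => by rw [(Finset.mem_filter.1 hk).2], Finset.prod_const]

lemma tay_eq {V : Type} [NormedAddCommGroup V] [NormedSpace ℝ V] (d : ℕ) (f : E → V) (x : E) :
    tay d f x = ∑ i ∈ Finset.range (d + 1), ∑ σ : Fin i → Fin (Module.finrank ℝ E),
      (∏ k, cf E (σ k) x) • ((i.factorial : ℝ)⁻¹ •
        iteratedFDeriv ℝ i f 0 fun k => Module.finBasis ℝ E (σ k)) := by
  classical
  refine Finset.sum_congr rfl fun i _ => ?_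
  have e : (fun _ : Fin i => x) = fun _ => ∑ l, cf E l x • Module.finBasis ℝ E l :=
    funext fun _ => ((Module.finBasis ℝ E).sum_repr x).symm
  rw [e, ContinuousMultilinearMap.map_sum, Finset.smul_sum]
  refine Finset.sum_congr rfl fun σ _ => ?_
  rw [ContinuousMultilinearMap.map_smul_univ, smul_comm]

/-- nodes and Lagrange basis -/
structure Lag (E : Type) where
  n : ℕ
  ν : Fin n → E
  e : Fin n → E → ℝ

/-- `ν` is unisolvent for degree `d`, `e` the Lagrange basis -/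
structure Lag.Ok (L : Lag E) (d : ℕ) : Prop where
  card : L.n = Module.finrank ℝ (Pd E d)
  lt : ∀ a, ‖L.ν a‖ < 1
  mem : ∀ a, L.e a ∈ Pd E d
  dual : ∀ a b, L.e a (L.ν b) = if a = b then 1 else 0
  rep : ∀ p ∈ Pd E d, ∀ x, p x = ∑ a, L.e a x * p (L.ν a)

theorem exists_lag (d : ℕ) : ∃ L : Lag E, L.Ok d := by
  classical
  let ev : E → Module.Dual ℝ (Pd E d) := fun x => (LinearMap.proj x).comp (Pd E d).subtype
  have hs : Submodule.span ℝ (ev '' ball 0 1) = ⊤ := Submodule.span_eq_top_of_ne_zero fun p hp => by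
    by_contra hn
    push Not at hn
    exact hp (Subtype.ext (Pd.eq_zero p.2 fun x hx => hn _ ⟨x, hx, rfl⟩))
  obtain ⟨t, ht, h1, h2⟩ := exists_linearIndependent ℝ (ev '' ball 0 1)
  have : Fintype t := h2.setFinite.fintype
  let B0 : Module.Basis t ℝ (Module.Dual ℝ (Pd E d)) := Module.Basis.mk h2 (by simp [h1, hs])
  let B := B0.reindex (Fintype.equivFin t)
  have hB : ∀ a, B a ∈ ev '' ball 0 1 := fun a => by
    simp only [B, B0, Module.Basis.reindex_apply, Module.Basis.mk_apply]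
    exact ht (Subtype.prop _)
  choose ν hν hν' using hB
  let e := B.dualBasis.map (Module.evalEquiv ℝ (Pd E d)).symm
  have he : ∀ a b, (e a : E → ℝ) (ν b) = if a = b then 1 else 0 := fun a b => by
    have : (e a : E → ℝ) (ν b) = B b (e a) := by rw [← hν']; rfl
    rw [this]
    simp only [e, Module.Basis.map_apply, Module.apply_evalEquiv_symm_apply,
      Module.Basis.dualBasis_apply_self]
    simp [eq_comm]
  refine ⟨⟨_, ν, fun a => e a⟩, ?_, fun a => mem_ball_zero_iff.1 (hν a), fun a => (e a).2, he,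
    fun p hp x => ?_⟩
  · simpa using (Module.finrank_eq_card_basis e).symm
  · have h := e.sum_repr ⟨p, hp⟩
    have hv : ∀ y, p y = ∑ a, e.repr ⟨p, hp⟩ a * (e a : E → ℝ) y := fun y => by
      have := congrArg (fun u : Pd E d => (u : E → ℝ) y) h
      simp only [Submodule.coe_sum, Submodule.coe_smul, Finset.sum_apply, Pi.smul_apply,
        smul_eq_mul] at this
      exact this.symm
    rw [hv x]
    refine Finset.sum_congr rfl fun a _ => ?_
    rw [hv (ν a)]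
    simp [he, mul_comm]

theorem Lag.Ok.pos {L : Lag E} {d : ℕ} (h : L.Ok d) : 1 ≤ L.n := by
  by_contra hn
  have h0 : L.n = 0 := by omega
  have := h.rep _ (prod_mem (E := E) (Nat.zero_le d) Fin.elim0) 0
  have : IsEmpty (Fin L.n) := by rw [h0]; infer_instance
  simp_all

theorem Lag.Ok.le {L : Lag E} {d : ℕ} (h : L.Ok d) : L.n ≤ (d + 1) ^ Module.finrank ℝ E :=
  h.card ▸ finrank_Pd E d

theorem Lag.Ok.tay {L : Lag E} {d : ℕ} (h : L.Ok d) {V : Type} [NormedAddCommGroup V]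
    [NormedSpace ℝ V] (f : E → V) (x : E) : tay d f x = ∑ a, L.e a x • tay d f (L.ν a) := by
  simp only [tay_eq, Finset.smul_sum]
  rw [Finset.sum_comm]
  refine Finset.sum_congr rfl fun i hi => ?_
  rw [Finset.sum_comm]
  refine Finset.sum_congr rfl fun σ _ => ?_
  have := h.rep _ (prod_mem (Nat.lt_succ_iff.1 (Finset.mem_range.1 hi)) σ) x
  rw [this, Finset.sum_smul]
  exact Finset.sum_congr rfl fun a _ => mul_smul _ _ _

/-- one constant for the whole Lagrange basis -/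
theorem Lag.Ok.ty {L : Lag E} {d : ℕ} (h : L.Ok d) (n : ℕ) (C : ℝ) : ∃ C' : ℝ, 0 ≤ C' ∧
    ∀ (X : Type) [NormedAddCommGroup X] [NormedSpace ℝ X] (j : ℕ) (κ : ℝ) (f : X → E) (x : X),
      0 ≤ κ → κ ≤ 1 → Ty n j κ C f x → ∀ a, Ty n (d * j) κ C' (fun y => L.e a (f y)) x := by
  choose c c0 hc using fun a => Ty.pol (h.mem a) n C
  exact ⟨∑ a, c a, Finset.sum_nonneg fun a _ => c0 a, fun X _ _ j κ f x k0 k1 hf a =>
    (hc a X j κ f x k0 k1 hf).mono k0 k1 le_rfl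
      (Finset.single_le_sum (fun a _ => c0 a) (Finset.mem_univ a))⟩

/-- the dimension count -/
theorem count {n : ℕ → ℕ} {m : ℕ} (h1 : ∀ d, 1 ≤ n d) (h2 : ∀ d, n d ≤ (d + 1) ^ m) (k D : ℕ) :
    ∃ d, D * n (d + k) ^ 2 < D * n d ^ 2 + n (d + k) ^ 2 := by
  by_contra hn'
  push Not at hn'
  obtain ⟨D, rfl⟩ : ∃ D', D = D' + 1 := ⟨D - 1, by
    rcases D with _ | D
    · have := hn' 0
      have := h1 (0 + k)
      simp at *
      omega
    · omega⟩
  have hn : ∀ d, (D + 1) * n d ^ 2 ≤ D * n (d + k) ^ 2 := fun d => by have := hn' d; nlinarith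
  clear hn'
  rcases Nat.eq_zero_or_pos D with rfl | hD0
  · have := hn 0
    have := h1 0
    simp at *
    omega
  have hD' : (0 : ℝ) < D := by exact_mod_cast hD0
  set q : ℝ := (D + 1) / D
  have hq : 1 < q := by rw [one_lt_div hD']; linarith
  have ind : ∀ l : ℕ, q ^ l ≤ (n (l * k) : ℝ) ^ 2 := fun l => by
    induction l with
    | zero => simpa using h1 0
    | succ l ih =>
      have : ((D : ℝ) + 1) * (n (l * k) : ℝ) ^ 2 ≤ D * (n (l * k + k) : ℝ) ^ 2 := by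
        exact_mod_cast hn (l * k)
      rw [pow_succ, Nat.succ_mul]
      refine (mul_le_mul_of_nonneg_right ih (by positivity)).trans ?_
      rw [mul_div_assoc', div_le_iff₀ hD']
      linarith
  have t := (tendsto_pow_const_div_const_pow_of_one_lt (m * 2) hq).const_mul (((k : ℝ) + 1) ^ (m * 2))
  rw [mul_zero] at t
  obtain ⟨l, hl, hl1⟩ := ((t.eventually (gt_mem_nhds one_pos)).and (eventually_ge_atTop 1)).exists
  rw [mul_div_assoc', div_lt_one (by positivity), ← mul_pow] at hl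
  have h3 : (n (l * k) : ℝ) ≤ ((l : ℝ) * k + 1) ^ m := by exact_mod_cast h2 (l * k)
  have h4 : (l : ℝ) * k + 1 ≤ (k + 1) * l := by
    have : (1 : ℝ) ≤ l := by exact_mod_cast hl1
    nlinarith
  have := (ind l).trans (pow_le_pow_left₀ (by positivity) (h3.trans
    (pow_le_pow_left₀ (by positivity) h4 m)) 2)
  rw [← pow_mul] at this
  linarith

/-- interpolation at perturbed nodes -/
theorem Lag.Ok.int {L : Lag E} {d : ℕ} (h : L.Ok d) {R : ℝ} (hR : 2 ≤ R) :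
    ∃ C η : ℝ, 0 < C ∧ 0 < η ∧ η ≤ 1 ∧ ∀ (V : Type) [NormedAddCommGroup V] [NormedSpace ℝ V]
      [CompleteSpace V] (f : E → V) (ν' : Fin L.n → E) (δ ε : ℝ), ContDiffOn ℝ ∞ f (ball 0 R) →
      (∀ x ∈ ball (0 : E) R, ‖iteratedFDeriv ℝ (d + 1) f x‖ ≤ ε) → (∀ a, ‖ν' a - L.ν a‖ ≤ η) →
      (∀ a, ‖f (ν' a)‖ ≤ δ) → ∀ x ∈ ball (0 : E) R, ‖f x‖ ≤ C * (δ + ε) := by
  have : ProperSpace E := FiniteDimensional.proper ℝ E
  have hs : ContDiff ℝ ∞ fun x a => L.e a x := contDiff_pi.2 fun a => Pd.smooth (h.mem a)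
  obtain ⟨K, hK⟩ := hs.contDiffOn.exists_lipschitzOnWith (by simp) (convex_closedBall (0 : E) R)
    (isCompact_closedBall 0 R)
  obtain ⟨B, hB⟩ := (isCompact_closedBall (0 : E) R).exists_bound_of_continuousOn
    hs.continuous.continuousOn
  have hB0 : 0 ≤ B := (norm_nonneg _).trans (hB 0 (by simp; linarith))
  have hn : (0 : ℝ) ≤ L.n := by positivity
  have hK0 : (0 : ℝ) ≤ K := K.2
  refine ⟨(2 * B * L.n + 1) * R ^ (d + 1), 1 / (2 * L.n * K + 1), by positivity, by positivity,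
    by rw [div_le_one (by positivity)]; nlinarith [mul_nonneg hn hK0], ?_⟩
  intro V _ _ _ f ν' δ ε hf hε hν hδ x hx
  have η1 : 1 / (2 * L.n * K + 1) ≤ (1 : ℝ) := by
    rw [div_le_one (by positivity)]; nlinarith [mul_nonneg hn hK0]
  have ε0 : 0 ≤ ε := (norm_nonneg _).trans (hε x hx)
  have δ0 : 0 ≤ δ := (norm_nonneg _).trans (hδ ⟨0, h.pos⟩)
  have R1 : 1 ≤ R ^ (d + 1) := one_le_pow₀ (by linarith)
  have rem : ∀ y ∈ ball (0 : E) R, ‖f y - PS.tay d f y‖ ≤ ε * R ^ (d + 1) := fun y hy =>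
    ((tay_ E V d).1 f R ε hf hε y hy).trans (by gcongr; exact (mem_ball_zero_iff.1 hy).le)
  have m' : ∀ a, ν' a ∈ ball (0 : E) R := fun a => by
    rw [mem_ball_zero_iff]
    have := norm_add_le (ν' a - L.ν a) (L.ν a)
    rw [sub_add_cancel] at this
    linarith [hν a, h.lt a]
  have m : ∀ a, L.ν a ∈ closedBall (0 : E) R := fun a => by
    rw [mem_closedBall_zero_iff]; linarith [h.lt a]
  set N := ∑ a, ‖PS.tay d f (L.ν a)‖
  have N0 : 0 ≤ N := Finset.sum_nonneg fun _ _ => norm_nonneg _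
  have d1 : ∀ a, ‖PS.tay d f (L.ν a)‖ ≤ δ + ε * R ^ (d + 1) + K * (1 / (2 * L.n * K + 1)) * N := by
    intro a
    have e : PS.tay d f (L.ν a) = f (ν' a) - (f (ν' a) - PS.tay d f (ν' a)) +
        ∑ b, (L.e b (L.ν a) - L.e b (ν' a)) • PS.tay d f (L.ν b) := by
      simp only [sub_smul, Finset.sum_sub_distrib, ← h.tay]; abel
    rw [e]
    refine (norm_add_le _ _).trans (add_le_add ((norm_sub_le _ _).trans
      (add_le_add (hδ a) (rem _ (m' a)))) ((norm_sum_le _ _).trans ?_))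
    rw [Finset.mul_sum]
    refine Finset.sum_le_sum fun b _ => (norm_smul_le _ _).trans
      (mul_le_mul_of_nonneg_right ?_ (norm_nonneg _))
    have := hK.norm_sub_le (m a) (ball_subset_closedBall (m' a))
    refine ((norm_le_pi_norm ((fun a' => L.e a' (L.ν a)) - fun a' => L.e a' (ν' a)) b).trans
      this).trans (mul_le_mul_of_nonneg_left ?_ hK0)
    rw [norm_sub_rev]; exact hν a
  have d2 : N ≤ 2 * L.n * (δ + ε * R ^ (d + 1)) := by
    have := Finset.sum_le_sum fun a (_ : a ∈ Finset.univ) => d1 a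
    rw [Finset.sum_const, Finset.card_univ, Fintype.card_fin, nsmul_eq_mul] at this
    have h2 : L.n * (K * (1 / (2 * L.n * K + 1))) ≤ (1 / 2 : ℝ) := by
      rw [mul_one_div, ← mul_div_assoc, div_le_iff₀ (by positivity)]; linarith
    nlinarith [mul_le_mul_of_nonneg_right h2 N0]
  have d3 : ‖PS.tay d f x‖ ≤ B * N := by
    rw [h.tay, Finset.mul_sum]
    exact (norm_sum_le _ _).trans (Finset.sum_le_sum fun a _ => (norm_smul_le _ _).trans
      (mul_le_mul_of_nonneg_right ((norm_le_pi_norm (fun a' => L.e a' x) a).trans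
        (hB x (ball_subset_closedBall hx))) (norm_nonneg _)))
  have := norm_add_le (f x - PS.tay d f x) (PS.tay d f x)
  rw [sub_add_cancel] at this
  have d4 : δ ≤ δ * R ^ (d + 1) := le_mul_of_one_le_right δ0 R1
  have d5 := mul_le_mul_of_nonneg_left d2 hB0
  have d6 : B * L.n * δ ≤ B * L.n * (δ * R ^ (d + 1)) := mul_le_mul_of_nonneg_left d4 (by positivity)
  nlinarith [rem x hx, mul_nonneg δ0 (zero_le_one.trans R1)]

end pol

end Crest.Agent.N221.G0.Sg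
end
end

-- ▼ part N221/G0/Sg1
section

/-! Row 221, block G0, Siegel source (helper81): the rescaled core. -/

set_option autoImplicit false

open Set Metric
open scoped ContDiff

namespace Crest.Agent.N221.G0.Sg

section ty

variable {X V V' V'' : Type} [NormedAddCommGroup X] [NormedSpace ℝ X] [NormedAddCommGroup V]
  [NormedSpace ℝ V] [NormedAddCommGroup V'] [NormedSpace ℝ V'] [NormedAddCommGroup V'']
  [NormedSpace ℝ V''] {n j j' : ℕ} {κ C C' : ℝ} {x : X}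

lemma le_inf (i : ℕ) : (i : WithTop ℕ∞) ≤ ∞ := by exact_mod_cast le_top

lemma Ty.le {f : X → V} (h : Ty n j κ C f x) : ‖f x‖ ≤ C := by
  simpa using h.2 0 n.zero_le

lemma Ty.mo {f : X → V} (h : Ty n j κ C f x) (h0 : 0 ≤ κ) (h1 : κ ≤ 1) (hj : j ≤ j')
    (hC : C ≤ C') : Ty n j' κ C' f x :=
  ⟨h.1, fun i hi => (h.2 i hi).trans (mul_le_mul hC
    (pow_le_pow_of_le_one h0 h1 (by omega)) (by positivity) (h.nn.trans hC))⟩

lemma Ty.bi (B : V →L[ℝ] V' →L[ℝ] V'') (hB : ‖B‖ ≤ 1) {f : X → V} {g : X → V'}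
    (hf : Ty n j κ C f x) (hg : Ty n j' κ C' g x) (h0 : 0 ≤ κ) (h1 : κ ≤ 1) :
    Ty n (j + j') κ (2 ^ n * (C * C')) (fun y => B (f y) (g y)) x := by
  refine ⟨bil_sm B hf.1 hg.1, fun i hi => ?_⟩
  have hC := hf.nn
  have hC' := hg.nn
  refine (bil_at B i (hf.1.of_le (le_inf i)) (hg.1.of_le (le_inf i))).trans ?_
  refine (mul_le_of_le_one_left (by positivity) hB).trans ?_
  have : ∀ l ∈ Finset.range (i + 1), (i.choose l : ℝ) * ‖iteratedFDeriv ℝ l f x‖ *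
      ‖iteratedFDeriv ℝ (i - l) g x‖ ≤ (i.choose l : ℝ) * (C * C' * κ ^ (i - (j + j'))) := by
    intro l hl
    have hl' : l ≤ i := Nat.lt_succ_iff.1 (Finset.mem_range.1 hl)
    rw [mul_assoc]
    refine mul_le_mul_of_nonneg_left ?_ (by positivity)
    refine (mul_le_mul (hf.2 l (by omega)) (hg.2 (i - l) (by omega)) (norm_nonneg _)
      (by positivity)).trans ?_
    rw [mul_mul_mul_comm, ← pow_add]
    exact mul_le_mul_of_nonneg_left (pow_le_pow_of_le_one h0 h1 (by omega)) (by positivity)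
  refine (Finset.sum_le_sum this).trans ?_
  rw [← Finset.sum_mul, ← Nat.cast_sum, Nat.sum_range_choose, mul_assoc (2 ^ n : ℝ)]
  refine mul_le_mul_of_nonneg_right ?_ (by positivity)
  push_cast
  exact pow_le_pow_right₀ one_le_two hi

lemma Ty.ad {f g : X → V} (hf : Ty n j κ C f x) (hg : Ty n j κ C' g x) :
    Ty n j κ (C + C') (fun y => f y + g y) x := by
  refine ⟨hf.1.add hg.1, fun i hi => ?_⟩
  rw [show (fun y => f y + g y) = f + g from rfl,
    iteratedFDeriv_add_apply (hf.1.of_le (le_inf i)) (hg.1.of_le (le_inf i)), add_mul]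
  exact (norm_add_le _ _).trans (add_le_add (hf.2 i hi) (hg.2 i hi))

lemma Ty.li (L : V →L[ℝ] V') {β : ℝ} (hβ : 0 ≤ β) (hL : ∀ a, ‖L a‖ ≤ β * ‖a‖) {f : X → V}
    (hf : Ty n j κ C f x) : Ty n j κ (β * C) (fun y => L (f y)) x :=
  ⟨lin_sm L hf.1, fun i hi => (lin_le L i hβ hL (hf.1.of_le (le_inf i))).trans (by
    rw [mul_assoc]; exact mul_le_mul_of_nonneg_left (hf.2 i hi) hβ)⟩

lemma Ty.su {f g : X → V} (hf : Ty n j κ C f x) (hg : Ty n j κ C' g x) :
    Ty n j κ (C + C') (fun y => f y - g y) x := by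
  have := hf.ad (hg.li (-ContinuousLinearMap.id ℝ V) zero_le_one (fun a => by simp))
  simpa [sub_eq_add_neg] using this

lemma ty_const (v : V) (h0 : 0 ≤ κ) (hv : ‖v‖ ≤ C) : Ty n j κ C (fun _ : X => v) x := by
  refine ⟨contDiffAt_const, fun i _ => ?_⟩
  rcases i with _ | i
  · simpa using hv
  · rw [iteratedFDeriv_succ_const]
    have := (norm_nonneg _).trans hv
    simp only [Pi.zero_apply, norm_zero]
    positivity

lemma ty_sum {ι : Type} (s : Finset ι) {f : ι → X → V} (h0 : 0 ≤ κ)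
    (hf : ∀ a ∈ s, Ty n j κ C (f a) x) :
    Ty n j κ (s.card * C) (fun y => ∑ a ∈ s, f a y) x := by
  classical
  induction s using Finset.induction_on with
  | empty => simpa using ty_const (X := X) (0 : V) h0 (C := 0) (by simp)
  | insert a s ha ih =>
    have := (hf a (Finset.mem_insert_self _ _)).ad
      (ih fun b hb => hf b (Finset.mem_insert_of_mem hb))
    simp only [Finset.sum_insert ha, Finset.card_insert_of_notMem ha]
    convert this using 1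
    push_cast; ring

lemma ty_lin (L : X →L[ℝ] V) (h0 : 0 ≤ κ) (h1 : ‖L x‖ ≤ C) (h2 : ‖L‖ ≤ C) :
    Ty n 1 κ C (fun y => L y) x := by
  refine ⟨L.contDiff.contDiffAt, fun i _ => ?_⟩
  have hC := (norm_nonneg _).trans h2
  rcases i with _ | _ | i
  · simpa using h1
  · rw [norm_iteratedFDeriv_one]
    simpa using h2
  · rw [← norm_iteratedFDeriv_fderiv]
    have : fderiv ℝ (fun y => L y) = fun _ => L := funext fun _ => L.fderiv
    rw [this, iteratedFDeriv_succ_const]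
    simp only [Pi.zero_apply, norm_zero]
    positivity

lemma Ty.sh {f : X → V} {a : X} (h : Ty n j κ C f (a + x)) :
    Ty n j κ C (fun y => f (a + y)) x :=
  ⟨h.1.comp x (contDiffAt_const.add contDiffAt_id), fun i hi => by
    rw [iteratedFDeriv_comp_add_left]; exact h.2 i hi⟩

end ty

variable {E W W' : Type} [NormedAddCommGroup E] [NormedSpace ℝ E] [NormedAddCommGroup W]
  [NormedSpace ℝ W] [NormedAddCommGroup W'] [NormedSpace ℝ W']

/-- a contraction of a ball has a fixed point -/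
lemma fix4 [CompleteSpace E] {G : E → E} (hd : ∀ w ∈ closedBall (0 : E) 4, DifferentiableAt ℝ G w)
    (hD : ∀ w ∈ closedBall (0 : E) 4, ‖fderiv ℝ G w‖ ≤ 1 / 2)
    (hm : ∀ w ∈ closedBall (0 : E) 4, ‖G w‖ ≤ 4) : ∃ w ∈ closedBall (0 : E) 4, G w = w := by
  have hmaps : MapsTo G (closedBall (0 : E) 4) (closedBall 0 4) := fun w hw =>
    mem_closedBall_zero_iff.2 (hm w hw)
  have hl : LipschitzOnWith (1 / 2 : NNReal) G (closedBall 0 4) :=
    (convex_closedBall _ _).lipschitzOnWith_of_nnnorm_fderiv_le hd fun w hw => by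
      rw [← NNReal.coe_le_coe]; simpa using hD w hw
  have hc : ContractingWith (1 / 2 : NNReal) (hmaps.restrict G _ _) :=
    ⟨by norm_num, hl.mapsToRestrict hmaps⟩
  obtain ⟨y, hy, hf, -⟩ := ContractingWith.exists_fixedPoint' isClosed_closedBall.isComplete hmaps
    hc (x := 0) (mem_closedBall_self (by norm_num)) (edist_ne_top _ _)
  exact ⟨y, hy, hf⟩

/-- the dimension count -/
lemma siegel [FiniteDimensional ℝ W] {α β : Type} [Fintype α] [Fintype β] (p : β → α → ℝ)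
    (Θ : β → W) (hΘ : ∀ b, Θ b ≠ 0) (h : Module.finrank ℝ W * Fintype.card β <
      Module.finrank ℝ W * Fintype.card α + Fintype.card β) :
    ∃ c : α → W, (∀ a, ‖c a‖ ≤ 1) ∧ (∃ a, ‖c a‖ = 1) ∧
      ∀ b, ∃ t : ℝ, ∑ a, p b a • c a = t • Θ b := by
  let Φ : ((α → W) × (β → ℝ)) →ₗ[ℝ] (β → W) :=
    { toFun := fun u b => ∑ a, p b a • u.1 a - u.2 b • Θ b
      map_add' := fun u v => by
        ext b
        simp only [Prod.fst_add, Prod.snd_add, Pi.add_apply, smul_add, add_smul,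
          Finset.sum_add_distrib]
        abel
      map_smul' := fun t u => by
        ext b
        simp only [Prod.smul_fst, Prod.smul_snd, Pi.smul_apply, RingHom.id_apply, smul_sub,
          Finset.smul_sum, smul_eq_mul, mul_smul, smul_comm t] }
  obtain ⟨u, hu, hu0⟩ : ∃ u, Φ u = 0 ∧ u ≠ 0 := by
    have := LinearMap.ker_ne_bot_of_finrank_lt (f := Φ) (by
      simpa [Module.finrank_prod, Module.finrank_pi_fintype, mul_comm] using h)
    obtain ⟨u, hu, hu0⟩ := Submodule.exists_mem_ne_zero_of_ne_bot this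
    exact ⟨u, hu, hu0⟩
  have key : ∀ b, ∑ a, p b a • u.1 a = u.2 b • Θ b := fun b => sub_eq_zero.1 (congrFun hu b)
  have h1 : u.1 ≠ 0 := fun e => hu0 (Prod.ext e (funext fun b => by
    have := key b
    simp only [e, Pi.zero_apply, smul_zero, Finset.sum_const_zero] at this
    exact (smul_eq_zero.1 this.symm).resolve_right (hΘ b)))
  obtain ⟨a₁, ha₁⟩ := Function.ne_iff.1 h1
  obtain ⟨a₀, -, ha₀⟩ := Finset.exists_max_image Finset.univ (fun a => ‖u.1 a‖)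
    ⟨a₁, Finset.mem_univ _⟩
  have hp : 0 < ‖u.1 a₀‖ := (norm_pos_iff.2 ha₁).trans_le (ha₀ a₁ (Finset.mem_univ _))
  refine ⟨fun a => ‖u.1 a₀‖⁻¹ • u.1 a, fun a => ?_, ⟨a₀, ?_⟩, fun b => ⟨‖u.1 a₀‖⁻¹ * u.2 b, ?_⟩⟩
  · rw [norm_smul, norm_inv, norm_norm, inv_mul_le_one₀ hp]
    exact ha₀ a (Finset.mem_univ _)
  · rw [norm_smul, norm_inv, norm_norm, inv_mul_cancel₀ hp.ne']
  · rw [mul_smul, ← key b, Finset.smul_sum]
    exact Finset.sum_congr rfl fun a _ => smul_comm _ _ _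

/-- the polynomial with coefficients `c` -/
noncomputable def pol (L : Lag E) (c : Fin L.n × Fin L.n → W) (z : E × E) : W :=
  ∑ a, (L.e a.1 z.1 * L.e a.2 z.2) • c a

lemma pol_node [FiniteDimensional ℝ E] {d : ℕ} {L : Lag E} (h : L.Ok d) (c : Fin L.n × Fin L.n → W)
    (a : Fin L.n × Fin L.n) : pol L c (L.ν a.1, L.ν a.2) = c a := by
  rw [pol, Finset.sum_eq_single a]
  · simp [h.dual]
  · intro b _ hb
    simp only [h.dual]
    by_cases e : b.1 = a.1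
    · rw [if_neg (fun e' : b.2 = a.2 => hb (Prod.ext e e'))]; simp
    · rw [if_neg e]; simp
  · simp

lemma pol_sm [FiniteDimensional ℝ E] {d : ℕ} {L : Lag E} (h : L.Ok d) (c : Fin L.n × Fin L.n → W) :
    ContDiff ℝ ∞ (pol L c) :=
  ContDiff.sum fun a _ =>
    (((Pd.smooth (h.mem a.1)).comp contDiff_fst).mul
      ((Pd.smooth (h.mem a.2)).comp contDiff_snd)).smul contDiff_const

lemma pol_ty [FiniteDimensional ℝ E] {d : ℕ} {L : Lag E} (h : L.Ok d) (n : ℕ) (γ : ℝ) : ∃ C : ℝ, 0 ≤ C ∧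
    ∀ (X : Type) [NormedAddCommGroup X] [NormedSpace ℝ X] (j j' : ℕ) (κ : ℝ) (y t : X → E) (x : X)
      (c : Fin L.n × Fin L.n → W), (∀ a, ‖c a‖ ≤ 1) → 0 ≤ κ → κ ≤ 1 →
      Ty n j κ γ y x → Ty n j' κ γ t x →
      Ty n (d * j + d * j') κ C (fun w => pol L c (y w, t w)) x := by
  obtain ⟨C, hC, H⟩ := h.ty n γ
  refine ⟨(Finset.univ : Finset (Fin L.n × Fin L.n)).card * (2 ^ n * (2 ^ n * (C * C) * 1)),
    by positivity, ?_⟩
  intro X _ _ j j' κ y t x c hc h0 h1 hy ht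
  refine ty_sum _ h0 fun a _ => ?_
  exact Ty.bi (j' := 0) (ContinuousLinearMap.lsmul ℝ ℝ) (ContinuousLinearMap.opNorm_lsmul_le)
    (Ty.bi (ContinuousLinearMap.mul ℝ ℝ) (ContinuousLinearMap.opNorm_mul_le ℝ ℝ)
      (H X j κ y x h0 h1 hy a.1) (H X j' κ t x h0 h1 ht a.2) h0 h1)
    (ty_const (c a) h0 (hc a)) h0 h1

/-- a rescaled good stable leaf near the node `t₀` -/
structure SL (io : E × E → W →L[ℝ] W') (n : ℕ) (κ γ η X : ℝ) (t₀ : E) (t : E → E) (Θ : E → W) :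
    Prop where
  nr : ∀ w ∈ ball (0 : E) 9, ‖t w - t₀‖ ≤ η
  ty : ∀ w ∈ ball (0 : E) 9, Ty n 0 κ γ t w
  th : ∀ w ∈ ball (0 : E) 9, Ty n 0 κ (γ * X) Θ w
  fl : ∀ w ∈ ball (0 : E) 9, 1 ≤ X * ‖Θ w‖
  rel : ∀ w ∈ ball (0 : E) 9, ‖io (w - t w, t w) (Θ w)‖ ≤ κ ^ n

/-- a rescaled unstable leaf through `z` -/
structure UL (io : E × E → W →L[ℝ] W') (n : ℕ) (κ γ η : ℝ) (z : E × E) (y : E → E) : Prop where
  pt : y (z.1 + z.2) = z.1
  nr : ∀ w ∈ ball (0 : E) 9, ‖y w - z.1‖ ≤ η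
  ty : ∀ w ∈ ball (0 : E) 9, Ty n 0 κ γ y w
  io : ∀ w ∈ ball (0 : E) 9, Ty n 0 κ γ (fun w => io (y w, w - y w)) w

omit [NormedSpace ℝ E] in
lemma mem9 {a x : E} {ρ : ℝ} (ha : ‖a‖ < ρ) (hx : x ∈ ball (0 : E) 4) (hρ : ρ ≤ 5) :
    a + x ∈ ball (0 : E) 9 := by
  rw [mem_ball_zero_iff] at hx ⊢
  linarith [norm_add_le a x]

lemma ty_sub {n : ℕ} {κ γ : ℝ} {t : E → E} {w : E} (hw : w ∈ ball (0 : E) 9) (hγ : 9 ≤ γ)
    (h0 : 0 ≤ κ) (h1 : κ ≤ 1) (h : Ty n 0 κ γ t w) : Ty n 1 κ (2 * γ) (fun w => w - t w) w := by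
  have := (ty_lin (n := n) (C := γ) (x := w) (ContinuousLinearMap.id ℝ E) h0
    ((mem_ball_zero_iff.1 hw).le.trans hγ)
    (ContinuousLinearMap.norm_id_le.trans (by linarith))).su (h.mo h0 h1 zero_le_one le_rfl)
  rwa [two_mul]

theorem core [FiniteDimensional ℝ E] [FiniteDimensional ℝ W] [CompleteSpace W'] (k : ℕ) :
    ∃ n : ℕ, ∀ γ : ℝ, 9 ≤ γ → ∃ (η : ℝ) (C : ℕ → ℝ), 0 < η ∧ (∀ i, 1 ≤ C i) ∧
    ∀ (κ X : ℝ) (io : E × E → W →L[ℝ] W'), 0 < κ → κ ≤ η → 1 ≤ X →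
      (∀ t₀ : E, ‖t₀‖ < 1 → ∃ t Θ, SL io n κ γ η X t₀ t Θ) →
      (∀ z : E × E, ‖z‖ < 2 → ∃ y, UL io n κ γ η z y) →
      ∃ (z₁ : E × E) (Q : E × E → W), ‖z₁‖ < 1 ∧ ContDiff ℝ ∞ Q ∧ ‖Q z₁‖ = 1 ∧
        ∀ z ∈ ball z₁ 1, (∀ i, ‖iteratedFDeriv ℝ i Q z‖ ≤ C i) ∧
          ‖io z (Q z)‖ ≤ C 0 * X ^ 2 * κ ^ k := by
  have := FiniteDimensional.complete ℝ E
  have := FiniteDimensional.complete ℝ W
  choose Lg hLg using exists_lag (E := E)
  obtain ⟨d, hd⟩ := count (fun d => (hLg d).pos) (fun d => (hLg d).le) k (Module.finrank ℝ W)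
  refine ⟨d + k + 1, fun γ hγ => ?_⟩
  set n := d + k + 1 with hn
  set L := Lg d
  set M := Lg (d + k)
  have hL : L.Ok d := hLg d
  have hM : M.Ok (d + k) := hLg (d + k)
  obtain ⟨CI, ηI, hCI, hηI, -, HI⟩ := hM.int (R := 4) (by norm_num)
  obtain ⟨CP, hCP, HP⟩ := pol_ty (W := W) hL n (2 * γ)
  choose CQ hCQ HQ using fun i => pol_ty (W := W) hL i 2
  have hγ0 : 0 < γ := by linarith
  set e₁ : ℝ := 2 ^ n * (γ * CP) with he₁
  have he₁0 : 0 ≤ e₁ := by positivity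
  refine ⟨min (ηI / 2) (1 / (4 * γ)), fun i => 1 + CQ i + CI * (γ * (CI * (2 * e₁)) + CP + e₁),
    by positivity, fun i => by
      have := hCQ i
      simp only [add_assoc, le_add_iff_nonneg_right]
      positivity, ?_⟩
  set η := min (ηI / 2) (1 / (4 * γ)) with hη
  intro κ X io hκ hκη hX hs hu
  have hη1 : η ≤ ηI / 2 := min_le_left _ _
  have hη2 : γ * η ≤ 1 / 4 := by
    have : η ≤ 1 / (4 * γ) := min_le_right _ _
    rw [le_div_iff₀ (by positivity)] at this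
    linarith
  have hη0 : 0 < η := hκ.trans_le hκη
  have hη3 : η ≤ 1 / 4 := by nlinarith
  have hκ1 : κ ≤ 1 := by linarith
  choose t Θ hS using fun l => hs (M.ν l) (hM.lt l)
  have hnu : ∀ a, M.ν a ∈ ball (0 : E) 4 := fun a =>
    mem_ball_zero_iff.2 (by linarith [hM.lt a])
  have hΘ : ∀ l, ∀ w ∈ ball (0 : E) 9, 0 < ‖Θ l w‖ := fun l w hw => by
    have := (hS l).fl w hw
    refine (norm_nonneg _).lt_of_ne fun e => ?_
    rw [← e] at this
    linarith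
  obtain ⟨c, hc, ⟨a₀, ha₀⟩, hnode⟩ := siegel (α := Fin L.n × Fin L.n) (β := Fin M.n × Fin M.n)
    (fun b a => L.e a.1 (M.ν b.1 + M.ν b.2 - t b.1 (M.ν b.1 + M.ν b.2)) *
      L.e a.2 (t b.1 (M.ν b.1 + M.ν b.2))) (fun b => Θ b.1 (M.ν b.1 + M.ν b.2))
    (fun b => norm_pos_iff.1 (hΘ _ _ (mem9 (hM.lt b.1) (hnu b.2) (by norm_num))))
    (by simpa [sq] using hd)
  have hz₁ : ‖(L.ν a₀.1, L.ν a₀.2)‖ < 1 := by
    rw [Prod.norm_mk]; exact max_lt (hL.lt _) (hL.lt _)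
  refine ⟨(L.ν a₀.1, L.ν a₀.2), pol L c, hz₁, pol_sm hL c, by rw [pol_node hL, ha₀], ?_⟩
  intro z hz
  have hz2 : ‖z‖ < 2 := by
    have := norm_le_norm_add_norm_sub' z (L.ν a₀.1, L.ν a₀.2)
    rw [mem_ball, dist_eq_norm] at hz
    linarith
  have hz21 : ‖z.1‖ < 2 := (norm_fst_le z).trans_lt hz2
  have hz22 : ‖z.2‖ < 2 := (norm_snd_le z).trans_lt hz2
  have hrest : 0 ≤ CI * (γ * (CI * (2 * e₁)) + CP + e₁) := by positivity
  refine ⟨fun i => ?_, ?_⟩
  · have := (HQ i (E × E) 1 1 1 (fun w => ContinuousLinearMap.fst ℝ E E w)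
      (fun w => ContinuousLinearMap.snd ℝ E E w) z c hc zero_le_one le_rfl
      (ty_lin _ zero_le_one hz21.le ((ContinuousLinearMap.norm_fst_le ℝ E E).trans one_le_two))
      (ty_lin _ zero_le_one hz22.le
        ((ContinuousLinearMap.norm_snd_le ℝ E E).trans one_le_two))).2 i le_rfl
    simp only [one_pow, mul_one] at this
    exact this.trans (by linarith)
  obtain ⟨y, hy⟩ := hu z hz2
  have hb : ∀ w ∈ closedBall (0 : E) 4, w ∈ ball (0 : E) 9 := fun w hw =>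
    closedBall_subset_ball (by norm_num) hw
  have hcr : ∀ l, ∃ w ∈ closedBall (0 : E) 4, t l w + y w = w := fun l => by
    have d1 := fun w hw => (((hS l).ty w (hb w hw)).1.differentiableAt (by simp))
    have d2 := fun w hw => ((hy.ty w (hb w hw)).1.differentiableAt (by simp))
    refine fix4 (G := fun w => t l w + y w) (fun w hw => (d1 w hw).add (d2 w hw))
      (fun w hw => ?_) fun w hw => ?_
    · have k1 := ((hS l).ty w (hb w hw)).2 1 (by omega)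
      have k2 := (hy.ty w (hb w hw)).2 1 (by omega)
      rw [norm_iteratedFDeriv_one] at k1 k2
      rw [fderiv_fun_add (d1 w hw) (d2 w hw)]
      refine (norm_add_le _ _).trans ?_
      simp only [Nat.sub_zero, pow_one] at k1 k2
      nlinarith
    · have k1 := norm_le_norm_add_norm_sub' (t l w) (M.ν l)
      have k2 := norm_le_norm_add_norm_sub' (y w) z.1
      have := norm_add_le (t l w) (y w)
      linarith [(hS l).nr w (hb w hw), hy.nr w (hb w hw), hM.lt l]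
  choose w hw hx using hcr
  have hk1 : κ ^ (n - d) ≤ κ ^ k := pow_le_pow_of_le_one hκ.le hκ1 (by omega)
  have hk2 : κ ^ n ≤ κ ^ k := pow_le_pow_of_le_one hκ.le hκ1 (by omega)
  have hkk : 0 < κ ^ k := by positivity
  have hat : ∀ l, ‖io (y (w l), w l - y (w l)) (pol L c (y (w l), w l - y (w l)))‖ ≤
      (γ * (CI * (2 * e₁)) + CP) * X ^ 2 * κ ^ k := by
    intro l
    have hw9 := hb _ (hw l)
    have hio := (hy.io _ hw9).le
    have e1 : (y (w l), w l - y (w l)) = (w l - t l (w l), t l (w l)) :=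
      Prod.ext (eq_sub_of_add_eq' (hx l)) (eq_sub_of_add_eq (hx l)).symm
    simp only [e1] at hio ⊢
    obtain ⟨ψ, hψ, hψ1⟩ := exists_dual_vector'' ℝ (Θ l (w l))
    have hψ' : ∀ v, ‖ψ v‖ ≤ 1 * ‖v‖ := fun v => ψ.le_of_opNorm_le hψ v
    have hQ : ∀ v ∈ ball (0 : E) 9,
        Ty n d κ CP (fun v => pol L c (v - t l v, t l v)) v := fun v hv => by
      simpa using HP E 1 0 κ _ _ v c hc hκ.le hκ1
        (ty_sub hv hγ hκ.le hκ1 ((hS l).ty v hv))
        (((hS l).ty v hv).mo hκ.le hκ1 le_rfl (by linarith))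
    set F : E → W := fun v => ψ (Θ l v) • pol L c (v - t l v, t l v) -
      ψ (pol L c (v - t l v, t l v)) • Θ l v with hF
    have hT : ∀ v ∈ ball (0 : E) 9, Ty n d κ (2 * e₁ * X) F v := fun v hv => by
      have k1 := Ty.bi (ContinuousLinearMap.lsmul ℝ ℝ) ContinuousLinearMap.opNorm_lsmul_le
        (((hS l).th v hv).li ψ zero_le_one hψ') (hQ v hv) hκ.le hκ1
      have k2 := Ty.bi (ContinuousLinearMap.lsmul ℝ ℝ) ContinuousLinearMap.opNorm_lsmul_le
        ((hQ v hv).li ψ zero_le_one hψ') ((hS l).th v hv) hκ.le hκ1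
      rw [zero_add] at k1
      exact (k1.su k2).mo hκ.le hκ1 le_rfl (le_of_eq (by rw [he₁]; ring))
    have hm : w l - M.ν l ∈ ball (0 : E) 4 := by
      have k2 := norm_le_norm_add_norm_sub' (y (w l)) z.1
      have k3 := norm_add_le (t l (w l) - M.ν l) (y (w l))
      rw [sub_add_eq_add_sub, hx l] at k3
      rw [mem_ball_zero_iff]
      linarith [(hS l).nr _ hw9, hy.nr _ hw9]
    have hFw := HI W (fun v => F (M.ν l + v)) M.ν 0 (2 * e₁ * X * κ ^ (n - d))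
      (fun v hv => (hT _ (mem9 (hM.lt l) hv (by norm_num))).sh.1.contDiffWithinAt)
      (fun v hv => (hT _ (mem9 (hM.lt l) hv (by norm_num))).sh.2 _ le_rfl)
      (fun a => by simpa using hηI.le) (fun a => by
        obtain ⟨τ, hτ⟩ := hnode (l, a)
        have : pol L c (M.ν l + M.ν a - t l (M.ν l + M.ν a), t l (M.ν l + M.ν a)) =
          τ • Θ l (M.ν l + M.ν a) := hτ
        simp only [hF, this, map_smul, smul_smul, smul_eq_mul, mul_comm, sub_self, norm_zero,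
          le_refl]) _ hm
    simp only [add_sub_cancel, zero_add] at hFw
    have hQw := (hQ _ hw9).le
    set q := pol L c (w l - t l (w l), t l (w l))
    set I := io (w l - t l (w l), t l (w l))
    have k1 : ‖Θ l (w l)‖ • I q = I (F (w l)) + ψ q • I (Θ l (w l)) := by
      have : F (w l) = ‖Θ l (w l)‖ • q - ψ q • Θ l (w l) := by
        simp only [hF]; rw [hψ1]; rfl
      rw [this, map_sub, map_smul, map_smul, sub_add_cancel]
    have k2 : ‖Θ l (w l)‖ * ‖I q‖ ≤ γ * (CI * (2 * e₁ * X * κ ^ k)) + CP * κ ^ k := by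
      rw [← norm_norm (Θ l (w l)), ← norm_smul, k1]
      refine (norm_add_le _ _).trans (add_le_add ?_ ?_)
      · refine (I.le_opNorm _).trans (mul_le_mul hio (hFw.trans ?_) (norm_nonneg _) hγ0.le)
        gcongr
      · rw [norm_smul]
        exact mul_le_mul ((hψ' q).trans (by linarith)) (((hS l).rel _ hw9).trans hk2)
          (norm_nonneg _) hCP
    have k3 := (hS l).fl _ hw9
    calc ‖I q‖ ≤ X * ‖Θ l (w l)‖ * ‖I q‖ := le_mul_of_one_le_left (norm_nonneg _) k3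
      _ ≤ X * (γ * (CI * (2 * e₁ * X * κ ^ k)) + CP * κ ^ k) := by
        rw [mul_assoc]; exact mul_le_mul_of_nonneg_left k2 (by linarith)
      _ = γ * (CI * (2 * e₁)) * X ^ 2 * κ ^ k + CP * X * κ ^ k := by ring
      _ ≤ γ * (CI * (2 * e₁)) * X ^ 2 * κ ^ k + CP * X ^ 2 * κ ^ k := by
        have : X ≤ X ^ 2 := by nlinarith
        gcongr
      _ = _ := by ring
  set G : E → W' := fun v => io (y v, v - y v) (pol L c (y v, v - y v)) with hG
  have hT : ∀ v ∈ ball (0 : E) 9, Ty n d κ e₁ G v := fun v hv => by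
    have hQ : Ty n d κ CP (fun v => pol L c (y v, v - y v)) v := by
      simpa using HP E 0 1 κ _ _ v c hc hκ.le hκ1
        ((hy.ty v hv).mo hκ.le hκ1 le_rfl (by linarith)) (ty_sub hv hγ hκ.le hκ1 (hy.ty v hv))
    have := Ty.bi (ContinuousLinearMap.id ℝ (W →L[ℝ] W')) ContinuousLinearMap.norm_id_le
      (hy.io v hv) hQ hκ.le hκ1
    rwa [zero_add] at this
  have hnd : ∀ l, ‖w l - z.1 - M.ν l‖ ≤ 2 * η := fun l => by
    have k3 := norm_add_le (t l (w l) - M.ν l) (y (w l) - z.1)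
    rw [show t l (w l) - M.ν l + (y (w l) - z.1) = t l (w l) + y (w l) - z.1 - M.ν l by abel,
      hx l] at k3
    linarith [(hS l).nr _ (hb _ (hw l)), hy.nr _ (hb _ (hw l))]
  have hGw := HI W' (fun v => G (z.1 + v)) (fun l => w l - z.1) _ (e₁ * κ ^ (n - d))
    (fun v hv => (hT _ (mem9 hz21 hv (by norm_num))).sh.1.contDiffWithinAt)
    (fun v hv => (hT _ (mem9 hz21 hv (by norm_num))).sh.2 _ le_rfl)
    (fun l => (hnd l).trans (by linarith))
    (fun l => by simpa only [add_sub_cancel] using hat l) z.2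
    (mem_ball_zero_iff.2 (by linarith))
  simp only [hG, hy.pt, add_sub_cancel_left] at hGw
  refine hGw.trans ?_
  have hX2 : 1 ≤ X ^ 2 := one_le_pow₀ hX
  calc CI * ((γ * (CI * (2 * e₁)) + CP) * X ^ 2 * κ ^ k + e₁ * κ ^ (n - d))
      ≤ CI * ((γ * (CI * (2 * e₁)) + CP) * X ^ 2 * κ ^ k + e₁ * X ^ 2 * κ ^ k) := by
        gcongr
        exact le_mul_of_one_le_right he₁0 hX2
    _ = CI * (γ * (CI * (2 * e₁)) + CP + e₁) * X ^ 2 * κ ^ k := by ring
    _ ≤ _ := by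
        gcongr
        linarith [hCQ 0]

end Crest.Agent.N221.G0.Sg
end

-- ▼ part N221/G0/Sg

/-! Row 221, block G0, Siegel source (helper81): rescaling, `sgS : SgS`. -/

set_option autoImplicit false

open Set Metric
open scoped ContDiff

namespace Crest.Agent.N221.G0

namespace Sg

variable {E : Type} [NormedAddCommGroup E] [NormedSpace ℝ E]

lemma mem_sc {σ r : ℝ} {w : E} (hσ : 0 < σ) (hw : w ∈ ball (0 : E) 9) (h : 9 * σ ≤ r) :
    σ • w ∈ ball (0 : E) r := by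
  rw [mem_ball_zero_iff] at hw ⊢
  rw [norm_smul, Real.norm_of_nonneg hσ.le]
  nlinarith

/-- a rescaled graph in the adapted coordinates is slow -/
lemma leaf {S J : E →L[ℝ] E} {r θ σ κ c' B γ : ℝ} {c : ℕ → ℝ} {n : ℕ} {s : E → E} {w₀ : E}
    (h : Gr S r θ c s) (hθ : 0 < θ) (hθ1 : θ ≤ 1) (hc : ∀ i ≤ n + 1, c i ≤ c') (hc0 : 0 ≤ c')
    (hσ : 0 < σ)
    (hσ1 : 9 * σ ≤ 1) (hκ : 0 < κ) (hκ1 : κ ≤ 1) (hκσ : κ ^ 2 = σ ^ θ) (hB : 0 ≤ B)
    (hr : (9 + B + 13 * c') * σ < r) (hw₀ : ‖w₀‖ ≤ 4) (hs : ‖s (σ • w₀)‖ ≤ B * σ)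
    (h3 : ‖σ⁻¹ • J (s (σ • w₀) - S (σ • w₀))‖ ≤ 3)
    (hγ : 3 + 14 * (‖J‖ * c' * (9 + B + 13 * c')) + ‖J‖ * (c' + ‖S‖) ≤ γ) :
    ∀ w ∈ ball (0 : E) 9,
      ‖σ⁻¹ • J (s (σ • w) - S (σ • w)) - σ⁻¹ • J (s (σ • w₀) - S (σ • w₀))‖ ≤
        13 * (‖J‖ * c' * (9 + B + 13 * c')) * κ ∧
      Ty n 0 κ γ (fun w => σ⁻¹ • J (s (σ • w) - S (σ • w))) w := by
  set B' := 9 + B + 13 * c' with hB'
  set l := ‖J‖ * c' * B' with hl
  have hl0 : 0 ≤ l := by positivity
  have h9 : 9 * σ ≤ r := by nlinarith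
  have hsub : ball (0 : E) (9 * σ) ⊆ ball 0 r := ball_subset_ball h9
  have hat : ∀ q ∈ ball (0 : E) (9 * σ), ContDiffAt ℝ ∞ s q := fun q hq =>
    h.sm.contDiffAt (isOpen_ball.mem_nhds (hsub hq))
  have hd : ∀ q ∈ ball (0 : E) (9 * σ), DifferentiableAt ℝ s q := fun q hq =>
    (hat q hq).differentiableAt (by simp)
  have hq₀ : σ • w₀ ∈ ball (0 : E) (9 * σ) :=
    mem_sc hσ (mem_ball_zero_iff.2 (by linarith)) le_rfl
  have hq₀' : ‖σ • w₀‖ ≤ 4 * σ := by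
    rw [norm_smul, Real.norm_of_nonneg hσ.le]; nlinarith
  have h13 : ∀ q ∈ ball (0 : E) (9 * σ), ‖q - σ • w₀‖ ≤ 13 * σ := fun q hq => by
    linarith [norm_sub_le q (σ • w₀), mem_ball_zero_iff.1 hq]
  have hpt : ∀ q ∈ ball (0 : E) (9 * σ), ‖(q, s q)‖ ≤ B' * σ := fun q hq => by
    have k1 := (convex_ball (0 : E) (9 * σ)).norm_image_sub_le_of_norm_fderiv_le (C := c') hd
      (fun x hx => by
        have := h.bd 1 x (hsub hx)
        rw [norm_iteratedFDeriv_one] at this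
        exact this.trans (hc 1 (by omega))) hq₀ hq
    have k2 := norm_le_norm_add_norm_sub' (s q) (s (σ • w₀))
    have k3 := mul_le_mul_of_nonneg_left (h13 q hq) hc0
    rw [Prod.norm_mk]
    refine max_le ?_ ?_
    · nlinarith [mem_ball_zero_iff.1 hq]
    · nlinarith
  set f : E → E := fun q => J (s q - S q) with hf
  have hfd : ∀ q ∈ ball (0 : E) (9 * σ), HasFDerivAt f (J ∘L (fderiv ℝ s q - S)) q := fun q hq =>
    J.hasFDerivAt.comp q ((hd q hq).hasFDerivAt.sub S.hasFDerivAt)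
  have hκ2 : κ ^ 2 ≤ κ := by nlinarith
  have hDf : ∀ q ∈ ball (0 : E) (9 * σ), ‖fderiv ℝ f q‖ ≤ l * κ := fun q hq => by
    rw [(hfd q hq).fderiv]
    refine (J.opNorm_comp_le _).trans ?_
    have k1 := h.hol q ((hpt q hq).trans_lt hr)
    have k2 : ‖(q, s q)‖ ^ θ ≤ B' * κ := by
      refine (Real.rpow_le_rpow (norm_nonneg _) (hpt q hq) hθ.le).trans ?_
      rw [Real.mul_rpow (by positivity) hσ.le, ← hκσ]
      refine mul_le_mul ?_ hκ2 (by positivity) (by positivity)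
      simpa using Real.rpow_le_rpow_of_exponent_le (x := B') (by linarith) hθ1
    have k3 : c 0 * ‖(q, s q)‖ ^ θ ≤ c' * (B' * κ) :=
      mul_le_mul (hc 0 (by omega)) k2 (by positivity) hc0
    calc _ ≤ ‖J‖ * (c' * (B' * κ)) := mul_le_mul_of_nonneg_left (k1.trans k3) (norm_nonneg _)
      _ = _ := by rw [hl]; ring
  intro w hw
  have hq := mem_sc hσ hw le_rfl
  have k1 := (convex_ball (0 : E) (9 * σ)).norm_image_sub_le_of_norm_fderiv_le (C := l * κ)
    (fun q hq => (hfd q hq).differentiableAt) hDf hq₀ hq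
  have k2 : ‖f (σ • w) - f (σ • w₀)‖ ≤ 13 * l * κ * σ := by
    refine k1.trans ((mul_le_mul_of_nonneg_left (h13 _ hq) (by positivity)).trans_eq (by ring))
  have k3 : ‖σ⁻¹ • f (σ • w) - σ⁻¹ • f (σ • w₀)‖ ≤ 13 * l * κ := by
    rw [← smul_sub, norm_smul, norm_inv, Real.norm_of_nonneg hσ.le, inv_mul_le_iff₀ hσ]
    linarith
  refine ⟨k3, ?_⟩
  have hJS : 0 ≤ ‖J‖ * (c' + ‖S‖) := by positivity
  have hty : Ty n 1 1 (‖J‖ * (c' + ‖S‖)) f (σ • w) := by
    refine Ty.clm (Ty.su ⟨hat _ hq, fun i hi => ?_⟩ (ty_lin S zero_le_one ?_ le_rfl)) J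
    · simpa using (h.bd i _ (hsub hq)).trans (hc i (by omega))
    · exact (S.le_opNorm _).trans (mul_le_of_le_one_right (norm_nonneg _)
        ((mem_ball_zero_iff.1 hq).le.trans hσ1))
  have hlκ : l * κ ≤ l := mul_le_of_le_one_right hl0 hκ1
  have := Ty.scale_div (n := n) (C := γ) (f := f) (x := w) 0 hσ hκ.le hκ1
    (by rw [hκσ]; simpa using Real.rpow_le_rpow_of_exponent_ge hσ (by linarith) hθ1)
    (by simpa using hty.1) (by
      have k4 := norm_le_norm_add_norm_sub' (σ⁻¹ • f (σ • w)) (σ⁻¹ • f (σ • w₀))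
      have k5 : ‖σ⁻¹ • f (σ • w)‖ ≤ γ := by linarith
      rw [norm_smul, norm_inv, Real.norm_of_nonneg hσ.le, inv_mul_le_iff₀ hσ] at k5
      simpa [mul_comm] using k5)
    (by
      rw [zero_add]
      exact (hDf _ hq).trans (mul_le_mul_of_nonneg_right (by linarith) hκ.le))
    (fun i _ hi => by
      have := hty.2 i hi
      simp only [one_pow, mul_one] at this
      rw [zero_add]
      linarith)
  simpa only [zero_add] using this

variable {W W' : Type} [NormedAddCommGroup W] [NormedSpace ℝ W] [NormedAddCommGroup W']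
  [NormedSpace ℝ W'] {S U J : E →L[ℝ] E} {io : E × E → W →L[ℝ] W'} {r θ a : ℝ} {c : ℕ → ℝ}

/-- adapted linear coordinates -/
noncomputable def Li (S U : E →L[ℝ] E) : E × E →L[ℝ] E × E :=
  (ContinuousLinearMap.fst ℝ E E + ContinuousLinearMap.snd ℝ E E).prod
    (S ∘L ContinuousLinearMap.fst ℝ E E + U ∘L ContinuousLinearMap.snd ℝ E E)

/-- their inverse -/
noncomputable def Co (S U J : E →L[ℝ] E) : E × E →L[ℝ] E × E :=
  (J ∘L (U ∘L ContinuousLinearMap.fst ℝ E E - ContinuousLinearMap.snd ℝ E E)).prod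
    (J ∘L (ContinuousLinearMap.snd ℝ E E - S ∘L ContinuousLinearMap.fst ℝ E E))

lemma Li_ap (z : E × E) : Li S U z = (z.1 + z.2, S z.1 + U z.2) := rfl

lemma Co_ap (z : E × E) : Co S U J z = (J (U z.1 - z.2), J (z.2 - S z.1)) := rfl

lemma Co_Li (h : ∀ v, J (U v - S v) = v) (z : E × E) : Co S U J (Li S U z) = z := by
  rw [Co_ap, Li_ap]
  refine Prod.ext ?_ ?_
  · simpa only [map_add, add_sub_add_right_eq_sub] using h z.1
  · simpa only [map_add, add_sub_add_left_eq_sub] using h z.2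

lemma Li_Co [FiniteDimensional ℝ E] (h : ∀ v, J (U v - S v) = v) (z : E × E) :
    Li S U (Co S U J z) = z := by
  have h1 : (Co S U J : E × E →ₗ[ℝ] E × E) * (Li S U : E × E →ₗ[ℝ] E × E) = 1 :=
    LinearMap.ext (Co_Li h)
  exact LinearMap.congr_fun (mul_eq_one_comm.1 h1) z

/-- the numerical constraints -/
structure Nu (S U J : E →L[ℝ] E) (r θ : ℝ) (c : ℕ → ℝ) (n : ℕ) (c' γ η σ κ : ℝ) : Prop where
  hc : ∀ i ≤ n + 1, c i ≤ c'
  hc0 : 0 ≤ c'
  hσ : 0 < σ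
  hσ1 : 9 * σ ≤ 1
  hκ : 0 < κ
  hκ1 : κ ≤ 1
  hκσ : κ ^ 2 = σ ^ θ
  hσκ : σ ≤ κ
  hr : (9 + (2 * ‖Li S U‖ + 1) + 13 * c') * σ < r
  hγ : 9 + 14 * (‖J‖ * c' * (9 + (2 * ‖Li S U‖ + 1) + 13 * c')) + ‖J‖ * (c' + ‖S‖) +
    ‖J‖ * (c' + ‖U‖) + c' ≤ γ
  hη : 13 * (‖J‖ * c' * (9 + (2 * ‖Li S U‖ + 1) + 13 * c')) * κ + ‖J‖ * κ ≤ η
  hJ : ‖J‖ * κ ≤ 1

variable {n : ℕ} {c' γ η σ κ : ℝ}

lemma Nu.z (N : Nu S U J r θ c n c' γ η σ κ) {z : E × E} (hz : ‖z‖ < 2) :
    ‖σ • Li S U z‖ ≤ 2 * ‖Li S U‖ * σ ∧ ‖σ • Li S U z‖ < r ∧ 9 * σ ≤ r := by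
  have k0 := N.hσ
  have k1 : ‖σ • Li S U z‖ ≤ 2 * ‖Li S U‖ * σ := by
    rw [norm_smul, Real.norm_of_nonneg N.hσ.le, mul_comm, mul_comm 2]
    exact mul_le_mul_of_nonneg_right (((Li S U).le_opNorm z).trans
      (mul_le_mul_of_nonneg_left hz.le (norm_nonneg _))) N.hσ.le
  have k2 := mul_nonneg N.hc0 k0.le
  have k3 := mul_nonneg (norm_nonneg (Li S U)) k0.le
  have k4 := N.hr
  exact ⟨k1, by linarith, by linarith⟩

lemma mkS [FiniteDimensional ℝ E] (H : SG S U J io r θ a c) (N : Nu S U J r θ c n c' γ η σ κ)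
    {t₀ : E} (ht₀ : ‖t₀‖ < 1) : ∃ t Θ, SL (fun z => io (σ • Li S U z)) n κ γ η
      ((1 + c') / (σ ^ 2) ^ a) t₀ t Θ := by
  obtain ⟨hc, hc0, hσ, hσ1, hκ, hκ1, hκσ, hσκ, hr, hγ, hη, hJ⟩ := id N
  have h0 : ‖((0 : E), t₀)‖ < 2 := by rw [Prod.norm_mk]; simp; linarith
  obtain ⟨k0, hzr, h9⟩ := N.z h0
  have hσ2 : σ ^ 2 ≤ σ := by rw [sq]; exact mul_le_of_le_one_left hσ.le (by linarith)
  obtain ⟨s, Θ, hs, hG, hΘ, hq⟩ := H.st _ hzr (σ ^ 2) (by positivity) (by linarith) n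
    (κ ^ n) (by positivity)
  set e : ℝ := (σ ^ 2) ^ a with he
  have he0 : 0 < e := by positivity
  have he1 : e ≤ 1 := Real.rpow_le_one (by positivity) (by linarith) H.ha
  have hX : 1 ≤ (1 + c') / e := by rw [le_div_iff₀ he0]; linarith
  replace k0 := (norm_snd_le _).trans k0
  simp only [Li_ap, zero_add, map_zero, Prod.smul_mk] at hs k0
  have k1 : ‖σ⁻¹ • J (s (σ • t₀) - S (σ • t₀)) - t₀‖ ≤ ‖J‖ * κ := by
    have : σ⁻¹ • J (s (σ • t₀) - S (σ • t₀)) - t₀ = σ⁻¹ • J (s (σ • t₀) - σ • U t₀) := by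
      rw [sub_eq_iff_eq_add, ← sub_add_sub_cancel _ (σ • U t₀), map_add, smul_add, map_smul,
        ← smul_sub, map_smul, H.inv, smul_smul, inv_mul_cancel₀ hσ.ne', one_smul]
    rw [this, norm_smul, norm_inv, Real.norm_of_nonneg hσ.le, inv_mul_le_iff₀ hσ]
    calc _ ≤ ‖J‖ * σ ^ 2 := (J.le_opNorm _).trans (mul_le_mul_of_nonneg_left hs (norm_nonneg J))
      _ = σ * (‖J‖ * σ) := by ring
      _ ≤ _ := by gcongr
  have hJ1 : 0 ≤ ‖J‖ * (c' + ‖S‖) := by positivity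
  have hJ2 : 0 ≤ ‖J‖ * (c' + ‖U‖) := by positivity
  have hl : 0 ≤ ‖J‖ * c' * (9 + (2 * ‖Li S U‖ + 1) + 13 * c') := by positivity
  have k2 := leaf (J := J) (γ := γ) (w₀ := t₀) hG H.hθ H.hθ1 hc hc0 hσ hσ1 hκ hκ1 hκσ
    (by positivity) hr (by linarith) (by
      linarith [norm_le_norm_add_norm_sub' (s (σ • t₀)) (σ • U t₀)]) (by
      linarith [norm_le_norm_add_norm_sub' (σ⁻¹ • J (s (σ • t₀) - S (σ • t₀))) t₀])
    (by linarith)
  refine ⟨fun w => σ⁻¹ • J (s (σ • w) - S (σ • w)), fun w => Θ (σ • w), fun w hw => ?_,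
    fun w hw => (k2 w hw).2, fun w hw => ?_, fun w hw => ?_, fun w hw => ?_⟩
  · linarith [norm_sub_le_norm_sub_add_norm_sub (σ⁻¹ • J (s (σ • w) - S (σ • w)))
      (σ⁻¹ • J (s (σ • t₀) - S (σ • t₀))) t₀, (k2 w hw).1]
  · have hm := mem_sc hσ hw h9
    simpa only [zero_add] using Ty.scale (n := n) (C := γ * ((1 + c') / e)) (f := Θ) (x := w) 0
      hσ.le hσκ (by simpa using hΘ.contDiffAt (isOpen_ball.mem_nhds hm)) fun i hi => by
        rw [zero_add]
        exact ((hq _ hm).2.2 i hi).trans ((div_le_div_of_nonneg_right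
          (by linarith [hc i (by omega)]) he0.le).trans (le_mul_of_one_le_left
            (zero_le_one.trans hX) (by linarith)))
  · have := (hq _ (mem_sc hσ hw h9)).2.1
    rw [div_mul_eq_mul_div, le_div_iff₀ he0, one_mul]
    exact this.trans (mul_le_mul_of_nonneg_right (by linarith [hc 0 (by omega)])
      (norm_nonneg _))
  · have : σ • Li S U (w - σ⁻¹ • J (s (σ • w) - S (σ • w)), σ⁻¹ • J (s (σ • w) - S (σ • w))) =
        (σ • w, s (σ • w)) := by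
      rw [← Li_Co H.inv (σ • w, s (σ • w)), ← map_smul, Co_ap]
      congr 1
      simp only [Prod.smul_mk, smul_sub, smul_smul, mul_inv_cancel₀ hσ.ne', one_smul]
      refine Prod.ext ?_ rfl
      simp only
      rw [sub_eq_iff_eq_add, ← map_add, sub_add_sub_cancel, H.inv]
    simp only [this]
    exact (hq _ (mem_sc hσ hw h9)).1

lemma mkU [FiniteDimensional ℝ E] (H : SG S U J io r θ a c) (N : Nu S U J r θ c n c' γ η σ κ)
    {z : E × E} (hz2 : ‖z‖ < 2) : ∃ y, UL (fun z => io (σ • Li S U z)) n κ γ η z y := by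
  obtain ⟨hc, hc0, hσ, hσ1, hκ, hκ1, hκσ, hσκ, hr, hγ, hη, hJ⟩ := id N
  obtain ⟨k0, hzr, h9⟩ := N.z hz2
  obtain ⟨u, hu, hG, hio, hq⟩ := H.un _ hzr
  replace k0 := (norm_snd_le _).trans k0
  simp only [Li_ap, Prod.smul_mk] at hu k0
  have k1 : σ⁻¹ • (-J) (u (σ • (z.1 + z.2)) - U (σ • (z.1 + z.2))) = z.1 := by
    rw [hu, map_smul, ← smul_sub, map_smul, smul_smul, inv_mul_cancel₀ hσ.ne', one_smul,
      neg_apply, ← map_neg, neg_sub, map_add, add_sub_add_right_eq_sub,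
      H.inv]
  have hz1 := (norm_fst_le z).trans_lt hz2
  have hz3 := (norm_snd_le z).trans_lt hz2
  have hJ1 : 0 ≤ ‖J‖ * (c' + ‖S‖) := by positivity
  have hJ2 : 0 ≤ ‖J‖ * (c' + ‖U‖) := by positivity
  have hJ3 : 0 ≤ ‖J‖ * κ := by positivity
  have hl : 0 ≤ ‖J‖ * c' * (9 + (2 * ‖Li S U‖ + 1) + 13 * c') := by positivity
  have k2 := leaf (J := -J) (γ := γ) (w₀ := z.1 + z.2) hG H.hθ H.hθ1 hc hc0 hσ hσ1 hκ hκ1
    hκσ (by positivity) hr (by linarith [norm_add_le z.1 z.2]) (by rw [hu]; linarith)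
    (by rw [k1]; linarith) (by rw [norm_neg]; linarith)
  rw [k1, norm_neg] at k2
  refine ⟨fun w => σ⁻¹ • (-J) (u (σ • w) - U (σ • w)), k1, fun w hw => ?_,
    fun w hw => (k2 w hw).2, fun w hw => ?_⟩
  · linarith [(k2 w hw).1]
  · have hm := mem_sc hσ hw h9
    have : ∀ w : E, σ • Li S U (σ⁻¹ • (-J) (u (σ • w) - U (σ • w)),
        w - σ⁻¹ • (-J) (u (σ • w) - U (σ • w))) = (σ • w, u (σ • w)) := fun w => by
      rw [← Li_Co H.inv (σ • w, u (σ • w)), ← map_smul, Co_ap, neg_apply,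
        ← map_neg, neg_sub]
      congr 1
      simp only [Prod.smul_mk, smul_sub, smul_smul, mul_inv_cancel₀ hσ.ne', one_smul]
      refine Prod.ext rfl ?_
      simp only
      rw [sub_eq_iff_eq_add', ← map_add, sub_add_sub_cancel, H.inv]
    simp only [this]
    simpa only [zero_add] using Ty.scale (n := n) (C := γ) (f := fun q => io (q, u q)) (x := w) 0
      hσ.le hσκ (by simpa using hio.contDiffAt (isOpen_ball.mem_nhds hm)) fun i hi => by
        rw [zero_add]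
        exact (hq i _ hm).trans (by linarith [hc i (by omega)])

/-- back to the original scale -/
lemma back [FiniteDimensional ℝ E] (h : ∀ v, J (U v - S v) = v) {K : ℕ} {C : ℕ → ℝ} {ρ A : ℝ}
    (hρ : 0 < ρ) (hA : 0 ≤ A) (hC : 0 ≤ C 0) (hσ' : σ = ρ * (‖Co S U J‖ + 1)) {z₁ : E × E}
    {Q : E × E → W} (hz₁ : ‖z₁‖ < 1) (hQ : ContDiff ℝ ∞ Q) (hQ1 : ‖Q z₁‖ = 1)
    (hQz : ∀ z ∈ ball z₁ 1, (∀ i, ‖iteratedFDeriv ℝ i Q z‖ ≤ C i) ∧
      ‖io (σ • Li S U z) (Q z)‖ ≤ A * ρ ^ K) :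
    Src io K (fun i => C i + (A + (‖Co S U J‖ + 1) * ‖Li S U‖)) ρ (σ • Li S U z₁)
      (Q ∘ (σ⁻¹ • Co S U J :)) := by
  have hσ : 0 < σ := by rw [hσ']; positivity
  set T : E × E →L[ℝ] E × E := σ⁻¹ • Co S U J with hT
  have hT1 : T (σ • Li S U z₁) = z₁ := by
    rw [hT, map_smul, smul_apply, Co_Li h, smul_smul, mul_inv_cancel₀ hσ.ne',
      one_smul]
  have hTn : ‖T‖ ≤ ‖Co S U J‖ / σ := by
    rw [hT, norm_smul, norm_inv, Real.norm_of_nonneg hσ.le, div_eq_inv_mul]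
  have hTρ : ‖T‖ * ρ < 1 := by
    refine (mul_le_mul_of_nonneg_right hTn hρ.le).trans_lt ?_
    rw [div_mul_eq_mul_div, div_lt_one hσ, hσ']
    linarith
  have hmem : ∀ z ∈ ball (σ • Li S U z₁) ρ, T z ∈ ball z₁ 1 := fun z hz => by
    rw [mem_ball, dist_eq_norm] at hz ⊢
    rw [show T z - z₁ = T (z - σ • Li S U z₁) by rw [map_sub, hT1]]
    exact (T.le_opNorm _).trans_lt
      ((mul_le_mul_of_nonneg_left hz.le (norm_nonneg _)).trans_lt hTρ)
  have hL : 0 ≤ (‖Co S U J‖ + 1) * ‖Li S U‖ := by positivity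
  refine ⟨?_, hQ.comp T.contDiff, by simpa only [Function.comp, hT1] using hQ1,
    fun i z hz => ?_, fun z hz => ?_⟩
  · rw [norm_smul, Real.norm_of_nonneg hσ.le]
    have k1 := ((Li S U).le_opNorm z₁).trans (mul_le_of_le_one_right (norm_nonneg _) hz₁.le)
    calc _ ≤ σ * ‖Li S U‖ := mul_le_mul_of_nonneg_left k1 hσ.le
      _ = (‖Co S U J‖ + 1) * ‖Li S U‖ * ρ := by rw [hσ']; ring
      _ ≤ _ := mul_le_mul_of_nonneg_right (by linarith) hρ.le
  · rw [T.iteratedFDeriv_comp_right hQ z (le_inf i)]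
    refine (ContinuousMultilinearMap.norm_compContinuousLinearMap_le _ _).trans ?_
    rw [Finset.prod_const, Finset.card_univ, Fintype.card_fin, le_div_iff₀ (by positivity),
      mul_assoc, ← mul_pow]
    refine (mul_le_of_le_one_right (norm_nonneg _)
      (pow_le_one₀ (by positivity) hTρ.le)).trans ?_
    linarith [(hQz _ (hmem z hz)).1 i]
  · have k1 := (hQz _ (hmem z hz)).2
    rw [hT, smul_apply, map_smul, Li_Co h, smul_smul, mul_inv_cancel₀ hσ.ne',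
      one_smul] at k1
    exact k1.trans (mul_le_mul_of_nonneg_right (by linarith) (by positivity))

end Sg

open Sg in
theorem sgS : SgS := by
  intro E W W' _ _ _ _ _ _ _ _ _ S U J io r θ a c H K
  have hθ := H.hθ
  have ha := H.ha
  obtain ⟨k, hk⟩ := exists_nat_ge ((K + 4 * a) / (θ / 2))
  rw [div_le_iff₀ (by positivity)] at hk
  obtain ⟨n, hn⟩ := core (E := E) (W := W) (W' := W') k
  obtain ⟨c', hc0, hc⟩ : ∃ c', 0 ≤ c' ∧ ∀ i ≤ n + 1, c i ≤ c' :=
    ⟨∑ i ∈ Finset.range (n + 2), |c i|, Finset.sum_nonneg fun _ _ => abs_nonneg _,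
      fun i hi => (le_abs_self _).trans (Finset.single_le_sum (f := fun i => |c i|)
        (fun _ _ => abs_nonneg _) (Finset.mem_range.2 (by omega)))⟩
  obtain ⟨B, hB⟩ : ∃ B, B = 9 + (2 * ‖Li S U‖ + 1) + 13 * c' := ⟨_, rfl⟩
  have hB0 : 0 < B := by rw [hB]; positivity
  obtain ⟨l, hl⟩ : ∃ l, l = ‖J‖ * c' * B := ⟨_, rfl⟩
  have hl0 : 0 ≤ l := by rw [hl]; positivity
  have hJ1 : 0 ≤ ‖J‖ * (c' + ‖S‖) := by positivity
  have hJ2 : 0 ≤ ‖J‖ * (c' + ‖U‖) := by positivity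
  obtain ⟨η, C, hη, hC, hcore⟩ := hn (9 + 14 * l + ‖J‖ * (c' + ‖S‖) + ‖J‖ * (c' + ‖U‖) + c')
    (by linarith)
  obtain ⟨L, hL⟩ : ∃ L, L = ‖Co S U J‖ + 1 := ⟨_, rfl⟩
  have hL0 : 0 < L := by rw [hL]; positivity
  obtain ⟨κ₀, hκ₀⟩ : ∃ κ₀, κ₀ = min η 1 / (13 * l + ‖J‖ + 1) := ⟨_, rfl⟩
  have hκ₀0 : 0 < κ₀ := by rw [hκ₀]; positivity
  have hr := H.hr
  have hC0 : 0 ≤ C 0 := zero_le_one.trans (hC 0)
  have hA : 0 ≤ C 0 * (1 + c') ^ 2 * L ^ K := by positivity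
  have hrest : 0 ≤ (‖Co S U J‖ + 1) * ‖Li S U‖ := by positivity
  refine ⟨fun i => C i + (C 0 * (1 + c') ^ 2 * L ^ K + (‖Co S U J‖ + 1) * ‖Li S U‖),
    min (min (1 / 9) (r / B)) (κ₀ ^ (θ / 2)⁻¹) / L, by positivity,
    fun i => by linarith [hC i], fun ρ hρ hρ₀ => ?_⟩
  rw [lt_div_iff₀ hL0, lt_min_iff, lt_min_iff, lt_div_iff₀ (by positivity : (0 : ℝ) < 9),
    lt_div_iff₀ hB0] at hρ₀
  obtain ⟨⟨hσ1, hσr⟩, hσκ⟩ := hρ₀
  obtain ⟨σ, hσ'⟩ : ∃ σ, σ = ρ * L := ⟨_, rfl⟩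
  rw [← hσ'] at hσ1 hσr hσκ
  have hσ : 0 < σ := by rw [hσ']; positivity
  obtain ⟨κ, hκ'⟩ : ∃ κ, κ = σ ^ (θ / 2) := ⟨_, rfl⟩
  have hκ : 0 < κ := by rw [hκ']; positivity
  have hκκ : κ ≤ κ₀ := by
    have := Real.rpow_le_rpow hσ.le hσκ.le (by positivity : 0 ≤ θ / 2)
    rwa [Real.rpow_inv_rpow hκ₀0.le (by positivity), ← hκ'] at this
  have hκm : κ * (13 * l + ‖J‖ + 1) ≤ min η 1 := by
    rwa [hκ₀, le_div_iff₀ (by positivity)] at hκκ
  have hm1 := min_le_left η 1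
  have hm2 := min_le_right η 1
  have hlκ : 0 ≤ l * κ := by positivity
  have hJκ : 0 ≤ ‖J‖ * κ := by positivity
  have N : Nu S U J r θ c n c' (9 + 14 * l + ‖J‖ * (c' + ‖S‖) + ‖J‖ * (c' + ‖U‖) + c') η σ κ :=
    ⟨hc, hc0, hσ, by linarith, hκ, by linarith,
      by rw [hκ', ← Real.rpow_natCast, ← Real.rpow_mul hσ.le]; norm_num,
      by simpa [hκ'] using Real.rpow_le_rpow_of_exponent_ge hσ (by linarith)
          (by linarith [H.hθ1] : θ / 2 ≤ 1),
      by rw [← hB]; linarith, by rw [← hB, ← hl], by rw [← hB, ← hl]; linarith, by linarith⟩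
  have he0 : 0 < (σ ^ 2) ^ a := by positivity
  have he1 : (σ ^ 2) ^ a ≤ 1 :=
    Real.rpow_le_one (by positivity) (pow_le_one₀ hσ.le (by linarith)) ha
  obtain ⟨z₁, Q, hz₁, hQ, hQ1, hQz⟩ := hcore κ _ _ hκ (by linarith)
    (by rw [le_div_iff₀ he0]; linarith) (fun _ => mkS H N) fun _ => mkU H N
  refine ⟨_, _, back H.inv hρ hA hC0 (hL ▸ hσ') hz₁ hQ hQ1 fun z hz =>
    ⟨(hQz z hz).1, (hQz z hz).2.trans ?_⟩⟩
  have k2 : κ ^ k ≤ σ ^ K * ((σ ^ 2) ^ a) ^ 2 := by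
    rw [hκ', ← Real.rpow_natCast, ← Real.rpow_natCast, ← Real.rpow_natCast,
      ← Real.rpow_natCast, ← Real.rpow_mul hσ.le, ← Real.rpow_mul hσ.le,
      ← Real.rpow_mul hσ.le, ← Real.rpow_add hσ]
    refine Real.rpow_le_rpow_of_exponent_ge hσ (by linarith) ?_
    push_cast
    linarith
  generalize (σ ^ 2) ^ a = e at he0 k2 ⊢
  calc C 0 * ((1 + c') / e) ^ 2 * κ ^ k ≤ C 0 * ((1 + c') / e) ^ 2 * (σ ^ K * e ^ 2) := by gcongr
    _ = _ := by rw [hσ']; field_simp; ring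

end Crest.Agent.N221.G0
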