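import Crest.Agent.N221.G0.Sys
import Crest.Agent.N221.G0.Top

-- ▼ part N221/G0/Chn
section

/-!
Row 221, block G0 (helper91): chains of steps.  `Cd` = data of a chain, `c.Ok i T`, `c.orb i y j` =
orbit on the plaques, `c.amb w j` = ambient orbit.  `app`: every plaque is `q ^ t` close to a plaque
that starts a chain of length `τ + 1 + (t + 1)` ending `q ^ (τ + 1) R` close to a given point.
-/

set_option autoImplicit false

open Set Metric Filter Topology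
open scoped ContDiff

noncomputable section

namespace Crest.Agent.N221.G0

/-- backward recursion: `fam H G T j = H j (fam H G T (j + 1))` for `j < T`, `fam H G T T = G` -/
def bk {α : Type} (H : ℕ → α → α) (G : α) : ℕ → ℕ → α
  | 0, _ => G
  | k + 1, j => H j (bk H G k (j + 1))

def fam {α : Type} (H : ℕ → α → α) (G : α) (T j : ℕ) : α := bk H G (T - j) j

lemma fam_end {α : Type} (H : ℕ → α → α) (G : α) (T : ℕ) : fam H G T T = G := by
  simp [fam, bk]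

lemma fam_step {α : Type} (H : ℕ → α → α) (G : α) {T j : ℕ} (h : j < T) :
    fam H G T j = H j (fam H G T (j + 1)) := by
  unfold fam
  rw [show T - j = T - (j + 1) + 1 by omega, bk]

/-- backward induction -/
lemma bk_ind {P : ℕ → Prop} {T : ℕ} (h0 : P T) (h : ∀ j < T, P (j + 1) → P j) :
    ∀ j ≤ T, P j := fun _ hj => Nat.decreasingInduction (fun k hk => h k hk) h0 hj

lemma UJ.d1 {X Y : Type} [NormedAddCommGroup X] [NormedSpace ℝ X] [NormedAddCommGroup Y]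
    [NormedSpace ℝ Y] {c : ℕ → ℝ} {f : X → Y} {x : X} (h : UJ c f x) : ‖fderiv ℝ f x‖ ≤ c 1 := by
  simpa [norm_iteratedFDeriv_one] using h.2 1

lemma UJ.dif {X Y : Type} [NormedAddCommGroup X] [NormedSpace ℝ X] [NormedAddCommGroup Y]
    [NormedSpace ℝ Y] {c : ℕ → ℝ} {f : X → Y} {x : X} (h : UJ c f x) : DifferentiableAt ℝ f x :=
  h.1.differentiableAt (by simp)

namespace Sy

variable {E W : Type} [NormedAddCommGroup E] [NormedSpace ℝ E] [NormedAddCommGroup W]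
  [NormedSpace ℝ W] {S : Sy E W} {i : Bool}

lemma Ok.b1 (h : S.Ok) : 1 ≤ S.b := h.b01.trans h.b0b

lemma Ok.Rp (h : S.Ok) : 0 < S.R := h.r0p.trans_le h.r0R

lemma Ok.bR (h : S.Ok) : S.R ≤ S.b0 * S.R := le_mul_of_one_le_left h.Rp.le h.b01

lemma Ok.R8 (h : S.Ok) : 8 * S.R ≤ S.R0 := by have := h.bR; have := h.RR0; linarith

lemma Ok.R0p (h : S.Ok) : 0 < S.R0 := by have := h.R8; have := h.Rp; linarith

lemma Ok.r12 (h : S.Ok) : 12 * S.r1 ≤ S.R := by
  have := h.r1R; have := le_mul_of_one_le_left h.r1p.le h.b01; linarith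

lemma Ok.q1 (h : S.Ok) : S.q < 1 := by have := h.q6; linarith

lemma Ok.sub (h : S.Ok) : ball (0 : E) S.R ⊆ ball 0 S.R0 :=
  ball_subset_ball (by have := h.R8; have := h.Rp; linarith)

lemma Ok.zero (h : S.Ok) : ‖(0 : E × E)‖ < S.R0 := by simpa using h.R0p

lemma Ok.g_zero (h : S.Ok) (i : Bool) (f : S.F) : S.g i f 0 0 = 0 := h.g_self i f 0 h.zero

lemma Ok.pt_self (h : S.Ok) (i : Bool) (f : S.F) {z : E × E} (hz : ‖z‖ < S.R0) :
    S.pt i f z z.1 = z := Prod.ext rfl (h.g_self i f z hz)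

lemma Ok.pt_zero (h : S.Ok) (i : Bool) (f : S.F) : S.pt i f 0 0 = 0 := h.pt_self i f h.zero

lemma Ok.pq_zero (h : S.Ok) (i : Bool) (f : S.F) {ρ : ℝ} (hρ : 0 ≤ ρ) : S.Pq i f 0 ρ :=
  ⟨h.zero, by rw [h.g_zero]; simpa using hρ⟩

/-- the graphs are Lipschitz -/
lemma Ok.g_lip (h : S.Ok) (i : Bool) (f : S.F) {z : E × E} (hz : ‖z‖ < S.R0) {y y' : E}
    (hy : y ∈ ball (0 : E) S.R0) (hy' : y' ∈ ball (0 : E) S.R0) :
    ‖S.g i f z y - S.g i f z y'‖ ≤ S.b0 * ‖y - y'‖ :=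
  (convex_ball _ _).norm_image_sub_le_of_norm_fderiv_le (𝕜 := ℝ)
    (fun x hx => (h.g_jet i f z hz x hx).dif) (h.g_slope i f z hz) hy' hy

lemma Ok.pt_lip (h : S.Ok) (i : Bool) (f : S.F) {z : E × E} (hz : ‖z‖ < S.R0) {y y' : E}
    (hy : y ∈ ball (0 : E) S.R0) (hy' : y' ∈ ball (0 : E) S.R0) :
    ‖S.pt i f z y - S.pt i f z y'‖ ≤ S.b0 * ‖y - y'‖ := by
  rw [Prod.norm_def]
  exact max_le (le_mul_of_one_le_left (norm_nonneg _) h.b01) (h.g_lip i f hz hy hy')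

lemma Ok.g_le (h : S.Ok) {f : S.F} {z : E × E} {ρ : ℝ} (hz : S.Pq i f z ρ) {y : E}
    (hy : y ∈ ball (0 : E) S.R0) : ‖S.g i f z y‖ ≤ ρ + S.b0 * ‖y‖ := by
  have := h.g_lip i f hz.1 hy (mem_ball_self h.R0p)
  rw [sub_zero] at this
  have h2 := norm_le_insert' (S.g i f z y) (S.g i f z 0)
  have := hz.2
  linarith

/-- plaques of offset `r1` stay in the quarter box -/
lemma Ok.pt_le (h : S.Ok) {f : S.F} {z : E × E} (hz : S.Pq i f z S.r1) {y : E}
    (hy : y ∈ ball (0 : E) S.R) : ‖S.pt i f z y‖ ≤ S.R0 / 4 := by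
  have h1 := h.g_le hz (h.sub hy)
  rw [mem_ball_zero_iff] at hy
  have h2 : S.b0 * ‖y‖ ≤ S.b0 * S.R :=
    mul_le_mul_of_nonneg_left hy.le (by have := h.b01; linarith)
  have := h.RR0; have := h.R8; have := h.r12; have := h.Rp
  rw [Prod.norm_def]
  exact max_le (by change ‖y‖ ≤ _; linarith) (by change ‖S.g i f z y‖ ≤ _; linarith)

/-- offset of the leaves through a point near the centre -/
lemma Ok.pq_of (h : S.Ok) (i : Bool) (f : S.F) {z : E × E} (hz : ‖z‖ < S.R0) :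
    S.Pq i f z (2 * S.b0 * ‖z‖) := by
  refine ⟨hz, ?_⟩
  have h1 := h.g_lip i f hz (mem_ball_self h.R0p)
    (mem_ball_zero_iff.2 ((norm_fst_le z).trans_lt hz))
  rw [h.g_self i f z hz, zero_sub, norm_neg] at h1
  have h2 := norm_le_insert' (S.g i f z 0) z.2
  have h3 : S.b0 * ‖z.1‖ ≤ S.b0 * ‖z‖ :=
    mul_le_mul_of_nonneg_left (norm_fst_le z) (by have := h.b01; linarith)
  have h4 := (norm_snd_le z).trans (le_mul_of_one_le_left (norm_nonneg z) h.b01)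
  linarith

lemma Pq.mono {f : S.F} {z : E × E} {ρ ρ' : ℝ} (h : S.Pq i f z ρ) (e : ρ ≤ ρ') : S.Pq i f z ρ' :=
  ⟨h.1, h.2.trans e⟩

lemma Ok.ds_one (h : S.Ok) {f : S.F} {z z' : E × E} (hz : S.Pq i f z S.r1)
    (hz' : S.Pq i f z' S.r1) : S.Ds i f z z' 1 := fun y hy => by
  have h1 := (norm_snd_le _).trans (h.pt_le hz hy)
  have h2 := (norm_snd_le _).trans (h.pt_le hz' hy)
  have := norm_sub_le (S.g i f z y) (S.g i f z' y)
  have := h.R01
  change ‖S.g i f z y‖ ≤ _ at h1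
  change ‖S.g i f z' y‖ ≤ _ at h2
  linarith

section step
variable {f f' : S.F} {z z' : E × E} {φ : E × E → E × E} {A : E × E → W →L[ℝ] W}

lemma St.mem (h : S.St i f z f' z' φ A) {y : E} (hy : y ∈ ball (0 : E) S.R) :
    S.lf i f z φ y ∈ ball (0 : E) S.R := mem_ball_zero_iff.2 (h.mp y hy)

lemma St.lip (h : S.St i f z f' z' φ A) {y y' : E} (hy : y ∈ ball (0 : E) S.R)
    (hy' : y' ∈ ball (0 : E) S.R) : ‖S.lf i f z φ y - S.lf i f z φ y'‖ ≤ S.q * ‖y - y'‖ :=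
  (convex_ball _ _).norm_image_sub_le_of_norm_fderiv_le (𝕜 := ℝ)
    (fun x hx => (h.jl x hx).dif) h.con hy' hy

lemma St.at (hS : S.Ok) (h : S.St i f z f' z' φ A) {y : E} (hy : y ∈ ball (0 : E) S.R) :
    S.Am f f' φ A (S.pt i f z y) := h.am y hy _ (mem_ball_self hS.r0p)


end step

/-- data of a chain -/
structure Cd (S : Sy E W) where
  f : ℕ → S.F
  z : ℕ → E × E
  φ : ℕ → E × E → E × E
  A : ℕ → E × E → W →L[ℝ] W

namespace Cd

variable (c : S.Cd)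

def Ok (i : Bool) (T : ℕ) : Prop :=
  ∀ j < T, S.St i (c.f j) (c.z j) (c.f (j + 1)) (c.z (j + 1)) (c.φ j) (c.A j)

/-- the points of the `j`-th plaque -/
def pt (i : Bool) (j : ℕ) (y : E) : E × E := S.pt i (c.f j) (c.z j) y

/-- the `j`-th map of plaques -/
def ψ (i : Bool) (j : ℕ) (y : E) : E := S.lf i (c.f j) (c.z j) (c.φ j) y

/-- orbit on the plaques -/
def orb (i : Bool) (y : E) : ℕ → E
  | 0 => y
  | j + 1 => c.ψ i j (orb i y j)

/-- ambient orbit -/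
def amb (w : E × E) : ℕ → E × E
  | 0 => w
  | j + 1 => c.φ j (amb w j)

def cons (f : S.F) (z : E × E) (φ : E × E → E × E) (A : E × E → W →L[ℝ] W) : S.Cd where
  f j := Nat.casesOn j f c.f
  z j := Nat.casesOn j z c.z
  φ j := Nat.casesOn j φ c.φ
  A j := Nat.casesOn j A c.A

variable {c} {T : ℕ}

lemma orb_cons (f : S.F) (z : E × E) (φ : E × E → E × E) (A : E × E → W →L[ℝ] W) (y : E) (j : ℕ) :
    (c.cons f z φ A).orb i y (j + 1) = c.orb i (S.lf i f z φ y) j := by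
  induction j with
  | zero => rfl
  | succ j ih => rw [orb, ih]; rfl

lemma Ok.cons (h : c.Ok i T) {f : S.F} {z : E × E} {φ : E × E → E × E} {A : E × E → W →L[ℝ] W}
    (h0 : S.St i f z (c.f 0) (c.z 0) φ A) : (c.cons f z φ A).Ok i (T + 1) := fun j hj => by
  cases j with
  | zero => exact h0
  | succ j => exact h j (by omega)

lemma Ok.mono (h : c.Ok i T) {T' : ℕ} (e : T' ≤ T) : c.Ok i T' := fun j hj => h j (hj.trans_le e)

lemma Ok.orb_mem (h : c.Ok i T) {y : E} (hy : y ∈ ball (0 : E) S.R) :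
    ∀ j ≤ T, c.orb i y j ∈ ball (0 : E) S.R := fun j hj => by
  induction j with
  | zero => exact hy
  | succ j ih => exact (h j hj).mem (ih (by omega))

lemma Ok.orb_lip (hS : S.Ok) (h : c.Ok i T) {y y' : E} (hy : y ∈ ball (0 : E) S.R)
    (hy' : y' ∈ ball (0 : E) S.R) :
    ∀ j ≤ T, ‖c.orb i y j - c.orb i y' j‖ ≤ S.q ^ j * ‖y - y'‖ := fun j hj => by
  induction j with
  | zero => simp [orb]
  | succ j ih =>
    refine ((h j hj).lip (h.orb_mem hy j (by omega)) (h.orb_mem hy' j (by omega))).trans ?_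
    rw [pow_succ', mul_assoc]
    exact mul_le_mul_of_nonneg_left (ih (by omega)) hS.qp.le



/-- the chain ends on the leaf of `z1` in the chart `f1`, within `δ` of `z1` -/
def End (c : S.Cd) (i : Bool) (T : ℕ) (f1 : S.F) (z1 : E × E) (δ : ℝ) : Prop :=
  c.f T = f1 ∧ c.z T = z1 ∧ ∀ y ∈ ball (0 : E) S.R, ‖c.orb i y T - z1.1‖ ≤ δ

lemma End.cons {f1 : S.F} {z1 : E × E} {δ : ℝ} (h : c.End i T f1 z1 δ) {f : S.F} {z : E × E}
    {φ : E × E → E × E} {A : E × E → W →L[ℝ] W} (h0 : S.St i f z (c.f 0) (c.z 0) φ A) :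
    (c.cons f z φ A).End i (T + 1) f1 z1 δ :=
  ⟨h.1, h.2.1, fun y hy => by rw [orb_cons]; exact h.2.2 _ (h0.mem hy)⟩

end Cd

/-- a chain of central plaques that ends at a given point -/
theorem Ok.back (hS : S.Ok) (i : Bool) (f1 : S.F) {z1 : E × E} (h1 : ‖z1.1‖ ≤ 2 * S.R / 3)
    (h2 : ‖z1.2‖ ≤ S.b0 * S.R) (τ : ℕ) : ∃ c : S.Cd, c.Ok i (τ + 1) ∧ c.f (τ + 1) = f1 ∧
      c.z (τ + 1) = z1 ∧ (∀ j ≤ τ, c.z j = 0 ∧ c.orb i 0 j = 0) ∧ c.orb i 0 (τ + 1) = z1.1 := by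
  induction τ with
  | zero =>
    obtain ⟨f', φ, A, h, e⟩ := hS.bwd i f1 z1 h1 h2
    let c0 : S.Cd := ⟨fun _ => f1, fun _ => z1, fun _ => φ, fun _ => A⟩
    have h0 : c0.Ok i 0 := fun j hj => absurd hj (by omega)
    refine ⟨c0.cons f' 0 φ A, h0.cons h, rfl, rfl, fun j hj => ?_, ?_⟩
    · obtain rfl : j = 0 := by omega
      exact ⟨rfl, rfl⟩
    · change (φ (S.pt i f' 0 0)).1 = _
      rw [hS.pt_zero, e]
  | succ τ ih =>
    obtain ⟨c, hc, e1, e2, e3, e4⟩ := ih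
    have := hS.Rp; have := hS.bR
    obtain ⟨f', φ, A, h, e⟩ := hS.bwd i (c.f 0) 0 (by simp; positivity) (by simp; linarith)
    have l0 : S.lf i f' 0 φ 0 = 0 := by
      change (φ (S.pt i f' 0 0)).1 = _
      rw [hS.pt_zero, e]; rfl
    refine ⟨c.cons f' 0 φ A, hc.cons (by rwa [(e3 0 (by omega)).1]), e1, e2, fun j hj => ?_, ?_⟩
    · cases j with
      | zero => exact ⟨rfl, rfl⟩
      | succ j => exact ⟨(e3 j (by omega)).1, by rw [Cd.orb_cons, l0]; exact (e3 j (by omega)).2⟩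
    · rw [Cd.orb_cons, l0, e4]

/-- APPROACH: forward `t` steps along the plaque of `z0`, one step of specification, `τ + 1` steps
along the past of `z1` -/
theorem Ok.app (hS : S.Ok) (i : Bool) (f1 : S.F) {z1 : E × E} (h1 : ‖z1.1‖ ≤ 2 * S.R / 3)
    (h2 : ‖z1.2‖ ≤ S.b0 * S.R) (τ t : ℕ) : ∀ (f0 : S.F) (z0 : E × E), S.Pq i f0 z0 (S.r1 / 2) →
    ∃ c : S.Cd, c.Ok i (τ + 1 + (t + 1)) ∧ c.f 0 = f0 ∧ S.Pq i f0 (c.z 0) S.r1 ∧
      S.Ds i f0 (c.z 0) z0 (S.q ^ t) ∧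
      c.End i (τ + 1 + (t + 1)) f1 z1 (S.q ^ (τ + 1) * S.R) := by
  obtain ⟨c, hc, e1, e2, e3, e4⟩ := hS.back i f1 h1 h2 τ
  have hE : c.End i (τ + 1) f1 z1 (S.q ^ (τ + 1) * S.R) := ⟨e1, e2, fun y hy => by
    rw [← e4]
    refine (hc.orb_lip hS hy (mem_ball_self hS.Rp) _ le_rfl).trans ?_
    rw [sub_zero]
    exact mul_le_mul_of_nonneg_left (mem_ball_zero_iff.1 hy).le (pow_pos hS.qp _).le⟩
  have r1 := hS.r1p
  induction t with
  | zero =>
    intro f0 z0 h0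
    obtain ⟨z, φ, A, hz, h, -⟩ := hS.hit i f0 (c.f 0)
    rw [← (e3 0 (by omega)).1] at h
    exact ⟨c.cons f0 z φ A, hc.cons h, rfl, hz,
      by rw [pow_zero]; exact hS.ds_one hz (h0.mono (by linarith)), hE.cons h⟩
  | succ t ih =>
    intro f0 z0 h0
    obtain ⟨f', φ, A, h⟩ := hS.fwd i f0 z0 h0
    obtain ⟨c', hc', rfl, hp, hd, hE'⟩ := ih f' 0 (hS.pq_zero i f' (by linarith))
    obtain ⟨z, hz, hst, -, hds⟩ := h _ hp
    exact ⟨c'.cons f0 z φ A, hc'.cons hst, rfl, hz, by rw [pow_succ']; exact hds _ hd,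
      hE'.cons hst⟩

end Sy

end Crest.Agent.N221.G0
end
private theorem rz_d189b59fca : type_of% @_root_.Crest.Agent.N221.G0.Sy.Cd.amb.eq_def := @_root_.Crest.Agent.N221.G0.Sy.Cd.amb.eq_def -- L186
private theorem rz_3c7fd50f0d : type_of% @_root_.Crest.Agent.N221.G0.Sy.Cd.amb.eq_1 := @_root_.Crest.Agent.N221.G0.Sy.Cd.amb.eq_1 -- L186
private theorem rz_18454387c9 : type_of% @_root_.Crest.Agent.N221.G0.Sy.Cd.orb.eq_def := @_root_.Crest.Agent.N221.G0.Sy.Cd.orb.eq_def -- L181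
private theorem rz_cf12d54243 : type_of% @_root_.Crest.Agent.N221.G0.Sy.Cd.orb.eq_1 := @_root_.Crest.Agent.N221.G0.Sy.Cd.orb.eq_1 -- L181
private theorem rz_7c031f324c : type_of% @_root_.Crest.Agent.N221.G0.bk.eq_def := @_root_.Crest.Agent.N221.G0.bk.eq_def -- L19
private theorem rz_fd32a4600d : type_of% @_root_.Crest.Agent.N221.G0.bk.eq_1 := @_root_.Crest.Agent.N221.G0.bk.eq_1 -- L19
end

-- ▼ part N221/G0/NrD

/-! Row 221, block G0/NR (helper54): forms, contraction, pull back; the rank of the system. -/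

set_option autoImplicit false

open Set Metric Filter
open scoped ContDiff Nat Topology

noncomputable section

namespace Crest.Agent.N221.G0

open Nr

variable {W : Type} [NormedAddCommGroup W] [NormedSpace ℝ W] {n : ℕ}


lemma norm_ioW_apply_le (v : W) (Ψ : Vf W (n + 1)) : ‖ioW n v Ψ‖ ≤ ‖Ψ‖ * ‖v‖ :=
  (Ψ.curryLeft.le_opNorm v).trans_eq (by rw [Ψ.norm_curryLeft])

set_option maxSynthPendingDepth 3 in
lemma norm_ioW_le : ‖ioW (W := W) n‖ ≤ 1 := by
  refine ContinuousLinearMap.opNorm_le_bound _ zero_le_one fun v => ?_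
  refine ContinuousLinearMap.opNorm_le_bound _ (by positivity) fun Ψ => ?_
  rw [one_mul, mul_comm]
  exact norm_ioW_apply_le v Ψ

set_option maxSynthPendingDepth 3 in
/-- jets of the contraction -/
lemma ioW_jet {X : Type} [NormedAddCommGroup X] [NormedSpace ℝ X] {c : ℕ → ℝ} {ν : X → W} {x : X}
    (h : UJ c ν x) : UJ c (fun y => ioW n (ν y)) x :=
  ⟨(ioW (W := W) n).contDiff.contDiffAt.comp x h.1, fun k =>
    ((ioW (W := W) n).norm_iteratedFDeriv_comp_left (cda h.1 k) le_rfl).trans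
      ((mul_le_of_le_one_left (norm_nonneg _) norm_ioW_le).trans (h.2 k))⟩

lemma ioW_pbk (A : W →L[ℝ] W) (v : W) (Ψ : Vf W (n + 1)) :
    ioW n v (pbk (n + 1) A Ψ) = pbk n A (ioW n (A v) Ψ) :=
  Ψ.curryLeft_compContinuousLinearMap A v

lemma norm_pbk_apply_le (A : W →L[ℝ] W) (Ψ : Vf W n) : ‖pbk n A Ψ‖ ≤ ‖A‖ ^ n * ‖Ψ‖ :=
  (Ψ.norm_compContinuousLinearMap_le A).trans_eq (by rw [Fintype.card_fin, mul_comm])

lemma norm_pbk_le (A : W →L[ℝ] W) : ‖pbk n A‖ ≤ ‖A‖ ^ n :=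
  ContinuousLinearMap.opNorm_le_bound _ (by positivity) (norm_pbk_apply_le A)



/-- floor of the pull back -/
lemma pbk_floor [FiniteDimensional ℝ W] {A : W →L[ℝ] W} {b : ℝ} (hb : 0 ≤ b)
    (h : ∀ v, ‖v‖ ≤ b * ‖A v‖) (Ψ : Vf W n) : ‖Ψ‖ ≤ b ^ n * ‖pbk n A Ψ‖ := by
  have inj : Function.Injective (A : W →ₗ[ℝ] W) := (injective_iff_map_eq_zero _).2 fun v hv => by
    have := h v
    rw [show A v = 0 from hv, norm_zero, mul_zero] at this
    exact norm_le_zero_iff.1 this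
  let e := (LinearEquiv.ofInjectiveEndo _ inj).toContinuousLinearEquiv
  have he : ∀ v, A (e.symm v) = v := fun v => e.apply_symm_apply v
  have h1 : ‖(e.symm : W →L[ℝ] W)‖ ≤ b := ContinuousLinearMap.opNorm_le_bound _ hb fun v => by
    simpa [he] using h (e.symm v)
  have h2 : pbk n (e.symm : W →L[ℝ] W) (pbk n A Ψ) = Ψ := by
    ext u
    simp [he]
  conv_lhs => rw [← h2]
  refine (norm_pbk_apply_le _ _).trans ?_
  gcongr

/-- forms of too high degree vanish -/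
lemma vf_eq_zero [FiniteDimensional ℝ W] (h : Module.finrank ℝ W < n) (Ψ : Vf W n) : Ψ = 0 := by
  ext u
  refine Ψ.toAlternatingMap.map_linearDependent u fun hu => ?_
  have := hu.fintype_card_le_finrank
  rw [Fintype.card_fin] at this
  omega

lemma contDiff_pbk [FiniteDimensional ℝ W] :
    ContDiff ℝ ∞ (pbk n : (W →L[ℝ] W) → Vf W n →L[ℝ] Vf W n) := by
  obtain ⟨g, hg⟩ := (ContinuousAlternatingMap.toContinuousMultilinearMapLI (𝕜 := ℝ) (ι := Fin n)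
    (E := W) (F := ℝ)).toLinearMap.exists_leftInverse_of_injective
      (LinearMap.ker_eq_bot.2 (LinearIsometry.injective _))
  have : FiniteDimensional ℝ (W [×n]→L[ℝ] ℝ) := FiniteDimensional.of_injective
    ({ toFun := fun Ψ : W [×n]→L[ℝ] ℝ => Ψ.toMultilinearMap
       map_add' := fun _ _ => rfl
       map_smul' := fun _ _ => rfl } : _ →ₗ[ℝ] MultilinearMap ℝ (fun _ : Fin n => W) ℝ)
    fun _ _ h => ContinuousMultilinearMap.ext fun u => DFunLike.congr_fun h u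
  refine contDiff_clm_apply_iff.2 fun Ψ => ?_
  have h1 : ContDiff ℝ ∞ fun A : W →L[ℝ] W =>
      ContinuousMultilinearMap.compContinuousLinearMapContinuousMultilinear ℝ (fun _ : Fin n => W)
        (fun _ => W) ℝ (fun _ => A) Ψ.toContinuousMultilinearMap :=
    ((ContinuousMultilinearMap.contDiff _).comp (contDiff_pi.2 fun _ => contDiff_id)).clm_apply
      contDiff_const
  convert (LinearMap.toContinuousLinearMap g).contDiff.comp h1 using 2 with A
  exact (LinearMap.congr_fun hg (pbk n A Ψ)).symm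

/-- jets of a pull back -/
lemma pbk_jet [FiniteDimensional ℝ W] (n : ℕ) (c : ℕ → ℝ) :
    ∃ c' : ℕ → ℝ, ∀ (X : Type) [NormedAddCommGroup X] [NormedSpace ℝ X] (A : X → W →L[ℝ] W)
      (x : X), UJ c A x → UJ c' (fun y => pbk n (A y)) x := by
  have : ProperSpace (W →L[ℝ] W) := FiniteDimensional.proper ℝ _
  have h := fun k : ℕ => (isCompact_closedBall (0 : W →L[ℝ] W) (c 0)).exists_bound_of_continuousOn
    ((contDiff_pbk (W := W) (n := n)).continuous_iteratedFDeriv (m := k)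
      (by exact_mod_cast le_top)).continuousOn
  choose C hC using h
  choose D D1 D2 using cbound C
  choose P P1 P2 using cbound c
  refine ⟨fun k => k ! * D k * P k ^ k, fun X _ _ A x hA =>
    ⟨(contDiff_pbk (W := W) (n := n)).contDiffAt.comp x hA.1,
      fun k => comp_at k (contDiff_pbk (W := W) (n := n)).contDiffAt hA.1
      (fun i hi => (hC i _ ?_).trans (D2 k i hi)) fun i i1 hi =>
        (hA.2 i).trans ((P2 k i hi).trans (le_self_pow₀ (P1 k) (by omega)))⟩⟩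
  simpa using hA.2 0

/-- jets of a composition -/
lemma uj_comp (c d : ℕ → ℝ) : ∃ c' : ℕ → ℝ, ∀ (X Y Z : Type) [NormedAddCommGroup X]
    [NormedSpace ℝ X] [NormedAddCommGroup Y] [NormedSpace ℝ Y] [NormedAddCommGroup Z]
    [NormedSpace ℝ Z] (g : Y → Z) (f : X → Y) (x : X), UJ c g (f x) → ContDiffAt ℝ ∞ f x →
    (∀ k, 1 ≤ k → ‖iteratedFDeriv ℝ k f x‖ ≤ d k) → UJ c' (fun y => g (f y)) x := by
  choose D D1 D2 using cbound c
  choose P P1 P2 using cbound d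
  exact ⟨fun k => k ! * D k * P k ^ k, fun X Y Z _ _ _ _ _ _ g f x hg hf hd =>
    ⟨hg.1.comp x hf, fun k => comp_at k hg.1 hf (fun i hi => (hg.2 i).trans (D2 k i hi))
      fun i i1 hi => (hd i i1).trans ((P2 k i hi).trans (le_self_pow₀ (P1 k) (by omega)))⟩⟩

namespace Sy

variable {E W : Type} [NormedAddCommGroup E] [NormedSpace ℝ E] [NormedAddCommGroup W]
  [NormedSpace ℝ W] (S : Sy E W)

theorem adm_spec {n : ℕ} (h : ¬ S.Gap n) : ∃ c : ℕ → ℝ, ∀ (N : ℕ) (o : ℝ), 0 < o →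
    ∃ (f : S.F) (Ψ : E → Vf W (n + 1)) (y0 : E), ‖y0‖ ≤ 2 * S.R / 3 ∧ 1 / 2 < ‖Ψ y0‖ ∧
      ContDiffOn ℝ ∞ Ψ (ball 0 S.R) ∧
      (∀ k ≤ N, ∀ y ∈ ball (0 : E) S.R, ‖iteratedFDeriv ℝ k Ψ y‖ ≤ c k) ∧
      ∀ y ∈ ball (0 : E) S.R, ‖S.io n f (S.pt false f 0 y) (Ψ y)‖ ≤ o := by
  unfold Gap Nr.Gap at h
  push Not at h
  obtain ⟨c, h⟩ := h
  refine ⟨c, fun N o ho => ?_⟩
  obtain ⟨f, Ψ, h1, h2, h3, y, h4, h5⟩ := h N o ho
  exact ⟨f, Ψ, y, h4, h5, h1, h2, h3⟩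

/-- the rank -/
theorem rank [FiniteDimensional ℝ W] : S.Gap 0 ∨ ∃ n, ¬ S.Gap n ∧ S.Gap (n + 1) := by
  have h : ∃ n, S.Gap n := ⟨Module.finrank ℝ W, fun c => ⟨0, 1, one_pos, fun _ f _ _ _ x _ => by
    rw [vf_eq_zero (Nat.lt_succ_self _) (f x), norm_zero]
    norm_num⟩⟩
  classical
  cases hn : Nat.find h with
  | zero => exact Or.inl (hn ▸ Nat.find_spec h)
  | succ n => exact Or.inr ⟨n, Nat.find_min h (by omega), hn ▸ Nat.find_spec h⟩

end Sy

theorem rkS : RkS := fun _ _ _ _ _ _ _ _ S _ => S.rank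

end Crest.Agent.N221.G0
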