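import Crest.Agent.N221.G0.Nr1
import Crest.Agent.N221.G0.NrD_Mg
import Crest.Agent.N221.G0.Top
import Crest.Agent.N221.G0.UqB
import Crest.Agent.N221.G0.UqA
import Crest.Agent.N221.G0.ApB

-- ▼ part N221/G0/Nr2
section

/-! Row 221, block G0/NR (helper54): entry from a small ball and choice of the length of the
chain. -/

set_option autoImplicit false

open Set Metric Filter Finset
open scoped ContDiff Nat Topology

namespace Crest.Agent.N221.G0.Nr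

variable {Z Z0 E V W : Type} [NormedAddCommGroup E] [NormedSpace ℝ E]
  [NormedAddCommGroup V] [NormedSpace ℝ V] [NormedAddCommGroup W] [NormedSpace ℝ W]
  {R R' q b : ℝ} {c : ℕ → ℝ} {I : Z → E → V →L[ℝ] W}

lemma Stp.lip {z' z : Z} {ψ : E → E} {A : E → V →L[ℝ] V} (h : Stp R R' q b c I z' z ψ A)
    {x y : E} (hx : x ∈ ball (0 : E) R) (hy : y ∈ ball (0 : E) R) : ‖ψ y - ψ x‖ ≤ q * ‖y - x‖ :=
  (convex_ball _ _).norm_image_sub_le_of_norm_fderiv_le
    (fun u hu => (h.sψ.contDiffAt (isOpen_ball.mem_nhds hu)).differentiableAt (by simp)) h.d1 hx hy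

/-- crude bounds along a chain, with a rate that does not depend on the order -/
theorem crude (c : ℕ → ℝ) (hR : R' < R) (q0 : 0 ≤ q) (q1 : q ≤ 1) (hb : 1 ≤ b) (N : ℕ) :
    ∃ K : ℝ, 1 ≤ K ∧ ∀ (T : ℕ) (z : ℕ → Z) (ψ : ℕ → E → E) (A : ℕ → E → V →L[ℝ] V)
      (g : E → V) (x : ℕ → E) (ρ s B : ℝ),
      (∀ i < T, Stp R R' q b c I (z (i + 1)) (z i) (ψ i) (A i)) →
      (∀ i < T, x (i + 1) ∈ ball (0 : E) R ∧ ψ i (x (i + 1)) = x i) →
      (∀ y ∈ ball (0 : E) R, ‖y - x 0‖ < ρ → ContDiffAt ℝ ∞ g y ∧ ‖I (z 0) y (g y)‖ ≤ s ∧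
        ∀ k ≤ N, ‖iteratedFDeriv ℝ k g y‖ ≤ B) →
      ∀ i ≤ T, ∀ y ∈ ball (0 : E) R, q ^ i * ‖y - x i‖ < ρ → ContDiffAt ℝ ∞ (pb ψ A g i) y ∧
        ‖I (z i) y (pb ψ A g i y)‖ ≤ b ^ i * s ∧
        ∀ k ≤ N, ‖iteratedFDeriv ℝ k (pb ψ A g i) y‖ ≤ K * (2 * b) ^ i * B := by
  have b0 : 0 ≤ b := by linarith
  choose Cl Cl0 hl using ly c q0 b0
  obtain ⟨P, P1, P2⟩ := cbound Cl N
  refine ⟨P ^ N, one_le_pow₀ P1, fun T z ψ A g x ρ s B h hx hg => ?_⟩
  suffices H : ∀ i ≤ T, ∀ y ∈ ball (0 : E) R, q ^ i * ‖y - x i‖ < ρ →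
      ContDiffAt ℝ ∞ (pb ψ A g i) y ∧ ‖I (z i) y (pb ψ A g i y)‖ ≤ b ^ i * s ∧
        ∀ k ≤ N, ‖iteratedFDeriv ℝ k (pb ψ A g i) y‖ ≤ P ^ k * ((2 * b) ^ i * B) by
    intro i hi y hy h1
    obtain ⟨a1, a2, a3⟩ := H i hi y hy h1
    refine ⟨a1, a2, fun k hk => (a3 k hk).trans ?_⟩
    have := (norm_nonneg _).trans (a3 0 (Nat.zero_le _))
    rw [pow_zero, one_mul] at this
    rw [mul_assoc]
    gcongr
  intro i
  induction i with
  | zero =>
    intro _ y hy h1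
    rw [pow_zero, one_mul] at h1
    obtain ⟨a1, a2, a3⟩ := hg y hy h1
    refine ⟨a1, by rw [pow_zero, one_mul]; exact a2, fun k hk => (a3 k hk).trans ?_⟩
    rw [pow_zero, one_mul]
    exact le_mul_of_one_le_left ((norm_nonneg _).trans (a3 k hk)) (one_le_pow₀ P1)
  | succ i ih =>
    intro hi y hy h1
    have st := h i hi
    have o := isOpen_ball.mem_nhds hy
    obtain ⟨a1, a2, a3⟩ := ih (by omega) _ (st.mem hR hy) (lt_of_le_of_lt (by
      rw [← (hx i hi).2, pow_succ, mul_assoc]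
      exact mul_le_mul_of_nonneg_left (st.lip (hx i hi).1 hy) (by positivity)) h1)
    refine ⟨(st.sA.contDiffAt o).clm_apply (a1.comp y (st.sψ.contDiffAt o)),
      (st.cI y hy _).trans ?_, fun k hk => ?_⟩
    · rw [pow_succ', mul_assoc]
      exact mul_le_mul_of_nonneg_left a2 b0
    obtain ⟨X, hX⟩ : ∃ X, X = (2 * b) ^ i * B := ⟨_, rfl⟩
    rw [← hX] at a3
    have X0 : 0 ≤ X := by simpa using (norm_nonneg _).trans (a3 0 (Nat.zero_le _))
    have P0 : 0 < P := by linarith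
    refine (hl k E E V V (pb ψ A g i) (ψ i) (A i) y _ (P ^ k / P * X) a1 (st.sψ.contDiffAt o)
      (st.sA.contDiffAt o) (st.d1 y hy) (st.nA y hy) (st.dψ y hy) (st.dA y hy) (a3 k hk)
      (by positivity) fun l hlk => (a3 l (by omega)).trans ?_).trans ?_
    · refine mul_le_mul_of_nonneg_right ?_ X0
      rw [le_div_iff₀ P0, ← pow_succ]
      exact pow_le_pow_right₀ P1 hlk
    have a4 : q ^ k ≤ 1 := pow_le_one₀ q0 q1
    have a5 := P2 k hk
    calc _ ≤ b * 1 * (P ^ k * X) + P * (P ^ k / P * X) := by gcongr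
      _ = b * (P ^ k * X) + 1 * (P ^ k * X) := by field_simp
      _ ≤ b * (P ^ k * X) + b * (P ^ k * X) := by gcongr
      _ = _ := by rw [hX]; ring

/-- NR for a system in which every good point has a step coming from a plaque `ι z'` -/
theorem nr [FiniteDimensional ℝ E] [CompleteSpace V] (ι : Z0 → Z) (P : Z → E → Prop)
    (hG : Gap R R' fun z => I (ι z)) (hR0 : 0 ≤ R') (hR : R' < R) (q0 : 0 ≤ q) (q1 : q < 1)
    (hb : 1 ≤ b) (hB : ∀ z x, P z x → ∃ z' ψ A x', Stp R R' q b c I (ι z') z ψ A ∧ ‖x'‖ ≤ R' ∧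
      ψ x' = x ∧ P (ι z') x') :
    ∃ a : ℕ, ∀ L : ℕ, ∃ (N : ℕ) (C : ℝ), 0 < C ∧ ∀ z x, P z x → ∀ (g : E → V) (ρ s B t : ℝ),
      0 < ρ → ρ ≤ 1 → 0 < t → t ≤ 1 →
      (∀ y ∈ ball (0 : E) R, ‖y - x‖ < ρ → ContDiffAt ℝ ∞ g y ∧ ‖I z y (g y)‖ ≤ s ∧
        ∀ k ≤ N, ‖iteratedFDeriv ℝ k g y‖ ≤ B) →
      ‖g x‖ ≤ C / ρ ^ a * (s / t + t ^ L * B) := by
  obtain ⟨p, hp⟩ : ∃ p, p = 2 * b ^ 2 := ⟨_, rfl⟩
  have b0 : 0 < b := by linarith
  have b2 : 1 ≤ b ^ 2 := one_le_pow₀ hb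
  have p1 : 1 < p := by linarith
  have p0 : 0 < p := by linarith
  obtain ⟨a, ha⟩ := exists_pow_lt_of_lt_one (show 0 < 1 / p by positivity) q1
  refine ⟨a, fun L => ?_⟩
  obtain ⟨N, C, hC, h1⟩ := core (c := c) hG hR0 hR q0 q1 hb (β := (p⁻¹) ^ L) (by positivity)
    (pow_le_one₀ (by positivity) (inv_le_one_of_one_le₀ p1.le))
  obtain ⟨K, K1, h2⟩ := crude (I := I) c hR q0 q1.le hb N
  refine ⟨N, p * (1 + 2 * R) ^ a * (C + K * p ^ L), by have := hR0.trans hR.le; positivity,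
    fun z x hP g ρ s B t ρ0 ρ1 t0 t1 hg => ?_⟩
  choose nz nψ nA nx hs hn he hP' using hB
  let o : ℕ → {u : Z × E // P u.1 u.2} := fun i => Nat.rec ⟨(z, x), hP⟩
    (fun _ u => ⟨(ι (nz _ _ u.2), nx _ _ u.2), hP' _ _ u.2⟩) i
  have st : ∀ i, Stp R R' q b c I (o (i + 1)).1.1 (o i).1.1 (nψ _ _ (o i).2) (nA _ _ (o i).2) :=
    fun i => hs _ _ (o i).2
  have xn : ∀ i, ‖(o (i + 1)).1.2‖ ≤ R' := fun i => hn _ _ (o i).2
  have xe : ∀ i, (o (i + 1)).1.2 ∈ ball (0 : E) R ∧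
      nψ _ _ (o i).2 (o (i + 1)).1.2 = (o i).1.2 :=
    fun i => ⟨mem_ball_zero_iff.2 ((xn i).trans_lt hR), he _ _ (o i).2⟩
  have R0 : 0 < R := hR0.trans_lt hR
  have ex : ∃ n : ℕ, q ^ (n + 1) * (1 + 2 * R) < ρ := by
    obtain ⟨n, hn⟩ := exists_pow_lt_of_lt_one (show 0 < ρ / (1 + 2 * R) by positivity) q1
    exact ⟨n, (lt_div_iff₀ (by positivity)).1
      ((pow_le_pow_of_le_one q0 q1.le (Nat.le_succ n)).trans_lt hn)⟩
  classical
  obtain ⟨n, n1, n2⟩ : ∃ n : ℕ, q ^ (n + 1) * (1 + 2 * R) < ρ ∧ ρ ≤ q ^ n * (1 + 2 * R) := by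
    refine ⟨Nat.find ex, Nat.find_spec ex, ?_⟩
    cases hn : Nat.find ex with
    | zero => rw [pow_zero]; linarith
    | succ m => exact not_lt.1 (Nat.find_min ex (m := m) (by omega))
  obtain ⟨T, T1, T2⟩ := exists_nat_pow_near (x := 1 / t) ((one_le_div t0).2 t1) p1
  have cr := fun y (hy : y ∈ ball (0 : E) R) => h2 (n + 1) (fun i => (o i).1.1)
    (fun i => nψ _ _ (o i).2) (fun i => nA _ _ (o i).2) g (fun i => (o i).1.2) ρ s B
    (fun i _ => st i) (fun i _ => xe i) hg (n + 1) le_rfl y hy (lt_of_le_of_lt (by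
      refine mul_le_mul_of_nonneg_left ((norm_sub_le _ _).trans ?_) (by positivity)
      linarith [mem_ball_zero_iff.1 hy, xn n]) n1)
  have co := h1 T (fun i => nz _ _ (o (n + i)).2) (fun i => nψ _ _ (o (n + i + 1)).2)
    (fun i => nA _ _ (o (n + i + 1)).2) _ (fun i => (o (n + i + 1)).1.2) _ _
    (fun i _ => let h := st (n + i + 1)
      ⟨h.sψ, h.sA, h.mp, h.d1, h.dψ, h.dA, h.nA, h.iA, h.cI⟩)
    (fun i _ => xe (n + i + 1)) (xn _) (fun y hy => (cr y hy).1.contDiffWithinAt)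
    (fun y hy => (cr y hy).2.1) fun k hk y hy => (cr y hy).2.2 k hk
  have lo := pb_low b0.le (T := n + 1) (z := fun i => (o i).1.1) (fun i _ => st i) g
    (x := fun i => (o i).1.2) (fun i _ => xe i) (n + 1) le_rfl
  have z0 := cr 0 (mem_ball_self R0)
  have s0 : 0 ≤ s := nonneg_of_mul_nonneg_right ((norm_nonneg _).trans z0.2.1) (by positivity)
  have B0 : 0 ≤ B := nonneg_of_mul_nonneg_right
    ((norm_nonneg _).trans (z0.2.2 0 (Nat.zero_le _))) (by positivity)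
  have a1 : (b ^ 2) ^ T ≤ 1 / t := (pow_le_pow_left₀ (by positivity) (by linarith) T).trans T1
  have a2 : (p⁻¹ ^ L) ^ T ≤ p ^ L * t ^ L := by
    rw [← pow_mul, mul_comm, pow_mul, ← mul_pow]
    refine pow_le_pow_left₀ (by positivity) ?_ L
    rw [div_lt_iff₀ t0, pow_succ] at T2
    rw [inv_pow, inv_le_iff_one_le_mul₀ (by positivity)]
    linarith
  have a3 : p ^ (n + 1) ≤ p * (1 + 2 * R) ^ a / ρ ^ a := by
    rw [le_div_iff₀ (by positivity)]
    have : (p * q ^ a) ^ n ≤ 1 := pow_le_one₀ (by positivity) ((le_div_iff₀' p0).1 ha.le)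
    calc _ ≤ p ^ (n + 1) * (q ^ n * (1 + 2 * R)) ^ a := by gcongr
      _ = p * (1 + 2 * R) ^ a * (p * q ^ a) ^ n := by rw [mul_pow, mul_pow]; ring
      _ ≤ _ := mul_le_of_le_one_right (by positivity) this
  have a4 : b ^ (n + 1) * b ^ (n + 1) ≤ p ^ (n + 1) := by
    rw [← mul_pow]
    exact pow_le_pow_left₀ (by positivity) (by linarith) _
  have a5 : b ^ (n + 1) * (2 * b) ^ (n + 1) = p ^ (n + 1) := by rw [← mul_pow, hp]; ring
  calc ‖g x‖ ≤ b ^ (n + 1) * (C * (1 / t) * (b ^ (n + 1) * s) +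
        p ^ L * t ^ L * (K * (2 * b) ^ (n + 1) * B)) := by
        refine lo.trans (mul_le_mul_of_nonneg_left (co.trans ?_) (by positivity))
        gcongr
    _ = b ^ (n + 1) * b ^ (n + 1) * (C * (s / t)) +
        b ^ (n + 1) * (2 * b) ^ (n + 1) * (K * p ^ L * (t ^ L * B)) := by ring
    _ ≤ p ^ (n + 1) * ((C + K * p ^ L) * (s / t)) +
        p ^ (n + 1) * ((C + K * p ^ L) * (t ^ L * B)) := by
        rw [a5]
        gcongr
        · exact le_add_of_nonneg_right (by positivity)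
        · exact le_add_of_nonneg_left hC.le
    _ = p ^ (n + 1) * ((C + K * p ^ L) * (s / t + t ^ L * B)) := by ring
    _ ≤ p * (1 + 2 * R) ^ a / ρ ^ a * ((C + K * p ^ L) * (s / t + t ^ L * B)) := by gcongr
    _ = _ := by ring

end Crest.Agent.N221.G0.Nr
end

-- ▼ part N221/G0/Nr3
section

/-! Row 221, block G0/NR (helper54): NR on the abstract system. -/

set_option autoImplicit false

open Set Metric Filter
open scoped ContDiff Topology

noncomputable section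

namespace Crest.Agent.N221.G0

namespace Sy

open Nr

variable {E W : Type} [NormedAddCommGroup E] [NormedSpace ℝ E] [NormedAddCommGroup W]
  [NormedSpace ℝ W] {S : Sy E W}

lemma Ok.RR (h : S.Ok) : 8 * S.R ≤ S.R0 := by nlinarith [h.RR0, h.b01, h.Rp]

/-- jets of the parametrisation of a plaque -/
lemma Ok.pt_jetN (h : S.Ok) (i : Bool) (f : S.F) {z : E × E} (hz : ‖z‖ < S.R0) {y : E}
    (hy : y ∈ ball (0 : E) S.R0) : ContDiffAt ℝ ∞ (S.pt i f z) y ∧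
      ∀ k, 1 ≤ k → ‖iteratedFDeriv ℝ k (S.pt i f z) y‖ ≤ S.c k := by
  have hg := h.g_jet i f z hz y hy
  refine ⟨contDiffAt_id.prodMk hg.1, fun k hk => ?_⟩
  have := iteratedFDeriv_prodMk (𝕜 := ℝ) (f := fun y : E => y) (g := S.g i f z) (x := y) (i := k)
    (n := k) contDiffAt_id (cda hg.1 k) le_rfl
  rw [show S.pt i f z = fun y => (y, S.g i f z y) from rfl, this,
    ContinuousMultilinearMap.opNorm_prod]
  refine max_le (le_trans ?_ (h.c1 k)) (hg.2 k)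
  obtain ⟨j, rfl⟩ : ∃ j, k = j + 1 := ⟨k - 1, by omega⟩
  rw [← norm_iteratedFDeriv_fderiv, show (fderiv ℝ fun y : E => y) =
    fun _ => ContinuousLinearMap.id ℝ E from funext fun _ => fderiv_fun_id]
  cases j with
  | zero => rw [norm_iteratedFDeriv_zero]; exact ContinuousLinearMap.norm_id_le
  | succ j => rw [iteratedFDeriv_const_of_ne (by omega)]; simp

/-- a step of the system acts on forms -/
theorem Ok.stp [FiniteDimensional ℝ W] (h : S.Ok) (n : ℕ) : ∃ c : ℕ → ℝ,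
    ∀ {f z f' z' φ A} {R' : ℝ}, S.St false f z f' z' φ A →
      (∀ y ∈ ball (0 : E) S.R, ‖S.lf false f z φ y‖ ≤ R') →
      Stp S.R R' S.q (S.b ^ (n + 1)) c (fun (u : S.F × (E × E)) y => S.io n u.1 (S.pt false u.1 u.2 y)) (f, z) (f', z')
        (S.lf false f z φ) fun y => pbk (n + 1) (A (S.pt false f z y)) := by
  obtain ⟨c1, h1⟩ := uj_comp S.c S.c
  obtain ⟨c2, h2⟩ := pbk_jet (W := W) (n + 1) c1
  refine ⟨fun k => max (S.c k) (c2 k), fun {f z f' z' φ A R'} st hm => ?_⟩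
  have b0 : 0 < S.b := by linarith [h.b1]
  have am := fun y hy => st.am y hy _ (mem_ball_self h.r0p)
  have hj : ∀ y ∈ ball (0 : E) S.R, UJ c2 (fun y => pbk (n + 1) (A (S.pt false f z y))) y :=
    fun y hy => by
      have a := h.pt_jetN false f st.lab (ball_subset_ball (by linarith [h.RR, h.Rp]) hy)
      exact h2 _ _ _ (h1 _ _ _ A _ y (am y hy).jA a.1 a.2)
  refine ⟨fun y hy => (st.jl y hy).1.contDiffWithinAt, fun y hy => (hj y hy).1.contDiffWithinAt,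
    hm, st.con, fun y hy k _ => ((st.jl y hy).2 k).trans (le_max_left _ _),
    fun y hy k _ => ((hj y hy).2 k).trans (le_max_right _ _),
    fun y hy => (norm_pbk_le _).trans (pow_le_pow_left₀ (norm_nonneg _) (am y hy).nA _),
    fun y hy => pbk_floor b0.le (am y hy).iA, fun y hy v => ?_⟩
  obtain ⟨t, -, t2, t3⟩ := (am y hy).eqv
  simp only [io]
  rw [ioW_pbk, t3, st.gr y hy, map_smul, smul_apply]
  refine (norm_pbk_apply_le _ _).trans ?_
  rw [norm_smul, pow_succ, mul_assoc]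
  gcongr
  · exact (am y hy).nA
  · exact t2

lemma St.lf_le (h : S.Ok) {i f z f' z' φ A} (st : S.St i f z f' z' φ A) {y : E}
    (hy : y ∈ ball (0 : E) S.R) : ‖S.lf i f z φ y‖ ≤ ‖S.lf i f z φ 0‖ + S.R / 6 := by
  have a := (convex_ball _ _).norm_image_sub_le_of_norm_fderiv_le
    (fun u hu => (st.jl u hu).1.differentiableAt (by simp)) st.con (mem_ball_self h.Rp) hy
  rw [sub_zero] at a
  have := mul_le_mul h.q6 (mem_ball_zero_iff.1 hy).le (norm_nonneg _) (by norm_num)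
  linarith [norm_le_norm_add_norm_sub' (S.lf i f z φ y) (S.lf i f z φ 0)]

/-- NR: quantitative absence of relations of degree `n + 1`, on any small ball of any leaf -/
theorem Ok.nr [FiniteDimensional ℝ E] [FiniteDimensional ℝ W] (h : S.Ok) {n : ℕ} (hG : S.Gap n) :
    ∃ a : ℕ, ∀ L : ℕ, ∃ (N : ℕ) (C : ℝ), 0 < C ∧ ∀ (f : S.F) (z : E × E), ‖z‖ ≤ S.R / 2 →
      ∀ (Ψ : E → Vf W (n + 1)) (ρ s B t : ℝ), 0 < ρ → ρ ≤ 1 → 0 < t → t ≤ 1 →
      (∀ y ∈ ball (0 : E) S.R, ‖y - z.1‖ < ρ → ContDiffAt ℝ ∞ Ψ y ∧ ‖S.io n f (S.pt false f z y) (Ψ y)‖ ≤ s ∧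
        ∀ k ≤ N, ‖iteratedFDeriv ℝ k Ψ y‖ ≤ B) →
      ‖Ψ z.1‖ ≤ C / ρ ^ a * (s / t + t ^ L * B) := by
  have : CompleteSpace (Vf W (n + 1)) := FiniteDimensional.complete ℝ _
  obtain ⟨c, hc⟩ := h.stp n
  have R0 := h.Rp
  obtain ⟨a, ha⟩ := Nr.nr 
    (I := fun (u : S.F × (E × E)) y => S.io n u.1 (S.pt false u.1 u.2 y)) (c := c) (fun f => (f, 0))
    (fun u x => ‖u.2‖ ≤ S.R / 2 ∧ x = u.2.1) hG (by linarith) (by linarith) h.qp.le
    (by linarith [h.q6]) (one_le_pow₀ (n := n + 1) h.b1) fun u x hu => by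
      obtain ⟨f', φ, A, st, e⟩ := h.bwd false u.1 u.2 (by linarith [norm_fst_le u.2, hu.1])
        (by nlinarith [norm_snd_le u.2, hu.1, h.b01])
      have e0 : S.lf false f' 0 φ 0 = u.2.1 := by rw [lf, h.pt_zero, e]
      refine ⟨f', _, _, 0, hc st fun y hy => ?_, by rw [norm_zero]; linarith, e0.trans hu.2.symm,
        by rw [norm_zero]; linarith, rfl⟩
      have := st.lf_le h hy
      rw [e0] at this
      linarith [norm_fst_le u.2, hu.1]
  refine ⟨a, fun L => ?_⟩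
  obtain ⟨N, C, hC, hN⟩ := ha L
  exact ⟨N, C, hC, fun f z hz => hN (f, z) z.1 ⟨hz, rfl⟩⟩

/-- no exact smooth relation of degree `n + 1` -/
theorem Ok.nr0 [FiniteDimensional ℝ E] [FiniteDimensional ℝ W] (h : S.Ok) {n : ℕ} (hG : S.Gap n)
    (f : S.F) {z : E × E} (hz : ‖z‖ ≤ S.R / 2) {Ψ : E → Vf W (n + 1)}
    (hΨ : ∀ᶠ y in 𝓝 z.1, ContDiffAt ℝ ∞ Ψ y ∧ S.io n f (S.pt false f z y) (Ψ y) = 0) : Ψ z.1 = 0 := by
  have : ProperSpace E := FiniteDimensional.proper ℝ E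
  obtain ⟨a, ha⟩ := h.nr hG
  obtain ⟨N, C, hC, hN⟩ := ha 1
  obtain ⟨ε, ε0, hε⟩ := Metric.nhds_basis_closedBall.eventually_iff.1 hΨ
  have hb := fun k : ℕ => (isCompact_closedBall z.1 ε).exists_bound_of_continuousOn
    (f := iteratedFDeriv ℝ k Ψ) fun y hy =>
      ((hε hy).1.continuousAt_iteratedFDeriv (k := k)
        (by exact_mod_cast le_top)).continuousWithinAt
  choose D hD using hb
  obtain ⟨B, B1, B2⟩ := cbound D N
  have key := fun t t0 t1 => hN f z hz Ψ (min ε 1) 0 B t (by positivity) (min_le_right _ _) t0 t1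
    fun y _ hy => by
      have hy' : y ∈ closedBall z.1 ε :=
        mem_closedBall_iff_norm.2 (hy.le.trans (min_le_left _ _))
      exact ⟨(hε hy').1, by rw [(hε hy').2, norm_zero], fun k hk => (hD k y hy').trans (B2 k hk)⟩
  refine norm_le_zero_iff.1 (ge_of_tendsto (f := fun t : ℝ => C / min ε 1 ^ a * (0 / t + t ^ 1 * B))
    (x := 𝓝[>] 0) ?_ ?_)
  · refine tendsto_nhdsWithin_of_tendsto_nhds ?_
    simp only [zero_div, zero_add]
    exact Continuous.tendsto' (by fun_prop) _ _ (by simp)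
  · filter_upwards [Ioc_mem_nhdsGT one_pos] with t ht using key t ht.1 ht.2

end Sy

theorem nrS : NrS := by
  intro E W _ _ _ _ _ _ S h n hG
  obtain ⟨a, ha⟩ := h.nr hG
  obtain ⟨N, C, hC, hN⟩ := ha 1
  refine ⟨N, a + 1, 1 / 2, 2 * C + 1, by norm_num, fun f z Ψ ρ ε B r => ?_⟩
  have ρ0 := r.pos
  have B1 := r.one
  have zz := mem_ball_self (x := z.1) ρ0
  have e0 := (norm_nonneg _).trans (r.df _ zz)
  have q1 : 1 ≤ B / ρ := (one_le_div ρ0).2 (r.le.trans B1)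
  have hB : B ≤ (B / ρ) ^ (a + 1) :=
    ((le_div_iff₀ ρ0).2 (mul_le_of_le_one_right (by linarith) r.le)).trans
      (le_self_pow₀ q1 (by omega))
  have hyp : ∀ y ∈ ball (0 : E) S.R, ‖y - z.1‖ < ρ → ContDiffAt ℝ ∞ Ψ y ∧
      ‖S.io n f (S.pt false f z y) (Ψ y)‖ ≤ ε ∧ ∀ k ≤ N, ‖iteratedFDeriv ℝ k Ψ y‖ ≤ B :=
    fun y _ hy =>
      have hy' := mem_ball_iff_norm.2 hy
      ⟨r.sm.contDiffAt (isOpen_ball.mem_nhds hy'), r.df y hy', r.bd y hy'⟩
  rw [← Real.sqrt_eq_rpow]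
  rcases e0.eq_or_lt with rfl | e1
  · rw [h.nr0 hG f r.mem (Ψ := Ψ) (by
      filter_upwards [ball_mem_nhds z.1 ρ0] with y hy
      exact ⟨r.sm.contDiffAt (isOpen_ball.mem_nhds hy), norm_le_zero_iff.1 (r.df y hy)⟩)]
    simp
  have s0 := Real.sqrt_pos.2 e1
  rcases le_total ε 1 with e2 | e2
  · refine (hN f z r.mem Ψ ρ ε B (√ε) ρ0 r.le s0 (Real.sqrt_le_one.2 e2) hyp).trans ?_
    rw [Real.div_sqrt, pow_one]
    have a1 : B / ρ ^ a ≤ (B / ρ) ^ (a + 1) := by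
      rw [pow_succ, div_pow, div_eq_mul_one_div B, mul_comm]
      refine mul_le_mul (by gcongr; exact one_le_pow₀ B1)
        ((le_div_iff₀ ρ0).2 (mul_le_of_le_one_right (by linarith) r.le)) (by linarith)
        (by positivity)
    calc _ ≤ C / ρ ^ a * (√ε * B + √ε * B) := by
          gcongr
          exact le_mul_of_one_le_right s0.le B1
      _ = 2 * C * (B / ρ ^ a) * √ε := by ring
      _ ≤ _ := by gcongr; linarith
  · have a1 := r.bd _ zz 0 (Nat.zero_le _)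
    rw [norm_iteratedFDeriv_zero] at a1
    calc _ ≤ 1 * (B / ρ) ^ (a + 1) * 1 := by linarith
      _ ≤ _ := by gcongr; linarith; exact Real.one_le_sqrt.2 e2

end Crest.Agent.N221.G0
end
end

-- ▼ part N221/G0/Uq
section

/-! Row 221, block G0 (helper47): `uqS : UqS`. -/

set_option autoImplicit false

open Set Metric
open scoped ContDiff

namespace Crest.Agent.N221.G0

theorem uqS : UqS := by
  rintro E W _ _ _ _ _ _ S _ n ⟨N, a, θ, C, hθ, H⟩
  refine ⟨N, 2 * a + ⌈θ⌉₊ + (n + 2), θ, hθ, 2 ^ (n + 4) * (n + 2) ^ (n + 1) *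
    (|C| * ((n + 2) * 2 ^ N) ^ a * (n + 2) ^ ⌈θ⌉₊), fun f z Θ Θ' ρ ε B h h' ψ hψ => ?_⟩
  have hρ := h.pos
  have hB := h.one
  have ε0 : 0 ≤ ε := (norm_nonneg _).trans (h.df _ (mem_ball_self hρ))
  have n0 : (0 : ℝ) ≤ n := n.cast_nonneg
  have b1 : 1 ≤ (n + 2) * (2 ^ N * (B * B)) := one_le_mul_of_one_le_of_one_le (by linarith)
    (one_le_mul_of_one_le_of_one_le (one_le_pow₀ one_le_two) (one_le_mul_of_one_le_of_one_le hB hB))
  have := Uq.minor (n := n) (N := N) (m := fun y => S.M f (S.pt false f z y)) (ε := ε) hρ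
    (fun Ψ hΨ => H f z Ψ ρ _ _ ⟨h.mem, hρ, h.le, b1, hΨ.sm, hΨ.rel, hΨ.bd⟩) hB
    ⟨h.sm, h.df, h.bd⟩ ⟨h'.sm, h'.df, h'.bd⟩ hψ
  refine this.trans ?_
  have r1 : B ≤ B / ρ := le_div_self (by linarith) hρ h.le
  have r2 : (n + 2) * (2 ^ N * (B * B)) / ρ ≤ (n + 2) * 2 ^ N * (B / ρ) ^ 2 := by
    have : B * (B / ρ) ≤ B / ρ * (B / ρ) := by gcongr
    calc _ = (n + 2) * 2 ^ N * (B * (B / ρ)) := by ring
      _ ≤ (n + 2) * 2 ^ N * (B / ρ * (B / ρ)) := by gcongr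
      _ = _ := by ring
  have r3 : ((n + 2) * B * ε) ^ θ ≤ ((n + 2) * (B / ρ)) ^ ⌈θ⌉₊ * ε ^ θ := by
    rw [Real.mul_rpow (by positivity) ε0]
    refine mul_le_mul_of_nonneg_right ?_ (by positivity)
    calc _ ≤ ((n + 2) * B) ^ (⌈θ⌉₊ : ℝ) := Real.rpow_le_rpow_of_exponent_le
          (one_le_mul_of_one_le_of_one_le (by linarith) hB) (Nat.le_ceil θ)
      _ = ((n + 2) * B) ^ ⌈θ⌉₊ := Real.rpow_natCast _ _
      _ ≤ _ := by gcongr
  calc _ ≤ 2 ^ (n + 3) * (((n + 2) * (B / ρ)) ^ (n + 1) * (2 * (B / ρ) *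
        (|C| * ((n + 2) * 2 ^ N * (B / ρ) ^ 2) ^ a * (((n + 2) * (B / ρ)) ^ ⌈θ⌉₊ * ε ^ θ)))) := by
        have := le_abs_self C
        refine mul_le_mul_of_nonneg_left (mul_le_mul (by gcongr) ?_ ?_ (by positivity))
          (by positivity)
        · calc _ ≤ 2 * B * (|C| * ((n + 2) * (2 ^ N * (B * B)) / ρ) ^ a * ((n + 2) * B * ε) ^ θ) := by
                gcongr
            _ ≤ _ := by gcongr
        · have h0 := (norm_nonneg _).trans (H f z 0 ρ ((n + 2) * B * ε) _ ⟨h.mem, hρ, h.le, b1,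
            contDiffOn_const, fun y _ => by simpa using by positivity, fun y _ i _ => by
              rw [show (0 : E → Vf W (n + 1 + 1)) = fun _ => 0 from rfl, iteratedFDeriv_fun_zero]
              simpa using zero_le_one.trans b1⟩)
          positivity
    _ = _ := by rw [mul_pow, mul_pow, mul_pow _ (B / ρ), ← pow_mul]; generalize B / ρ = x; ring

end Crest.Agent.N221.G0
end

-- ▼ part N221/G0/Mx
section

/-! Row 221, block G0 (helper93): maximality `mxS : MxS`. -/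

set_option autoImplicit false

open Set Metric Filter Topology Function
open scoped ContDiff

noncomputable section

namespace Crest.Agent.N221.G0

variable {E W : Type} [NormedAddCommGroup E] [NormedSpace ℝ E] [FiniteDimensional ℝ E]
  [NormedAddCommGroup W] [NormedSpace ℝ W] {S : Sy E W}

/-- `NR` with `ε = 0`: the germ of an exact relation vanishes -/
lemma Sy.NR.exact {n : ℕ} (h : S.NR n) {f : S.F} {z : E × E} (hz : ‖z‖ ≤ S.R / 2)
    {Ψ : E → Vf W (n + 1)} (hΨ : ∀ᶠ y in 𝓝 z.1, ContDiffAt ℝ ∞ Ψ y ∧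
      S.io n f (S.pt false f z y) (Ψ y) = 0) : Ψ z.1 = 0 := by
  obtain ⟨N, a, θ, C, hθ, h⟩ := h
  obtain ⟨ρ, hρ, hb⟩ := Metric.eventually_nhds_iff_ball.1 hΨ
  have := FiniteDimensional.proper_real E
  have h1 : ContDiffOn ℝ ∞ Ψ (ball z.1 ρ) := fun y hy => (hb y hy).1.contDiffWithinAt
  have h2 : ball z.1 (min (ρ / 2) 1) ⊆ closedBall z.1 (ρ / 2) :=
    ball_subset_closedBall.trans (closedBall_subset_closedBall (min_le_left _ _))
  have h3 : closedBall z.1 (ρ / 2) ⊆ ball z.1 ρ := closedBall_subset_ball (by linarith)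
  obtain ⟨B, hB, hbd⟩ := (Ex.UB.of_compact (ι := Unit) (U := fun _ => ball z.1 (min (ρ / 2) 1))
    isOpen_ball h1 (isCompact_closedBall _ _) h3 (fun _ => isOpen_ball) fun _ => h2).bdn N
  have := h f z Ψ _ 0 B ⟨hz, by positivity, min_le_right _ _, hB, h1.mono (h2.trans h3),
    fun y hy => by rw [(hb y (h3 (h2 hy))).2, norm_zero], fun y hy i hi => hbd i hi () y hy⟩
  rwa [Real.zero_rpow hθ.ne', mul_zero, norm_le_zero_iff] at this

omit [FiniteDimensional ℝ E] in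
lemma Sy.Ok.r2_le (h : S.Ok) : S.r2 ≤ S.R / 2 := by
  have := h.b01; have := h.r1p; have := h.r1R
  rw [Sy.r2, div_le_iff₀ (by positivity)]
  nlinarith [mul_nonneg (sub_nonneg.2 h.b01) (show 0 ≤ S.R by nlinarith)]

theorem mxS : MxS := by
  rintro E W _ _ _ _ _ _ S hS n f ψ hN ⟨U, w, hU, ⟨z0, hz0⟩, hsub, hw, hD⟩
  have h0 : ∀ z ∈ U, Uq.io n (S.M f z) (w z) = 0 := fun z hz => congrArg Prod.fst (hD z hz)
  have h1 : w z0 ≠ 0 := fun e => by
    have : ψ (w z0) = 1 := congrArg Prod.snd (hD z0 hz0)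
    simp [e] at this
  obtain ⟨e, he, h2⟩ := Uq.exists_tuple (w z0)
  have hR : U ⊆ ball 0 (S.R / 2) := hsub.trans (ball_subset_ball hS.r2_le)
  let Δ : Vf W (n + 1) →L[ℝ] W →L[ℝ] EuclideanSpace ℝ (Fin (n + 1)) :=
    ∑ k, ((ContinuousLinearMap.smulRightL ℝ W _).flip (EuclideanSpace.single k 1)).comp (Uq.lam e k)
  have hΔ : ∀ Θ v k, Δ Θ v k = Θ (update e k v) := fun Θ v k => by
    simp [Δ, Pi.single_apply]
  refine ⟨f, U ∩ (fun z => Uq.ev e (w z)) ⁻¹' {0}ᶜ, n + 1, fun z => Δ (w z),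
    ((Uq.ev e).continuous.comp_continuousOn hw.continuousOn).isOpen_inter_preimage hU
      isOpen_compl_singleton, ⟨z0, hz0, fun h => h1 ?_⟩, inter_subset_left.trans hR,
    (Δ.contDiff.comp_contDiffOn hw).mono inter_subset_left, fun z hz => ?_,
    fun z hz θ hθ v hv => ?_⟩
  · have : w z0 e = 0 := h
    rwa [this, abs_zero, mul_zero, norm_le_zero_iff] at h2
  · ext k
    have := Uq.lam_io he k (w z) (S.M f z)
    rw [h0 z hz.1, norm_zero, abs_nonpos_iff] at this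
    rw [hΔ]; exact this
  · have hz1 : ‖z‖ < S.R / 2 := mem_ball_zero_iff.1 (hR hz.1)
    have hR0 : S.R / 2 ≤ S.R0 := by
      have := hS.RR0; have := hS.r0p.le.trans hS.r0R
      nlinarith [mul_nonneg (sub_nonneg.2 hS.b01) this]
    have hz2 : ‖z‖ < S.R0 := hz1.trans_le hR0
    have e0 : S.pt false f z z.1 = z := Prod.ext rfl (hS.g_self false f z hz2)
    have hp : ∀ᶠ y in 𝓝 z.1, ContDiffAt ℝ ∞ (S.pt false f z) y := by
      filter_upwards [isOpen_ball.mem_nhds (mem_ball_zero_iff.2 ((norm_fst_le z).trans_lt hz2))]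
        with y hy using contDiffAt_id.prodMk (hS.g_jet false f z hz2 y hy).1
    have hU' : ∀ᶠ y in 𝓝 z.1, S.pt false f z y ∈ U :=
      hp.self_of_nhds.continuousAt.eventually (by rw [e0]; exact hU.mem_nhds hz.1)
    have := hN.exact hz1.le (Ψ := fun y => Uq.wg (n + 1) (θ y) (w (S.pt false f z y))) (f := f) (by
      filter_upwards [hθ, hp, hU'] with y a b c
      refine ⟨(contDiffAt_const.clm_apply a.1).clm_apply
        ((hw.contDiffAt (hU.mem_nhds c)).comp y b), ?_⟩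
      have := Uq.io_wg (θ y) (w (S.pt false f z y)) (S.M f (S.pt false f z y))
      rw [a.2, h0 _ c, abs_zero, norm_zero, zero_mul, mul_zero, mul_zero, add_zero,
        norm_le_zero_iff] at this
      exact this)
    have h3 := Uq.wg_cons (θ z.1) (w z) v e
    rw [e0] at this
    rw [this, Finset.sum_eq_zero fun i _ => by rw [← hΔ, hv]; simp, sub_zero] at h3
    exact (mul_eq_zero.1 h3.symm).resolve_right hz.2

end Crest.Agent.N221.G0
end
end

-- ▼ part N221/G0/Sm3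

/-! Row 221, block G0: the start of the ladder (`StS`, helper43). -/

set_option autoImplicit false

open Set Metric Filter Topology
open scoped ContDiff

noncomputable section

namespace Crest.Agent.N221.G0

namespace St

variable {X V : Type} [NormedAddCommGroup X] [NormedSpace ℝ X] [NormedAddCommGroup V]
  [NormedSpace ℝ V]

/-- jets of the inverse on a compact interval -/
lemma gb_inv {ι : Type} (K : ℕ) (B : ℝ) (t : ι → ℝ) (ht : ∀ i, t i ∈ Icc (1 / 2) B) :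
    GB K (fun _ (s : ℝ) => s⁻¹) t (fun _ => 1) (fun _ => 1) := by
  have h : ∀ s ∈ Icc (1 / 2 : ℝ) B, ContDiffAt ℝ ∞ (fun s : ℝ => s⁻¹) s := fun s hs =>
    contDiffAt_inv ℝ (by linarith [hs.1])
  choose c hc using fun k : ℕ => isCompact_Icc.exists_bound_of_continuousOn
    (f := iteratedFDeriv ℝ k fun s : ℝ => s⁻¹) fun s hs =>
      ((cda (h s hs) k).continuousAt_iteratedFDeriv le_rfl).continuousWithinAt
  refine ⟨fun i => h _ (ht i), fun _ => le_rfl, 1 + ∑ k ∈ Finset.range (K + 1), |c k|, by positivity,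
    fun i k hk => (hc k _ (ht i)).trans ?_⟩
  have := Finset.single_le_sum (f := fun k => |c k|) (fun _ _ => abs_nonneg _)
    (Finset.mem_range.2 (Nat.lt_succ_of_le hk))
  rw [one_pow, mul_one, mul_one]
  linarith [le_abs_self (c k)]

/-- jets of the normalised source -/
lemma jets (K : ℕ) (C : ℕ → ℝ) (hC : ∀ i, 1 ≤ C i) (ψ : V →L[ℝ] ℝ) (hψ : ‖ψ‖ ≤ 1) :
    ∃ C' : ℝ, 0 < C' ∧ ∀ (ρ : ℝ) (Q : X → V) (y : X), 0 < ρ → ρ ≤ 1 → ContDiff ℝ ∞ Q →
      (∀ i, ‖iteratedFDeriv ℝ i Q y‖ ≤ C i / ρ ^ i) → 1 / 2 ≤ ψ (Q y) →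
      ∀ i ≤ K, ‖iteratedFDeriv ℝ i (fun y => (ψ (Q y))⁻¹ • Q y) y‖ ≤ C' / ρ ^ i := by
  let ι := {p : ℝ × (X → V) × X // 0 < p.1 ∧ p.1 ≤ 1 ∧ ContDiff ℝ ∞ p.2.1 ∧
    (∀ i, ‖iteratedFDeriv ℝ i p.2.1 p.2.2‖ ≤ C i / p.1 ^ i) ∧ 1 / 2 ≤ ψ (p.2.1 p.2.2)}
  have h1 : GB K (fun p : ι => p.1.2.1) (fun p => p.1.2.2) (fun _ => 1) (fun p => p.1.1⁻¹) := by
    refine ⟨fun p => p.2.2.2.1.contDiffAt, fun p => (one_le_inv₀ p.2.1).2 p.2.2.1,
      1 + ∑ k ∈ Finset.range (K + 1), C k, ?_, fun p k hk => (p.2.2.2.2.1 k).trans ?_⟩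
    · exact add_pos_of_pos_of_nonneg one_pos (Finset.sum_nonneg fun k _ => zero_le_one.trans (hC k))
    · have := Finset.single_le_sum (f := C) (fun k _ => zero_le_one.trans (hC k))
        (Finset.mem_range.2 (Nat.lt_succ_of_le hk))
      have := p.2.1
      rw [mul_one, div_eq_mul_inv, inv_pow]
      exact mul_le_mul_of_nonneg_right (by linarith) (by positivity)
  have h2 := (gb_inv K (C 0) (fun p : ι => ψ (p.1.2.1 p.1.2.2)) fun p => ⟨p.2.2.2.2.2, by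
    have h := p.2.2.2.2.1 0
    rw [norm_iteratedFDeriv_zero, pow_zero, div_one] at h
    exact (le_abs_self _).trans ((ψ.le_of_opNorm_le hψ _).trans (by rwa [one_mul]))⟩).comp'
      (h1.clm ψ) fun _ => rfl
  obtain ⟨c, hc, hb⟩ := ((h2.mono le_rfl (fun _ => le_rfl) fun _ => (one_mul _).le).fsmul h1).bd
  refine ⟨c, hc, fun ρ Q y h0 h1 hQ hj hy i hi => ?_⟩
  simpa [div_eq_mul_inv] using hb ⟨(ρ, Q, y), h0, h1, hQ, hj, hy⟩ i hi

end St

theorem stS : StS := by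
  intro E W _ _ _ _ _ _ S hS n f hs K
  obtain ⟨C, ρ₀, hρ₀, hC, h⟩ := hs K
  have hr : ∀ m : ℕ, 0 < ρ₀ / (m + 2) ∧ ρ₀ / (m + 2) < ρ₀ := fun m =>
    ⟨by positivity, div_lt_self hρ₀ (by linarith [(Nat.cast_nonneg m : (0 : ℝ) ≤ m)])⟩
  choose z Q hQ using fun m : ℕ => h _ (hr m).1 (hr m).2
  choose φ hφ1 hφ using fun m => exists_dual_vector'' ℝ (Q m (z m))
  have := FiniteDimensional.proper_real (Vf W (n + 1) →L[ℝ] ℝ)
  obtain ⟨ψ, hψ, σ, hσ, hlim⟩ := (isCompact_closedBall (0 : Vf W (n + 1) →L[ℝ] ℝ) 1).tendsto_subseq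
    (x := φ) fun m => mem_closedBall_zero_iff.2 (hφ1 m)
  have hψ1 := mem_closedBall_zero_iff.1 hψ
  obtain ⟨C', hC', hj⟩ := St.jets (X := E × E) K C hC ψ hψ1
  have c0 := hC 0
  have c1 := hC 1
  have r2 : 0 < S.r2 := by have := hS.r1p; have := hS.b01; unfold Sy.r2; positivity
  refine ⟨ψ, hψ1, C' + 2 * C 0 * (4 * C 1) ^ K, fun ρ1 hρ1 => ?_⟩
  have t1 : Tendsto (fun m => ρ₀ / ((σ m : ℝ) + 2)) atTop (𝓝 0) :=
    tendsto_const_nhds.div_atTop (tendsto_atTop_add_const_right _ _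
      (tendsto_natCast_atTop_atTop.comp hσ.tendsto_atTop))
  obtain ⟨m, m1, m2⟩ := ((t1.eventually (gt_mem_nhds (lt_min (lt_min hρ1 one_pos)
    (div_pos r2 (by linarith : 0 < C 0 + 1))))).and
    (hlim.eventually (ball_mem_nhds ψ (by norm_num : (0 : ℝ) < 1 / 4)))).exists
  obtain ⟨a1, -⟩ := hr (σ m)
  have H := hQ (σ m)
  have hφ' := hφ (σ m)
  rw [Function.comp_apply, dist_eq_norm] at m2
  generalize ρ₀ / ((σ m : ℝ) + 2) = ρ at *
  generalize z (σ m) = z₁ at *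
  generalize Q (σ m) = Q₁ at *
  simp only [lt_min_iff] at m1
  obtain ⟨⟨a2, a3⟩, a4⟩ := m1
  have b1 : ρ / (4 * C 1) ≤ ρ := div_le_self a1.le (by linarith)
  have b0 : 0 < ρ / (4 * C 1) := by positivity
  have sub : ball z₁ (ρ / (4 * C 1)) ⊆ ball z₁ ρ := ball_subset_ball b1
  have low : ∀ y ∈ ball z₁ (ρ / (4 * C 1)), 1 / 2 ≤ ψ (Q₁ y) := fun y hy => by
    have d1 : ‖Q₁ y - Q₁ z₁‖ ≤ C 1 / ρ * ‖y - z₁‖ :=
      (convex_ball z₁ ρ).norm_image_sub_le_of_norm_fderiv_le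
        (fun x _ => H.sm.differentiable (by simp) x)
        (fun x hx => by simpa using H.bd 1 x hx) (mem_ball_self a1) (sub hy)
    have d2 : C 1 / ρ * ‖y - z₁‖ ≤ 1 / 4 := by
      refine (mul_le_mul_of_nonneg_left (mem_ball_iff_norm.1 hy).le (by positivity)).trans_eq ?_
      field_simp
    have d3 := (ψ.le_of_opNorm_le hψ1 (Q₁ y - Q₁ z₁))
    have d4 := (φ (σ m) - ψ).le_of_opNorm_le m2.le (Q₁ z₁)
    rw [map_sub, Real.norm_eq_abs] at d3
    rw [sub_apply, hφ', H.one, Real.norm_eq_abs] at d4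
    simp only [RCLike.ofReal_one] at d4
    linarith [(abs_le.1 d3).1, (abs_le.1 d4).2]
  refine ⟨ρ / (4 * C 1), z₁, fun y => (ψ (Q₁ y))⁻¹ • Q₁ y, b0, b1.trans_lt a2, fun y hy => ?_, ?_,
    fun y hy => ⟨?_, fun i hi => ?_⟩⟩
  · rw [lt_div_iff₀ (by linarith)] at a4
    have := norm_add_le (y - z₁) z₁
    rw [sub_add_cancel] at this
    exact mem_ball_zero_iff.2 (by linarith [mem_ball_iff_norm.1 (sub hy), H.near])
  · exact ((ψ.contDiff.comp H.sm).contDiffOn.inv fun y hy =>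
      (by linarith [low y hy] : 0 < ψ (Q₁ y)).ne').smul H.sm.contDiffOn
  · have p0 : 0 < ψ (Q₁ y) := by linarith [low y hy]
    have e : (S.bx n f ψ).df y ((ψ (Q₁ y))⁻¹ • Q₁ y) = ((ψ (Q₁ y))⁻¹ • S.io n f y (Q₁ y), 0) := by
      simp [L.Box.df, Sy.bx, p0.ne']
    have i2 : (ψ (Q₁ y))⁻¹ ≤ 2 := by
      rw [inv_le_comm₀ p0 two_pos]; linarith [low y hy]
    have e2 : ρ ^ K = (4 * C 1) ^ K * (ρ / (4 * C 1)) ^ K := by
      rw [← mul_pow]; congr 1; field_simp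
    rw [e, Prod.norm_mk, norm_zero, max_eq_left (norm_nonneg _), norm_smul, Real.norm_eq_abs,
      abs_of_pos (inv_pos.2 p0)]
    refine (mul_le_mul i2 (H.rel y (sub hy)) (norm_nonneg _) zero_le_two).trans ?_
    rw [e2]
    nlinarith [mul_pos hC' (pow_pos b0 K)]
  · refine (hj ρ Q₁ y a1 a3.le H.sm (fun i => H.bd i y (sub hy)) (low y hy) i hi).trans ?_
    exact div_le_div₀ (by positivity) (le_add_of_nonneg_right (by positivity)) (pow_pos b0 i)
      (pow_le_pow_left₀ b0.le b1 i)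

end Crest.Agent.N221.G0
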