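import Crest.Agent.N221.G0.Top

/-!
Row 221, block G0 (helper55): THE LINE BOX.  One chart `E × E`, stable graphs `s x`, unstable
graphs `u y`, a contraction `io z : V →L V'`; approximate relations are sections `Θ` with
`io z (Θ z)` small.  `IND` (two relations on a slice are parallel), `SRC` (pull back of the Siegel
source from the future), `NODE` (push forward from the past) give the good leaves of the ladder,
with `w = Θ / ψ Θ`, `O = {ψ Θ ≠ 0}`:  `famS_of : SoS → AprS → FldS → FamS`.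
-/

set_option autoImplicit false

open Set Metric Filter Topology
open scoped ContDiff

noncomputable section

namespace Crest.Agent.N221.G0

open Ex Real

/-- the chart -/
structure LB (E V V' X Y : Type) [NormedAddCommGroup V] [NormedSpace ℝ V]
    [NormedAddCommGroup V'] [NormedSpace ℝ V'] where
  R : ℝ
  r : ℝ
  s : X → E → E
  u : Y → E → E
  io : E × E → V →L[ℝ] V'

/-- the normalised section -/
def nrm {Z V : Type} [NormedAddCommGroup V] [NormedSpace ℝ V] (ψ : V →L[ℝ] ℝ) (Θ : Z → V) (z : Z) :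
    V := (ψ (Θ z))⁻¹ • Θ z

namespace LB

variable {E V V' X Y : Type} [NormedAddCommGroup E] [NormedSpace ℝ E] [NormedAddCommGroup V]
  [NormedSpace ℝ V] [NormedAddCommGroup V'] [NormedSpace ℝ V'] (B : LB E V V' X Y)

/-- the point of the stable graph `x` over `q` -/
def gs (x : X) (q : E) : E × E := (q, B.s x q)

/-- the box of the ladder -/
def bx (ψ : V →L[ℝ] ℝ) : L.Box E E V (V' × ℝ) X Y where
  R := B.R
  Om := ball 0 B.r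
  s := B.s
  u := B.u
  D z := (B.io z).prod ψ
  b _ := (0, 1)

structure Ok : Prop where
  rp : 0 < B.r
  rR : 4 * B.r ≤ B.R
  R1 : B.R ≤ 1
  ubs : UB (fun _ : X => ball (0 : E) B.R) B.s
  ubu : UB (fun _ : Y => ball (0 : E) B.R) B.u
  ubi : UB (fun _ : Y => ball (0 : E) B.R) fun y q => B.io (q, B.u y q)
  cov : ∀ z : E × E, ‖z‖ < 2 * B.r → ∃ x, B.s x z.1 = z.2

/-- approximate relation on the piece of the stable leaf `x` over `ball q ρ` -/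
structure SR (N : ℕ) (x : X) (Θ : E → V) (q : E) (ρ ε b : ℝ) : Prop where
  mem : ‖B.gs x q‖ < 2 * B.r
  pos : 0 < ρ
  le : ρ ≤ 1
  one : 1 ≤ b
  sm : ContDiffOn ℝ ∞ Θ (ball q ρ)
  df : ∀ y ∈ ball q ρ, ‖B.io (B.gs x y) (Θ y)‖ ≤ ε
  bd : ∀ y ∈ ball q ρ, ∀ i ≤ N, ‖iteratedFDeriv ℝ i Θ y‖ ≤ b

/-- two approximate relations are parallel -/
def IND (r N a : ℕ) (θ : ℝ) : Prop := ∃ C : ℝ, ∀ x Θ Θ' q ρ ε b,
  B.SR N x Θ q ρ ε b → B.SR N x Θ' q ρ ε b → ∀ ψ : V →L[ℝ] ℝ, ‖ψ‖ ≤ 1 →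
    ‖Θ q‖ ^ r * ‖ψ (Θ q) • Θ' q - ψ (Θ' q) • Θ q‖ ≤ C * (b / ρ) ^ a * ε ^ θ

/-- an approximate relation on `ball z (e^{-a j})` with crude bounds -/
def Cr (c : ℕ → ℝ) (a K : ℝ) (j : ℕ) (Θ : E × E → V) (z : E × E) : Prop :=
  ∀ y ∈ ball z (exp (-(a * j))), ContDiffAt ℝ ∞ Θ y ∧ ‖B.io y (Θ y)‖ ≤ exp (-(K * j)) ∧
    ∀ k, ‖iteratedFDeriv ℝ k Θ y‖ ≤ c k * exp (a * (k + 1) * j)

/-- the source `Θ` on the tube round the leaf `x` at the point over `q`: the tangential derivatives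
of `Θ` (blow up) and of a dual covector field `l` grow at a rate independent of the order -/
structure So (c : ℕ → ℝ) (a K : ℝ) (j : ℕ) (x : X) (Θ : E × E → V) (l : E → V →L[ℝ] ℝ) (q : E) :
    Prop where
  cr : B.Cr c a K j Θ (B.gs x q)
  sl : ContDiffAt ℝ ∞ l q
  one : l q (Θ (B.gs x q)) = 1
  dl : ∀ k, ‖iteratedFDeriv ℝ k l q‖ ≤ c k * exp (a * j)
  bl : ∀ k, ‖iteratedFDeriv ℝ k (fun v : E × (E × E) => Θ (B.gs x v.1 + exp (-(a * j)) • v.2))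
    (q, 0)‖ ≤ c k * exp (a * j)

/-- SOURCES: a leaf within `c e^{-χ j}` of every point -/
def SRC (χ a : ℝ) : Prop := ∀ K : ℝ, ∃ (c : ℕ → ℝ) (j₁ : ℕ), ∀ j, j₁ ≤ j → ∀ p : E × E,
  ‖p‖ < B.r → ∃ x Θ l, ‖B.s x p.1 - p.2‖ ≤ c 0 * exp (-(χ * j)) ∧
    ∀ q, ‖B.gs x q‖ < B.r → B.So c a K j x Θ l q

/-- NODES: on every leaf, within `c e^{-χ j}` of every point -/
def NODE (χ a : ℝ) : Prop := ∀ K : ℝ, ∃ (c : ℕ → ℝ) (j₁ : ℕ), ∀ j, j₁ ≤ j → ∀ x q₀,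
  ‖B.gs x q₀‖ < B.r → ∃ q Θ, ‖q - q₀‖ ≤ c 0 * exp (-(χ * j)) ∧ B.Cr c a K j Θ (B.gs x q) ∧
    exp (-(a * j)) ≤ c 0 * ‖Θ (B.gs x q)‖

/-- where `ψ Θ ≠ 0` on the leaf -/
def O (ψ : V →L[ℝ] ℝ) (Θ : E × E → V) (x : X) : Set E := {q | ψ (Θ (B.gs x q)) ≠ 0}

/-- the field `apr` of `L.Box.Good` -/
def Apr (ε' : ℝ) (k : ℕ) (γ : ℝ) (K : ℕ) (A0 C : ℝ) (j : ℕ) (x : X) (O : Set E)
    (w : E × E → V) : Prop :=
  ∀ q, (∀ q' ∈ ball q (exp (-(γ * j))), B.gs x q' ∈ ball (0 : E × E) B.r ∧ q' ∈ O ∧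
      ‖w (B.gs x q')‖ ≤ A0 ∧ ∀ i ≤ k, ‖iteratedFDeriv ℝ i (fun t => w (B.gs x t)) q'‖ ≤ exp j) →
    ∀ i ≤ K + 1, ‖iteratedFDeriv ℝ i w (B.gs x q)‖ ≤ C * exp (ε' * (i + 1) * j)

end LB

/-- all finite dimensional line boxes -/
def AllB (P : ∀ (E V V' X Y : Type) [NormedAddCommGroup E] [NormedSpace ℝ E]
    [FiniteDimensional ℝ E] [NormedAddCommGroup V] [NormedSpace ℝ V] [FiniteDimensional ℝ V]
    [NormedAddCommGroup V'] [NormedSpace ℝ V'] [FiniteDimensional ℝ V'], LB E V V' X Y → Prop) :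
    Prop :=
  ∀ (E V V' X Y : Type) [NormedAddCommGroup E] [NormedSpace ℝ E] [FiniteDimensional ℝ E]
    [NormedAddCommGroup V] [NormedSpace ℝ V] [FiniteDimensional ℝ V] [NormedAddCommGroup V']
    [NormedSpace ℝ V'] [FiniteDimensional ℝ V'] (B : LB E V V' X Y), B.Ok → P E V V' X Y B

/-- (55) the field `apr` -/
def AprS : Prop := AllB fun _ V _ _ _ _ _ _ _ _ _ _ _ _ B => ∀ (r N a : ℕ) (θ χ a₀ : ℝ), 0 < θ →
  0 < χ → 1 ≤ a₀ → B.IND r N a θ → B.NODE χ a₀ → ∀ ε' : ℝ, 0 < ε' → ∃ (k : ℕ) (γ : ℝ), 0 < γ ∧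
    ∀ (K : ℕ) (A0 : ℝ), ∃ K' : ℝ, ∀ c : ℕ → ℝ, ∃ (C : ℝ) (j₀ : ℕ), ∀ j, j₀ ≤ j →
      ∀ (ψ : V →L[ℝ] ℝ) x Θ l, ‖ψ‖ ≤ 1 → (∀ q, ‖B.gs x q‖ < B.r → B.So c a₀ K' j x Θ l q) →
        B.Apr ε' k γ K A0 C j x (B.O ψ Θ x) (nrm ψ Θ)

/-- (26, 91) the fields `sm`, `fml`, `new`, `crude` -/
def FldS : Prop := AllB fun _ V _ _ _ _ _ _ _ _ _ _ _ _ B => ∀ (r N a : ℕ) (θ χ a₀ : ℝ), 0 < θ →
  0 < χ → 1 ≤ a₀ → B.IND r N a θ → ∃ (a' : ℕ) (θ' : ℝ), a ≤ a' ∧ 1 ≤ a' ∧ 0 < θ' ∧ θ' ≤ θ ∧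
    θ' ≤ 1 ∧ ∀ k : ℕ, ∃ Λ : ℝ, ∀ (K : ℕ) (A0 : ℝ), ∃ K' : ℝ, ∀ c : ℕ → ℝ, ∃ (C₀ : ℝ) (j₀ : ℕ),
      ∀ C, C₀ ≤ C → ∀ j, j₀ ≤ j → ∀ (ψ : V →L[ℝ] ℝ) x Θ l (ε' γ : ℝ), ‖ψ‖ ≤ 1 →
        (∀ q, ‖B.gs x q‖ < B.r → B.So c a₀ K' j x Θ l q) →
        B.Apr ε' k γ K A0 C j x (B.O ψ Θ x) (nrm ψ Θ) →
        (B.bx ψ).Good N a' θ' χ ε' k Λ γ K A0 C j x (B.O ψ Θ x) (nrm ψ Θ)

namespace Sy

variable {E W : Type} [NormedAddCommGroup E] [NormedSpace ℝ E] [NormedAddCommGroup W]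
  [NormedSpace ℝ W] (S : Sy E W)

/-- the line box of a chart -/
def lb (n : ℕ) (f : S.F) : LB E (Vf W (n + 1)) (Vf W n) {z // S.Pq false f z S.r1}
    {z // S.Pq true f z S.r1} where
  R := S.R
  r := S.r2
  s x := S.g false f x
  u y := S.g true f y
  io := S.io n f


end Sy

/-- (63) sources and nodes from the Siegel sources and the chains -/
def SoS : Prop := All fun _ _ _ _ _ _ _ _ S => ∀ n f, S.Srcs n f →
  ∃ χ a : ℝ, 0 < χ ∧ 1 ≤ a ∧ (S.lb n f).SRC χ a ∧ (S.lb n f).NODE χ a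

/-- the line box of a system -/
def LbS : Prop := All fun _ _ _ _ _ _ _ _ S => ∀ n f, (S.lb n f).Ok ∧
  ∀ N a θ, S.UQ n N a θ → (S.lb n f).IND (n + 1) N a θ

lemma LB.So.mono {E V V' X Y : Type} [NormedAddCommGroup E] [NormedSpace ℝ E]
    [NormedAddCommGroup V] [NormedSpace ℝ V] [NormedAddCommGroup V'] [NormedSpace ℝ V']
    {B : LB E V V' X Y} {c : ℕ → ℝ} {a K K' : ℝ} {j : ℕ} {x : X} {Θ : E × E → V}
    {l : E → V →L[ℝ] ℝ} {q : E} (h : B.So c a K j x Θ l q) (hK : K' ≤ K) : B.So c a K' j x Θ l q :=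
  ⟨fun y hy => ⟨(h.cr y hy).1, (h.cr y hy).2.1.trans (exp_le_exp.2 (neg_le_neg
    (mul_le_mul_of_nonneg_right hK (Nat.cast_nonneg _)))), (h.cr y hy).2.2⟩, h.sl, h.one, h.dl, h.bl⟩

theorem famS_of (lb : LbS) (so : SoS) (ap : AprS) (fl : FldS) : FamS := by
  intro E W _ _ _ _ _ _ S hS n f N a θ hθ hU hs
  obtain ⟨hB, hI⟩ := lb E W S hS n f
  obtain ⟨χ, a₀, hχ, ha, hs, hn⟩ := so E W S hS n f hs
  obtain ⟨a', θ', h1, h2, h3, h4, h5, hF⟩ := fl _ _ _ _ _ _ hB _ N a θ χ a₀ hθ hχ ha (hI N a θ hU)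
  refine ⟨a', θ', χ, h1, h2, h3, h4, h5, hχ, fun ε' hε => ?_⟩
  obtain ⟨k, γ, hγ, hA⟩ := ap _ _ _ _ _ _ hB _ N a θ χ a₀ hθ hχ ha (hI N a θ hU) hn ε' hε
  obtain ⟨Λ, hF⟩ := hF k
  refine ⟨k, Λ, fun _ => γ, fun _ => hγ, fun ψ hψ K A0 => ?_⟩
  obtain ⟨K1, hA⟩ := hA K A0
  obtain ⟨K2, hF⟩ := hF K A0
  obtain ⟨c, j1, hs⟩ := hs (max K1 K2)
  obtain ⟨C1, j2, hA⟩ := hA c
  obtain ⟨C2, j3, hF⟩ := hF c
  refine ⟨max (c 0) (max C1 C2), max j1 (max j2 j3), fun j hj z hz => ?_⟩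
  obtain ⟨x, Θ, l, hx, hso⟩ := hs j ((le_max_left _ _).trans hj) z (mem_ball_zero_iff.1 hz)
  have hj' := (le_max_right _ _).trans hj
  refine ⟨x, _, _, hx.trans (mul_le_mul_of_nonneg_right (le_max_left _ _) (exp_pos _).le),
    hF _ ((le_max_right _ _).trans (le_max_right _ _)) j ((le_max_right _ _).trans hj') ψ x Θ l ε' γ
      hψ (fun q hq => (hso q hq).mono (le_max_right _ _)) fun q hq i hi => ?_⟩
  exact (hA j ((le_max_left _ _).trans hj') ψ x Θ l hψ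
    (fun q hq => (hso q hq).mono (le_max_left _ _)) q hq i hi).trans (mul_le_mul_of_nonneg_right
      ((le_max_left _ _).trans (le_max_right _ _)) (exp_pos _).le)

end Crest.Agent.N221.G0
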