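import Crest.Agent.N221.G0.Top
import Crest.Agent.N221.G0.NrD_Mg
import Crest.Agent.N221.G0.Ly
import Crest.Agent.N221.G0.One

-- ▼ part N221/G0/Gl
section

/-! Row 221, block G0 (helper91): good leaves, `glS : GlS`. -/

set_option autoImplicit false

open Set Metric Filter Topology
open scoped ContDiff

noncomputable section

namespace Crest.Agent.N221.G0

lemma norm_itr_id {E : Type} [NormedAddCommGroup E] [NormedSpace ℝ E] {k : ℕ} (hk : 1 ≤ k)
    (x : E) : ‖iteratedFDeriv ℝ k (fun y : E => y) x‖ ≤ 1 := by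
  obtain ⟨k, rfl⟩ : ∃ l, k = l + 1 := ⟨k - 1, by omega⟩
  rw [← norm_iteratedFDeriv_fderiv, show fderiv ℝ (fun x : E => x) =
    fun _ => ContinuousLinearMap.id ℝ E from funext fun _ => fderiv_fun_id]
  rcases eq_or_ne k 0 with rfl | hk
  · rw [norm_iteratedFDeriv_zero]; exact ContinuousLinearMap.norm_id_le
  · rw [iteratedFDeriv_const_of_ne hk]; simp

namespace Sy

variable {E W : Type} [NormedAddCommGroup E] [NormedSpace ℝ E] [NormedAddCommGroup W]
  [NormedSpace ℝ W] {S : Sy E W} {i : Bool}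

lemma Ok.pt_sm (h : S.Ok) (i : Bool) (f : S.F) {z : E × E} (hz : ‖z‖ < S.R0) {y : E}
    (hy : y ∈ ball (0 : E) S.R0) : ContDiffAt ℝ ∞ (S.pt i f z) y :=
  contDiffAt_id.prodMk (h.g_jet i f z hz y hy).1

lemma Ok.pt_jet (h : S.Ok) (i : Bool) (f : S.F) {z : E × E} (hz : ‖z‖ < S.R0) {y : E}
    (hy : y ∈ ball (0 : E) S.R0) {k : ℕ} (hk : 1 ≤ k) :
    ‖iteratedFDeriv ℝ k (S.pt i f z) y‖ ≤ S.c k := by
  have e := iteratedFDeriv_prodMk (𝕜 := ℝ) (n := ∞) (f := fun y : E => y) (g := S.g i f z)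
    contDiffAt_id (h.g_jet i f z hz y hy).1 (i := k) (by exact_mod_cast le_top)
  change ‖iteratedFDeriv ℝ k (fun y => (y, S.g i f z y)) y‖ ≤ _
  rw [e, ContinuousMultilinearMap.opNorm_prod]
  exact max_le ((norm_itr_id hk y).trans (h.c1 k)) ((h.g_jet i f z hz y hy).2 k)

/-- the defect of a pull back -/
lemma Am.io_le (hS : S.Ok) {f f' : S.F} {φ : E × E → E × E} {A : E × E → W →L[ℝ] W} {w : E × E}
    (h : S.Am f f' φ A w) (n : ℕ) (Θ : Vf W (n + 1)) :
    ‖S.io n f w (pbk (n + 1) (A w) Θ)‖ ≤ S.b ^ (n + 1) * ‖S.io n f' (φ w) Θ‖ := by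
  obtain ⟨t, -, ht, e⟩ := h.eqv
  have b0 : 0 ≤ S.b := by have := hS.b1; linarith
  change ‖ioW n (S.M f w) (pbk (n + 1) (A w) Θ)‖ ≤ _ * ‖ioW n (S.M f' (φ w)) Θ‖
  rw [ioW_pbk, e, map_smul]
  refine (norm_pbk_apply_le _ _).trans ?_
  rw [smul_apply, norm_smul, Real.norm_eq_abs, pow_succ, mul_assoc]
  gcongr
  exact h.nA

namespace Cd

/-- pull back of a form along the plaques of a chain -/
def pl (c : S.Cd) (i : Bool) (k : ℕ) (G : E → Vf W k) (T : ℕ) : ℕ → E → Vf W k :=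
  fam (fun j Θ y => pbk k (c.A j (c.pt i j y)) (Θ (c.ψ i j y))) G T

variable {c : S.Cd} {T : ℕ}

lemma pl_end (k : ℕ) (G : E → Vf W k) : c.pl i k G T T = G := fam_end _ _ _

lemma pl_step (k : ℕ) (G : E → Vf W k) {j : ℕ} (h : j < T) : c.pl i k G T j =
    fun y => pbk k (c.A j (c.pt i j y)) (c.pl i k G T (j + 1) (c.ψ i j y)) := fam_step _ _ h

lemma Ok.pl_floor [FiniteDimensional ℝ W] (hS : S.Ok) (h : c.Ok i T) (k : ℕ) (G : E → Vf W k)
    {y : E} (hy : y ∈ ball (0 : E) S.R) : ∀ j ≤ T,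
    ‖G (c.orb i y T)‖ ≤ (S.b ^ k) ^ (T - j) * ‖c.pl i k G T j (c.orb i y j)‖ := by
  have b0 : 0 ≤ S.b := by have := hS.b1; linarith
  refine bk_ind (by simp [pl_end]) fun j hj ih => ?_
  rw [pl_step k G hj, show T - j = T - (j + 1) + 1 by omega, pow_succ, mul_assoc]
  exact ih.trans (mul_le_mul_of_nonneg_left
    (pbk_floor b0 ((h j hj).at hS (h.orb_mem hy j hj.le)).iA _) (by positivity))

lemma Ok.pl_df (hS : S.Ok) (h : c.Ok i T) (n : ℕ) (G : E → Vf W (n + 1))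
    {y : E} (hy : y ∈ ball (0 : E) S.R) : ∀ j ≤ T,
    ‖S.io n (c.f j) (c.pt i j (c.orb i y j)) (c.pl i (n + 1) G T j (c.orb i y j))‖ ≤
      (S.b ^ (n + 1)) ^ (T - j) *
        ‖S.io n (c.f T) (c.pt i T (c.orb i y T)) (G (c.orb i y T))‖ := by
  have b0 : 0 ≤ S.b := by have := hS.b1; linarith
  refine bk_ind (by simp [pl_end]) fun j hj ih => ?_
  have hm := h.orb_mem hy j hj.le
  rw [pl_step _ G hj, show T - j = T - (j + 1) + 1 by omega, pow_succ', mul_assoc]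
  refine (((h j hj).at hS hm).io_le hS n _).trans ?_
  rw [(h j hj).gr _ hm]
  exact mul_le_mul_of_nonneg_left ih (by positivity)

end Cd

/-- jets of the pull back -/
lemma Ok.pl_jet [FiniteDimensional ℝ W] (hS : S.Ok) (k N : ℕ) : ∃ C : ℝ, 1 ≤ C ∧
    ∀ (i : Bool) (c : S.Cd) (T : ℕ) (G : E → Vf W k) (y : E) (d : ℝ), c.Ok i T →
      y ∈ ball (0 : E) S.R → ContDiffAt ℝ N G (c.orb i y T) →
      (∀ l ≤ N, ‖iteratedFDeriv ℝ l G (c.orb i y T)‖ ≤ d) →
      ContDiffAt ℝ N (c.pl i k G T 0) y ∧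
        ∀ l ≤ N, ‖iteratedFDeriv ℝ l (c.pl i k G T 0) y‖ ≤ C * (2 * S.b ^ k) ^ T * d := by
  obtain ⟨c1, h1⟩ := uj_comp S.c S.c
  obtain ⟨c2, h2⟩ := pbk_jet (W := W) k c1
  obtain ⟨D1, D11, hD1⟩ := Nr.cbound S.c N
  obtain ⟨D2, D21, hD2⟩ := Nr.cbound c2 N
  obtain ⟨C, C1, hC⟩ := cr N (S.b ^ k) 1 (D1 + D2) (one_le_pow₀ hS.b1) le_rfl (by linarith)
  refine ⟨C, C1, fun i c T G y d h hy hG hd => ?_⟩
  have key := hC E (Vf W k) T (c.ψ i) (fun j y => pbk k (c.A j (c.pt i j y))) (c.pl i k G T)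
    (c.orb i y) d (fun j hj => ?_) (by rwa [Cd.pl_end]) (by rwa [Cd.pl_end]) 0 (Nat.zero_le _)
  · simpa [Cd.orb] using key
  have hm := h.orb_mem hy j hj.le
  have hs := h j hj
  have ha := hs.at hS hm
  have u := h2 E (fun y => c.A j (c.pt i j y)) _ (h1 E _ _ (c.A j) (c.pt i j) _ ha.jA
    (hS.pt_sm i _ hs.lab (hS.sub hm)) fun l hl => hS.pt_jet i _ hs.lab (hS.sub hm) hl)
  refine ⟨cda (hs.jl _ hm).1 N, cda u.1 N, rfl, (norm_pbk_le _).trans ?_,
    (hs.con _ hm).trans hS.q1.le, fun l _ hl => ?_, fun l hl => ?_, ?_⟩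
  · exact pow_le_pow_left₀ (norm_nonneg _) ha.nA k
  · exact (((hs.jl _ hm).2 l).trans (hD1 l hl)).trans (by linarith)
  · exact ((u.2 l).trans (hD2 l hl)).trans (by linarith)
  · rw [Cd.pl_step k G hj]

lemma Ok.r2p (h : S.Ok) : 0 < S.r2 := by
  have := h.r1p; have := h.b01; unfold r2; positivity

lemma Ok.r2_eq (h : S.Ok) : 8 * S.b0 * S.r2 = S.r1 := by
  have := h.b01; unfold r2; field_simp

lemma Ok.r2_le8 (h : S.Ok) : 8 * S.r2 ≤ S.r1 := by
  have := h.r2_eq; have := le_mul_of_one_le_left h.r2p.le h.b01; linarith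

lemma Ok.r2R (h : S.Ok) : S.r2 ≤ S.R / 2 := by
  have := h.r2_le8; have := h.r12; have := h.r2p; linarith

lemma Ok.r2R0 (h : S.Ok) {x : ℝ} (hx : x ≤ 2 * S.r2) : x < S.R0 := by
  have := h.r2R; have := h.R8; have := h.Rp; linarith

/-- both leaves of a point of the doubled working region have offset `r1 / 2` -/
lemma Ok.pq_r2 (h : S.Ok) (i : Bool) (f : S.F) {z : E × E} (hz : ‖z‖ ≤ 2 * S.r2) :
    S.Pq i f z (S.r1 / 2) := by
  refine (h.pq_of i f (h.r2R0 hz)).mono ?_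
  have := mul_le_mul_of_nonneg_left hz (show 0 ≤ 2 * S.b0 by have := h.b01; linarith)
  have := h.r2_eq
  linarith

lemma Ok.gr (h : S.Ok) (i : Bool) (f : S.F) {z : E × E} (hz : ‖z‖ < S.R0) {c : ℕ → ℝ}
    (hc : ∀ k, S.c k ≤ c k) (h0 : S.b0 ≤ c 0) :
    Gr (fderiv ℝ (S.g i f 0) 0) S.r2 S.th c (S.g i f z) := by
  have sub : ball (0 : E) S.r2 ⊆ ball 0 S.R0 :=
    ball_subset_ball (h.r2R0 (by have := h.r2p; linarith)).le
  refine ⟨fun y hy => (h.g_jet i f z hz y (sub hy)).1.contDiffWithinAt,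
    fun k y hy => ((h.g_jet i f z hz y (sub hy)).2 k).trans (hc k), fun y hy => ?_⟩
  have hy' : ‖S.pt i f z y‖ < S.R0 := h.r2R0 (hy.le.trans (by have := h.r2p; linarith))
  have := h.hol i f (S.pt i f z y) 0 hy' h.zero
  rw [h.g_lab i f z y hz hy', sub_zero] at this
  exact this.trans (mul_le_mul_of_nonneg_right h0 (by positivity))

end Sy

theorem glS : GlS := by
  intro E W _ _ _ _ _ _ S hS n f hA
  obtain ⟨cA, hA⟩ := S.adm_spec (n := n) hA
  have q0 := hS.qp; have q1 := hS.q1; have Rp := hS.Rp; have b1 := hS.b1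
  -- the inverse of `U - S`
  set L : E →L[ℝ] E := fderiv ℝ (S.g true f 0) 0 - fderiv ℝ (S.g false f 0) 0 with hL
  have Linj : Function.Injective (L : E →ₗ[ℝ] E) := by
    refine (injective_iff_map_eq_zero _).2 fun v hv => ?_
    have := hS.trv f 0 0 hS.zero hS.zero 0 (mem_ball_self hS.R0p) v
    have e : fderiv ℝ (S.g true f 0) 0 v - fderiv ℝ (S.g false f 0) 0 v = 0 := hv
    rw [e] at this
    simpa using this
  obtain ⟨J, hJ⟩ := LinearMap.exists_leftInverse_of_injective _ (LinearMap.ker_eq_bot.2 Linj)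
  -- constants
  obtain ⟨τ, hτ⟩ := exists_pow_lt_of_lt_one (show 0 < 1 / (4 * (|cA 1| + 1) * S.R) by positivity) q1
  set Γ : ℝ := 2 * S.b ^ (n + 1) with hΓ
  have β1 : 1 ≤ S.b ^ (n + 1) := one_le_pow₀ b1
  have Γ0 : 0 < Γ := by linarith
  obtain ⟨a, ha⟩ := exists_pow_lt_of_lt_one (show 0 < 1 / Γ by positivity) q1
  choose C C1 hC using hS.pl_jet (n + 1)
  choose D D1 hD using Nr.cbound cA
  set c : ℕ → ℝ := fun k => S.c k + S.b0 + (4 + C k * D k) * Γ ^ (τ + 3) with hc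
  have cp : ∀ k, 0 ≤ (4 + C k * D k) * Γ ^ (τ + 3) := fun k => by
    have := C1 k; have := D1 k; positivity
  have c1 : ∀ k, S.c k ≤ c k := fun k => by have := cp k; have := hS.b01; simp only [hc]; linarith
  have c2 : S.b0 ≤ c 0 := by have := cp 0; have := hS.c1 0; simp only [hc]; linarith
  have c3 : ∀ k, (4 + C k * D k) * Γ ^ (τ + 3) ≤ c k := fun k => by
    have := hS.c1 k; have := hS.b01; simp only [hc]; linarith
  have sub : ball (0 : E) S.r2 ⊆ ball 0 S.R := ball_subset_ball (by have := hS.r2R; linarith)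
  have r2 := hS.r2p
  refine ⟨LinearMap.toContinuousLinearMap J, a, c, r2, hS.thp, hS.th1, by positivity,
    fun v => LinearMap.congr_fun hJ v, fun z hz => ?_, fun z hz ε ε0 ε1 N o o0 => ?_⟩
  · have hz0 : ‖z‖ < S.R0 := hS.r2R0 (by linarith)
    have hp : S.Pq true f z S.r1 := (hS.pq_r2 true f (by linarith)).mono (by
      have := hS.r1p; linarith)
    obtain ⟨ν, hν⟩ := hS.M_jet f z hz0
    have e : ∀ y ∈ ball (0 : E) S.r2, (fun q => S.io n f (q, S.g true f z q)) =ᶠ[𝓝 y]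
        fun q => ioW n (ν q) := fun y hy => by
      filter_upwards [isOpen_ball.mem_nhds (sub hy)] with q hq
      have := (hν q (hS.sub hq)).2 ((hS.pt_le hp hq).trans_lt (by have := hS.R0p; linarith))
      exact congrArg (ioW n) this
    refine ⟨S.g true f z, hS.g_self _ _ _ hz0, hS.gr true f hz0 c1 c2, fun y hy => ?_,
      fun k y hy => ?_⟩
    · exact ((ioW_jet (hν y (hS.sub (sub hy))).1).1.congr_of_eventuallyEq
        (e y hy)).contDiffWithinAt
    · rw [((e y hy).iteratedFDeriv ℝ k).eq_of_nhds]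
      exact ((ioW_jet (hν y (hS.sub (sub hy))).1).2 k).trans (c1 k)
  obtain ⟨t, ht1, ht2⟩ := exists_nat_pow_near_of_lt_one ε0 ε1 q0 q1
  set T := τ + 1 + (t + 1 + 1) with hT
  obtain ⟨f1, Ψ, y0, hy0, hΨ0, hsm, hbd, hdf⟩ :=
    hA (max N 1) (o / (S.b ^ (n + 1)) ^ T) (by positivity)
  have y0m : y0 ∈ ball (0 : E) S.R := mem_ball_zero_iff.2 (by linarith)
  have hz1 : ‖S.g false f1 0 y0‖ ≤ S.b0 * S.R := by
    have := hS.g_le (hS.pq_zero false f1 le_rfl) (hS.sub y0m)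
    have := mul_le_mul_of_nonneg_left (mem_ball_zero_iff.1 y0m).le
      (show 0 ≤ S.b0 by have := hS.b01; linarith)
    linarith
  have z1m : ‖S.pt false f1 0 y0‖ < S.R0 :=
    (hS.pt_le (hS.pq_zero false f1 hS.r1p.le) y0m).trans_lt (by have := hS.R0p; linarith)
  obtain ⟨ch, hch, e0, hp, hds, e1, e2, hE⟩ := hS.app false f1 (z1 := S.pt false f1 0 y0) hy0 hz1 τ
    (t + 1) f z (hS.pq_r2 false f (by linarith))
  have at' : ∀ y ∈ ball (0 : E) S.R, ContDiffAt ℝ ∞ Ψ y := fun y hy =>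
    hsm.contDiffAt (isOpen_ball.mem_nhds hy)
  have pw : Γ ^ T * ε ^ a ≤ Γ ^ (τ + 3) := by
    rw [show T = τ + 3 + t by omega, pow_add, mul_assoc]
    refine mul_le_of_le_one_right (by positivity) ?_
    calc Γ ^ t * ε ^ a ≤ Γ ^ t * (S.q ^ t) ^ a := by gcongr
      _ = (Γ * S.q ^ a) ^ t := by rw [mul_pow Γ, ← pow_mul S.q, ← pow_mul S.q, mul_comm t a]
      _ ≤ 1 := pow_le_one₀ (by positivity) (by rw [lt_div_iff₀ Γ0] at ha; linarith)
  have εa : 0 < ε ^ a := by positivity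
  refine ⟨S.g false f (ch.z 0), ch.pl false (n + 1) Ψ T 0, ?_, hS.gr false f hp.1 c1 c2,
    fun y hy => ?_, fun y hy => ⟨?_, ?_, fun k hk => ?_⟩⟩
  · have z1 : z.1 ∈ ball (0 : E) S.R := sub (mem_ball_zero_iff.2 ((norm_fst_le z).trans_lt hz))
    have := hds z.1 z1
    rw [hS.g_self _ _ _ (hS.r2R0 (by linarith))] at this
    linarith
  · refine (contDiffAt_infty.2 fun k => ?_).contDiffWithinAt
    have hm := hch.orb_mem (sub hy) T le_rfl
    obtain ⟨d, -, hd⟩ := Nr.cbound (fun l => ‖iteratedFDeriv ℝ l Ψ (ch.orb false y T)‖) k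
    exact (hC k false ch T Ψ y d hch (sub hy) (cda (at' _ hm) k) hd).1
  · have h1 := hch.pl_df hS n Ψ (sub hy) 0 (Nat.zero_le _)
    have hm := hch.orb_mem (sub hy) T le_rfl
    have h2 := hdf _ hm
    have e : ch.pt false T (ch.orb false y T) = S.pt false f1 0 (ch.orb false y T) := by
      unfold Sy.Cd.pt
      rw [e1, e2]
      exact congrArg (fun g : E → E => (ch.orb false y T, g (ch.orb false y T)))
        (hS.g_lab false f1 0 y0 hS.zero z1m)
    rw [e, e1] at h1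
    subst e0
    refine h1.trans ((mul_le_mul_of_nonneg_left h2 (by positivity)).trans_eq ?_)
    rw [Nat.sub_zero]
    exact mul_div_cancel₀ _ (by positivity)
  · have h1 := hch.pl_floor hS (n + 1) Ψ (sub hy) 0 (Nat.zero_le _)
    have hm := hch.orb_mem (sub hy) T le_rfl
    have h2 : ‖Ψ (ch.orb false y T) - Ψ y0‖ ≤ (|cA 1| + 1) * ‖ch.orb false y T - y0‖ :=
      (convex_ball _ _).norm_image_sub_le_of_norm_fderiv_le (𝕜 := ℝ)
        (fun x hx => (at' x hx).differentiableAt (by simp)) (fun x hx => by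
          have := hbd 1 (le_max_right _ _) x hx
          rw [norm_iteratedFDeriv_one] at this
          linarith [le_abs_self (cA 1)]) y0m hm
    have h3 : (|cA 1| + 1) * ‖ch.orb false y T - y0‖ ≤ 1 / 4 := by
      have h4 : ‖ch.orb false y T - y0‖ ≤ S.q ^ τ * S.R := (hE y (sub hy)).trans
        (mul_le_mul_of_nonneg_right (pow_le_pow_of_le_one q0.le q1.le (by omega)) Rp.le)
      rw [lt_div_iff₀ (by positivity)] at hτ
      have := mul_le_mul_of_nonneg_left h4 (show 0 ≤ |cA 1| + 1 by positivity)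
      linarith
    have h5 := norm_le_insert (Ψ (ch.orb false y T)) (Ψ y0)
    have h6 : (S.b ^ (n + 1)) ^ (T - 0) ≤ Γ ^ T := pow_le_pow_left₀ (by positivity) (by linarith) T
    set X := ‖ch.pl false (n + 1) Ψ T 0 y‖ with hX
    have X0 : 0 ≤ X := norm_nonneg _
    have h7 : 1 / 4 ≤ Γ ^ T * X := by
      have := mul_le_mul_of_nonneg_right h6 X0
      change _ ≤ _ * X at h1
      linarith
    have h8 : 4 * Γ ^ (τ + 3) ≤ c 0 := le_trans (mul_le_mul_of_nonneg_right (by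
      have := C1 0; have := D1 0; nlinarith) (by positivity)) (c3 0)
    rw [Real.rpow_natCast]
    calc ε ^ a ≤ ε ^ a * (4 * (Γ ^ T * X)) := le_mul_of_one_le_right εa.le (by linarith)
      _ = 4 * (Γ ^ T * ε ^ a) * X := by ring
      _ ≤ c 0 * X := mul_le_mul_of_nonneg_right (by linarith) X0
  · have hm := hch.orb_mem (sub hy) T le_rfl
    have h1 := (hC k false ch T Ψ y (D k) hch (sub hy) (cda (at' _ hm) k) fun l hl =>
      (hbd l (by omega) _ hm).trans (hD k l hl)).2 k le_rfl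
    rw [Real.rpow_natCast, le_div_iff₀ εa]
    have := C1 k; have := D1 k
    calc _ ≤ C k * Γ ^ T * D k * ε ^ a := mul_le_mul_of_nonneg_right h1 εa.le
      _ = C k * D k * (Γ ^ T * ε ^ a) := by ring
      _ ≤ (4 + C k * D k) * Γ ^ (τ + 3) :=
        mul_le_mul (by linarith) pw (by positivity) (by positivity)
      _ ≤ c k := c3 k

end Crest.Agent.N221.G0
end
end

-- ▼ part N221/G0/SoA

/-! Row 221, block G0 (helper91): `SoX` (sources along the plaques of both foliations) gives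
`SoS` (`SRC` and `NODE`). -/

set_option autoImplicit false

open Set Metric Filter Topology Real
open scoped ContDiff

noncomputable section

namespace Crest.Agent.N221.G0

namespace Sy

variable {E W : Type} [NormedAddCommGroup E] [NormedSpace ℝ E] [NormedAddCommGroup W]
  [NormedSpace ℝ W] (S : Sy E W)

/-- a source of level `j` on a tube round the `i`-plaque of `x`, at the point over `q` -/
structure Sx (n : ℕ) (f : S.F) (i : Bool) (c : ℕ → ℝ) (a K : ℝ) (j : ℕ) (x : E × E)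
    (Θ : E × E → Vf W (n + 1)) (l : E → Vf W (n + 1) →L[ℝ] ℝ) (q : E) : Prop where
  cr : (S.lb n f).Cr c a K j Θ (S.pt i f x q)
  sl : ContDiffAt ℝ ∞ l q
  one : l q (Θ (S.pt i f x q)) = 1
  dl : ∀ k, ‖iteratedFDeriv ℝ k l q‖ ≤ c k * exp (a * j)
  bl : ∀ k, ‖iteratedFDeriv ℝ k
    (fun v : E × (E × E) => Θ (S.pt i f x v.1 + exp (-(a * j)) • v.2)) (q, 0)‖ ≤ c k * exp (a * j)

/-- sources of every level and order near every point, for both foliations -/
def Sxs (n : ℕ) (f : S.F) (χ a : ℝ) : Prop := ∀ (i : Bool) (K : ℝ), ∃ (c : ℕ → ℝ) (j₁ : ℕ),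
  ∀ j, j₁ ≤ j → ∀ z : E × E, ‖z‖ < 2 * S.r2 → ∃ x Θ l, S.Pq i f x S.r1 ∧
    S.Ds i f x z (exp (-(χ * j))) ∧ ∀ q ∈ ball (0 : E) S.R, S.Sx n f i c a K j x Θ l q

end Sy

/-- sources for both foliations -/
def SoX : Prop := All fun _ _ _ _ _ _ _ _ S => ∀ n f, S.Srcs n f →
  ∃ χ a : ℝ, 0 < χ ∧ 1 ≤ a ∧ S.Sxs n f χ a

theorem soS_of (h : SoX) : SoS := by
  intro E W _ _ _ _ _ _ S hS n f hs
  obtain ⟨χ, a, hχ, ha, h⟩ := h E W S hS n f hs
  have r2 := hS.r2p; have r2R := hS.r2R; have b0 := hS.b01; have r1 := hS.r1p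
  refine ⟨χ, a, hχ, ha, fun K => ?_, fun K => ?_⟩
  · obtain ⟨c, j₁, h⟩ := h false K
    refine ⟨fun k => max (c k) 1, j₁, fun j hj p hp => ?_⟩
    replace hp : ‖p‖ < S.r2 := hp
    obtain ⟨x, Θ, l, hx, hd, hq⟩ := h j hj p (by linarith)
    have mono : ∀ (k : ℕ) (t : ℝ), c k * exp t ≤ max (c k) 1 * exp t := fun k t =>
      mul_le_mul_of_nonneg_right (le_max_left _ _) (exp_pos _).le
    refine ⟨⟨x, hx⟩, Θ, l, ?_, fun q hq' => ?_⟩
    · have := hd p.1 (mem_ball_zero_iff.2 (by linarith [norm_fst_le p]))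
      rw [hS.g_self _ _ _ (hS.r2R0 (by linarith))] at this
      exact this.trans (le_mul_of_one_le_left (exp_pos _).le (le_max_right _ _))
    · have hq1 : ‖q‖ < S.r2 := (norm_fst_le (S.pt false f x q)).trans_lt hq'
      have := hq q (mem_ball_zero_iff.2 (by linarith))
      exact ⟨fun y hy => ⟨(this.cr y hy).1, (this.cr y hy).2.1, fun k =>
        ((this.cr y hy).2.2 k).trans (mono _ _)⟩, this.sl, this.one,
        fun k => (this.dl k).trans (mono _ _), fun k => (this.bl k).trans (mono _ _)⟩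
  · obtain ⟨c, j₁, h⟩ := h true K
    obtain ⟨j₂, hj₂⟩ : ∃ j₂ : ℕ, ∀ j, j₂ ≤ j → exp (-(χ * j)) ≤ S.r1 := by
      obtain ⟨j₂, hj⟩ := exists_nat_ge (-log S.r1 / χ)
      refine ⟨j₂, fun j hj' => ?_⟩
      rw [← le_log_iff_exp_le r1]
      rw [div_le_iff₀ hχ] at hj
      have : (j₂ : ℝ) ≤ j := by exact_mod_cast hj'
      nlinarith
    refine ⟨fun k => max (c k) S.b0, max j₁ j₂, fun j hj x q₀ hq₀ => ?_⟩
    replace hq₀ : ‖S.pt false f x q₀‖ < S.r2 := hq₀
    obtain ⟨x', Θ, l, hx', hd, hq⟩ := h j ((le_max_left _ _).trans hj) _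
      (show ‖S.pt false f x q₀‖ < 2 * S.r2 by linarith)
    have hq1 : ‖q₀‖ < S.r2 := (norm_fst_le (S.pt false f x q₀)).trans_lt hq₀
    have h1 := hd q₀ (mem_ball_zero_iff.2 (by linarith))
    have e : S.g true f (S.pt false f x q₀) q₀ = S.g false f x q₀ :=
      hS.g_self true f _ (hS.r2R0 (by linarith))
    rw [e] at h1
    have h2 := hj₂ j ((le_max_right _ _).trans hj)
    obtain ⟨q, e1, e2⟩ := hS.int f x x' q₀ x.2.1 hx'.1 (by linarith) (h1.trans h2)
    have h3 : ‖q - q₀‖ ≤ S.b0 * exp (-(χ * j)) :=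
      e2.trans (mul_le_mul_of_nonneg_left h1 (by linarith))
    have h4 : ‖q‖ < S.R := by
      have := norm_le_insert' q q₀
      have := mul_le_mul_of_nonneg_left h2 (show 0 ≤ S.b0 by linarith)
      have := hS.r1R
      linarith
    have hx := hq q (mem_ball_zero_iff.2 h4)
    have e3 : S.pt true f x' q = (S.lb n f).gs x q := Prod.ext rfl e1
    refine ⟨q, Θ, h3.trans (mul_le_mul_of_nonneg_right (le_max_right _ _) (exp_pos _).le),
      fun y hy => ?_, ?_⟩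
    · have := hx.cr y (e3 ▸ hy)
      exact ⟨this.1, this.2.1, fun k => (this.2.2 k).trans
        (mul_le_mul_of_nonneg_right (le_max_left _ _) (exp_pos _).le)⟩
    · have h5 := hx.dl 0
      rw [norm_iteratedFDeriv_zero] at h5
      have h6 := (l q).le_opNorm (Θ (S.pt true f x' q))
      rw [hx.one, norm_one, e3] at h6
      have h7 : ‖l q‖ ≤ max (c 0) S.b0 * exp (a * j) :=
        h5.trans (mul_le_mul_of_nonneg_right (le_max_left _ _) (exp_pos _).le)
      have h8 := h6.trans (mul_le_mul_of_nonneg_right h7 (norm_nonneg _))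
      rw [exp_neg, inv_le_iff_one_le_mul₀ (exp_pos _)]
      linarith

end Crest.Agent.N221.G0
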