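import Crest.Agent.N221.G0.Ly
import Crest.Agent.N221.G0.ApB
import Crest.Agent.N221.A1.PDefs

/-! Row 221, block G0/SOURCES (helper63): ambient chains along a plaque, rescaling, tubes,
pulled back families (floor, error, crude bounds). -/

set_option autoImplicit false
set_option linter.unusedSectionVars false

open Set Metric Filter Topology
open scoped ContDiff

namespace Crest.Agent.N221.G0

variable {E X V Y : Type} [NormedAddCommGroup E] [NormedSpace ℝ E] [NormedAddCommGroup X]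
  [NormedSpace ℝ X] [NormedAddCommGroup V] [NormedSpace ℝ V] [NormedAddCommGroup Y]
  [NormedSpace ℝ Y]

/-- the tube of radius `r` round the plaque `ι (ball 0 R)` -/
def Tb (R r : ℝ) (ι : E → X) (z : X) : Prop := ∃ y ∈ ball (0 : E) R, ‖z - ι y‖ < r

/-- a plaque with bounded derivatives -/
structure Plq (R : ℝ) (c : ℕ → ℝ) (ι : E → X) : Prop where
  sm : ∀ y ∈ ball (0 : E) R, ContDiffAt ℝ ∞ ι y
  bd : ∀ k, 1 ≤ k → ∀ y ∈ ball (0 : E) R, ‖iteratedFDeriv ℝ k ι y‖ ≤ c k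

/-- one ambient step from the plaque `ι` to the plaque `ι'` -/
structure As (R r q L b : ℝ) (c : ℕ → ℝ) (ι ι' : E → X) (ψ : E → E) (φ : X → X)
    (A : X → V →L[ℝ] V) : Prop where
  pψ : Plq R c ψ
  nψ : ∀ y ∈ ball (0 : E) R, ‖fderiv ℝ ψ y‖ ≤ q
  mp : ∀ y ∈ ball (0 : E) R, ψ y ∈ ball (0 : E) R
  gr : ∀ y ∈ ball (0 : E) R, φ (ι y) = ι' (ψ y)
  sφ : ∀ z, Tb R r ι z → ContDiffAt ℝ ∞ φ z
  dφ : ∀ k, 1 ≤ k → ∀ z, Tb R r ι z → ‖iteratedFDeriv ℝ k φ z‖ ≤ c k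
  nφ : ∀ z, Tb R r ι z → ‖fderiv ℝ φ z‖ ≤ L
  sA : ∀ z, Tb R r ι z → ContDiffAt ℝ ∞ A z
  dA : ∀ k z, Tb R r ι z → ‖iteratedFDeriv ℝ k A z‖ ≤ c k
  nA : ∀ z, Tb R r ι z → ‖A z‖ ≤ b
  iA : ∀ z, Tb R r ι z → ∀ v, ‖v‖ ≤ b * ‖A z v‖

/-- an ambient chain with a pulled back family `Θ` -/
structure Amb (R r q L b : ℝ) (c : ℕ → ℝ) (T : ℕ) (ι : ℕ → E → X) (ψ : ℕ → E → E)
    (φ : ℕ → X → X) (A : ℕ → X → V →L[ℝ] V) (Θ : ℕ → X → V) : Prop where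
  pl : ∀ j ≤ T, Plq R c (ι j)
  st : ∀ j < T, As R r q L b c (ι j) (ι (j + 1)) (ψ j) (φ j) (A j)
  rel : ∀ j < T, ∀ z, Θ j z = A j z (Θ (j + 1) (φ j z))

/-- orbit along a chain of maps -/
def orb (φ : ℕ → X → X) (z : X) : ℕ → X
  | 0 => z
  | j + 1 => φ j (orb φ z j)

theorem exists_pb (T : ℕ) (φ : ℕ → X → X) (A : ℕ → X → V →L[ℝ] V) (G : X → V) :
    ∃ Θ : ℕ → X → V, Θ T = G ∧ ∀ j < T, ∀ z, Θ j z = A j z (Θ (j + 1) (φ j z)) := by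
  induction T generalizing G with
  | zero => exact ⟨fun _ => G, rfl, fun j hj => absurd hj (Nat.not_lt_zero j)⟩
  | succ T ih =>
    obtain ⟨Θ, h1, h2⟩ := ih fun z => A T z (G (φ T z))
    refine ⟨fun j => if j ≤ T then Θ j else G, by simp, fun j hj z => ?_⟩
    have hj' : j ≤ T := Nat.lt_succ_iff.1 hj
    rcases hj'.lt_or_eq with h | rfl
    · simp only [if_pos hj', if_pos (Nat.succ_le_of_lt h)]
      exact h2 j h z
    · simp [h1]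

theorem itf_lin (g : E →L[ℝ] X) {f : X → Y} {x : E} (k : ℕ) (hf : ContDiffAt ℝ k f (g x)) :
    iteratedFDeriv ℝ k (fun y => f (g y)) x =
      (iteratedFDeriv ℝ k f (g x)).compContinuousLinearMap fun _ => g := by
  obtain ⟨s, h1, h2, h3⟩ := _root_.eventually_nhds_iff.1 (hf.eventually (by simp))
  have h4 : IsOpen (g ⁻¹' s) := h2.preimage g.continuous
  have := g.iteratedFDerivWithin_comp_right (f := f) (s := s) (n := k)
    (fun t ht => (h1 t ht).contDiffWithinAt) h2.uniqueDiffOn h4.uniqueDiffOn h3 (i := k) le_rfl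
  rwa [iteratedFDerivWithin_of_isOpen _ h4 h3, iteratedFDerivWithin_of_isOpen _ h2 h3] at this

theorem aff_sm {f : X → Y} {a s : X} {μ : ℝ} (hf : ContDiffAt ℝ ∞ f (a + μ • s)) :
    ContDiffAt ℝ ∞ (fun t => f (a + μ • t)) s :=
  ContDiffAt.comp (g := f) s hf (by fun_prop)

theorem aff_le {f : X → Y} {a s : X} {μ : ℝ} (hμ : 0 ≤ μ) (k : ℕ)
    (hf : ContDiffAt ℝ ∞ f (a + μ • s)) :
    ‖iteratedFDeriv ℝ k (fun t => f (a + μ • t)) s‖ ≤ μ ^ k * ‖iteratedFDeriv ℝ k f (a + μ • s)‖ := by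
  have h1 : ContDiffAt ℝ k (fun t => f (a + t)) ((μ • ContinuousLinearMap.id ℝ X) s) :=
    ContDiffAt.comp (g := f) _ (cda hf k) (by fun_prop)
  have h2 := itf_lin (μ • ContinuousLinearMap.id ℝ X) k h1
  rw [iteratedFDeriv_comp_add_left] at h2
  have h3 : ‖μ • ContinuousLinearMap.id ℝ X‖ ≤ μ := by
    rw [norm_smul, Real.norm_of_nonneg hμ]
    exact mul_le_of_le_one_right hμ ContinuousLinearMap.norm_id_le
  refine (le_of_eq (congrArg norm h2)).trans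
    ((ContinuousMultilinearMap.norm_compContinuousLinearMap_le _ _).trans ?_)
  rw [mul_comm, Finset.prod_const, Finset.card_univ, Fintype.card_fin]
  exact mul_le_mul_of_nonneg_right (pow_le_pow_left₀ (norm_nonneg _) h3 k) (norm_nonneg _)

/-- recentre at `a`, rescale the source by `μ` and the target by `μ'` -/
noncomputable def sc (μ μ' : ℝ) (a : X) (f : X → Y) : X → Y :=
  fun s => μ'⁻¹ • (f (a + μ • s) - f a)

theorem sc_zero (μ μ' : ℝ) (a : X) (f : X → Y) : sc μ μ' a f 0 = 0 := by simp [sc]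

theorem add_sc {μ μ' : ℝ} (h : μ' ≠ 0) (a : X) (f : X → Y) (s : X) :
    f a + μ' • sc μ μ' a f s = f (a + μ • s) := by simp [sc, smul_smul, mul_inv_cancel₀ h]

theorem sc_sm {f : X → Y} {a s : X} {μ μ' : ℝ} (hf : ContDiffAt ℝ ∞ f (a + μ • s)) :
    ContDiffAt ℝ ∞ (sc μ μ' a f) s := ((aff_sm hf).sub contDiffAt_const).const_smul _

theorem sc_le {f : X → Y} {a s : X} {μ μ' θ : ℝ} (h0 : 0 < μ') (hμ : 0 ≤ μ) (h1 : μ ≤ 1)
    (hθ : μ ≤ θ * μ') {k : ℕ} (hk : 1 ≤ k) (hf : ContDiffAt ℝ ∞ f (a + μ • s)) :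
    ‖iteratedFDeriv ℝ k (sc μ μ' a f) s‖ ≤ θ * ‖iteratedFDeriv ℝ k f (a + μ • s)‖ := by
  have e : iteratedFDeriv ℝ k (sc μ μ' a f) s =
      μ'⁻¹ • iteratedFDeriv ℝ k (fun t => f (a + μ • t)) s := by
    unfold sc
    rw [iteratedFDeriv_const_smul_apply' (cda ((aff_sm hf).sub contDiffAt_const) k),
      fun_iteratedFDeriv_sub_apply (cda (aff_sm hf) k) contDiffAt_const,
      iteratedFDeriv_const_of_ne (by omega)]
    simp
  rw [e, norm_smul, Real.norm_of_nonneg (inv_nonneg.2 h0.le)]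
  have h2 : μ ^ k ≤ θ * μ' := (pow_le_of_le_one hμ h1 (by omega)).trans hθ
  calc _ ≤ μ'⁻¹ * (θ * μ' * ‖iteratedFDeriv ℝ k f (a + μ • s)‖) :=
        mul_le_mul_of_nonneg_left ((aff_le hμ k hf).trans
          (mul_le_mul_of_nonneg_right h2 (norm_nonneg _))) (inv_nonneg.2 h0.le)
    _ = _ := by field_simp

theorem mem_aff {R R1 μ : ℝ} {y s : E} (hy : ‖y‖ + R1 ≤ R) (hμ : 0 ≤ μ) (h1 : μ ≤ 1)
    (hs : s ∈ ball (0 : E) R1) : y + μ • s ∈ ball (0 : E) R := by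
  rw [mem_ball_zero_iff] at hs ⊢
  have := norm_add_le y (μ • s)
  rw [norm_smul, Real.norm_of_nonneg hμ] at this
  nlinarith [norm_nonneg s]

theorem Plq.sc {R R1 μ μ' θ : ℝ} {c : ℕ → ℝ} {ι : E → X} (h : Plq R c ι) {y : E}
    (hy : ‖y‖ + R1 ≤ R) (h0 : 0 < μ') (hμ : 0 ≤ μ) (h1 : μ ≤ 1) (hθ : μ ≤ θ * μ') (θ0 : 0 ≤ θ) :
    Plq R1 (fun k => θ * c k) (sc μ μ' y ι) :=
  ⟨fun _ hs => sc_sm (h.sm _ (mem_aff hy hμ h1 hs)), fun k hk _ hs =>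
    (sc_le h0 hμ h1 hθ hk (h.sm _ (mem_aff hy hμ h1 hs))).trans
      (mul_le_mul_of_nonneg_left (h.bd k hk _ (mem_aff hy hμ h1 hs)) θ0)⟩

theorem Tb.sc {R R1 r μ : ℝ} {ι : E → X} {y : E} {w : X} (hy : ‖y‖ + R1 ≤ R) (h0 : 0 < μ)
    (h1 : μ ≤ 1) (h : Tb R1 r (sc μ μ y ι) w) : Tb R r ι (ι y + μ • w) := by
  obtain ⟨s, hs, h⟩ := h
  refine ⟨y + μ • s, mem_aff hy h0.le h1 hs, ?_⟩
  rw [← add_sc h0.ne' y ι s, add_sub_add_left_eq_sub, ← smul_sub, norm_smul,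
    Real.norm_of_nonneg h0.le]
  nlinarith [norm_nonneg (w - G0.sc μ μ y ι s)]

theorem lip_ball {f : X → Y} {a x y : X} {r L : ℝ} (hf : ∀ z ∈ ball a r, ContDiffAt ℝ ∞ f z)
    (hL : ∀ z ∈ ball a r, ‖fderiv ℝ f z‖ ≤ L) (hx : x ∈ ball a r) (hy : y ∈ ball a r) :
    ‖f x - f y‖ ≤ L * ‖x - y‖ :=
  Convex.norm_image_sub_le_of_norm_fderiv_le (𝕜 := ℝ)
    (fun z hz => (hf z hz).differentiableAt (by simp)) hL (convex_ball _ _) hy hx

variable {R r q L b : ℝ} {c : ℕ → ℝ}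

theorem As.sc {ι ι' : E → X} {ψ : E → E} {φ : X → X} {A : X → V →L[ℝ] V}
    (h : As R r q L b c ι ι' ψ φ A) {R1 μ μ' θ : ℝ} {y : E} (hR : 0 < R1) (hy : ‖y‖ + R1 ≤ R)
    (h0 : 0 < μ') (hμ : 0 < μ) (h1 : μ ≤ 1) (hθ : μ ≤ θ * μ') (θ1 : 1 ≤ θ) (hq : θ * q ≤ 1) :
    As R1 r (θ * q) (θ * L) b (fun k => θ * c k) (sc μ μ y ι) (sc μ' μ' (ψ y) ι') (sc μ μ' y ψ)
      (sc μ μ' (ι y) φ) fun w => A (ι y + μ • w) := by
  have θ0 : 0 ≤ θ := by linarith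
  have hp := h.pψ.sc hy h0 hμ.le h1 hθ θ0
  have hn : ∀ s ∈ ball (0 : E) R1, ‖fderiv ℝ (G0.sc μ μ' y ψ) s‖ ≤ θ * q := fun s hs => by
    have m := mem_aff hy hμ.le h1 hs
    have := sc_le h0 hμ.le h1 hθ le_rfl (h.pψ.sm _ m)
    rw [norm_iteratedFDeriv_one, norm_iteratedFDeriv_one] at this
    exact this.trans (mul_le_mul_of_nonneg_left (h.nψ _ m) θ0)
  have y0 : y ∈ ball (0 : E) R := by rw [mem_ball_zero_iff]; linarith
  refine ⟨hp, hn, fun s hs => ?_, fun s hs => ?_, fun w hw => sc_sm (h.sφ _ (hw.sc hy hμ h1)),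
    fun k hk w hw => ?_, fun w hw => ?_, fun w hw => aff_sm (h.sA _ (hw.sc hy hμ h1)),
    fun k w hw => ?_, fun w hw => h.nA _ (hw.sc hy hμ h1), fun w hw => h.iA _ (hw.sc hy hμ h1)⟩
  · have := lip_ball hp.sm hn hs (mem_ball_self hR)
    rw [sc_zero, sub_zero, sub_zero] at this
    rw [mem_ball_zero_iff] at hs ⊢
    nlinarith [norm_nonneg s]
  · show μ'⁻¹ • (φ (ι y + μ • G0.sc μ μ y ι s) - φ (ι y)) =
      μ'⁻¹ • (ι' (ψ y + μ' • G0.sc μ μ' y ψ s) - ι' (ψ y))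
    rw [add_sc hμ.ne', add_sc h0.ne', h.gr _ (mem_aff hy hμ.le h1 hs), h.gr _ y0]
  · exact (sc_le h0 hμ.le h1 hθ hk (h.sφ _ (hw.sc hy hμ h1))).trans
      (mul_le_mul_of_nonneg_left (h.dφ k hk _ (hw.sc hy hμ h1)) θ0)
  · have := sc_le h0 hμ.le h1 hθ le_rfl (h.sφ _ (hw.sc hy hμ h1))
    rw [norm_iteratedFDeriv_one, norm_iteratedFDeriv_one] at this
    exact this.trans (mul_le_mul_of_nonneg_left (h.nφ _ (hw.sc hy hμ h1)) θ0)
  · have m := h.dA k _ (hw.sc hy hμ h1)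
    refine (aff_le hμ.le k (h.sA _ (hw.sc hy hμ h1))).trans ?_
    exact mul_le_mul ((pow_le_one₀ hμ.le h1).trans θ1) m (norm_nonneg _) θ0

variable {T : ℕ} {ι : ℕ → E → X} {ψ : ℕ → E → E} {φ : ℕ → X → X} {A : ℕ → X → V →L[ℝ] V}
  {Θ : ℕ → X → V}

theorem Amb.orb_mem (h : Amb R r q L b c T ι ψ φ A Θ) {y : E} (hy : y ∈ ball (0 : E) R) :
    ∀ j ≤ T, orb ψ y j ∈ ball (0 : E) R
  | 0, _ => hy
  | j + 1, hj => (h.st j hj).mp _ (h.orb_mem hy j (Nat.le_of_succ_le hj))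



/-- the thin tube stays in the tubes -/
theorem Amb.tube (h : Amb R r q L b c T ι ψ φ A Θ) (hL : 1 ≤ L) {y : E} (hy : y ∈ ball (0 : E) R)
    {z : X} (hz : L ^ T * ‖z - ι 0 y‖ < r) :
    ∀ j ≤ T, ‖orb φ z j - ι j (orb ψ y j)‖ ≤ L ^ j * ‖z - ι 0 y‖
  | 0, _ => by simp [orb]
  | j + 1, hj => by
    have hj' := Nat.le_of_succ_le hj
    have ih := h.tube hL hy hz j hj'
    have m := h.orb_mem hy j hj'
    have h1 : L ^ j * ‖z - ι 0 y‖ < r :=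
      (mul_le_mul_of_nonneg_right (pow_le_pow_right₀ hL hj') (norm_nonneg _)).trans_lt hz
    have tb : ∀ w ∈ ball (ι j (orb ψ y j)) r, Tb R r (ι j) w := fun w hw =>
      ⟨_, m, mem_ball_iff_norm.1 hw⟩
    have := lip_ball (fun w hw => (h.st j hj).sφ w (tb w hw))
      (fun w hw => (h.st j hj).nφ w (tb w hw)) (mem_ball_iff_norm.2 (ih.trans_lt h1))
      (mem_ball_self ((norm_nonneg _).trans_lt (ih.trans_lt h1)))
    rw [(h.st j hj).gr _ m] at this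
    refine this.trans ?_
    rw [pow_succ', mul_assoc]
    exact mul_le_mul_of_nonneg_left ih (by linarith)

theorem Amb.tb (h : Amb R r q L b c T ι ψ φ A Θ) (hL : 1 ≤ L) {y : E} (hy : y ∈ ball (0 : E) R)
    {z : X} (hz : L ^ T * ‖z - ι 0 y‖ < r) {j : ℕ} (hj : j ≤ T) : Tb R r (ι j) (orb φ z j) :=
  ⟨_, h.orb_mem hy j hj, (h.tube hL hy hz j hj).trans_lt
    ((mul_le_mul_of_nonneg_right (pow_le_pow_right₀ hL hj) (norm_nonneg _)).trans_lt hz)⟩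

theorem chain_le {b : ℝ} (hb : 0 ≤ b) {T : ℕ} {u : ℕ → ℝ} (h : ∀ j < T, u j ≤ b * u (j + 1)) :
    u 0 ≤ b ^ T * u T := by
  induction T with
  | zero => simp
  | succ T ih =>
    refine (ih fun j hj => h j (Nat.lt_succ_of_lt hj)).trans ?_
    rw [pow_succ, mul_assoc]
    exact mul_le_mul_of_nonneg_left (h T (Nat.lt_succ_self T)) (pow_nonneg hb T)



/-- error: `e j z v` is any size that grows by at most `b'` under pull back -/
theorem Amb.err (h : Amb R r q L b c T ι ψ φ A Θ) {b' : ℝ} (hb : 0 ≤ b') {z : X}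
    (e : ℕ → X → V → ℝ)
    (he : ∀ j < T, ∀ v, e j (orb φ z j) (A j (orb φ z j) v) ≤ b' * e (j + 1) (orb φ z (j + 1)) v) :
    e 0 z (Θ 0 z) ≤ b' ^ T * e T (orb φ z T) (Θ T (orb φ z T)) :=
  chain_le (u := fun j => e j (orb φ z j) (Θ j (orb φ z j))) hb fun j hj => by
    have := he j hj (Θ (j + 1) (orb φ z (j + 1)))
    rw [h.rel j hj]
    exact this

/-- a bound for `c 0, …, c k` -/
noncomputable def cb (c : ℕ → ℝ) (k : ℕ) : ℝ := ∑ i ∈ Finset.range (k + 1), |c i|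

theorem cb_nonneg (c : ℕ → ℝ) (k : ℕ) : 0 ≤ cb c k := Finset.sum_nonneg fun _ _ => abs_nonneg _

theorem le_cb (c : ℕ → ℝ) {i k : ℕ} (h : i ≤ k) : c i ≤ cb c k :=
  (le_abs_self _).trans (Finset.single_le_sum (f := fun i => |c i|) (fun _ _ => abs_nonneg _)
    (Finset.mem_range.2 (Nat.lt_succ_of_le h)))

theorem Amb.sm (h : Amb R r q L b c T ι ψ φ A Θ) {z : X}
    (hz : ∀ j < T, Tb R r (ι j) (orb φ z j)) (hG : ContDiffAt ℝ ∞ (Θ T) (orb φ z T)) :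
    ∀ j ≤ T, ContDiffAt ℝ ∞ (Θ j) (orb φ z j) := by
  intro j hj
  induction hj using Nat.decreasingInduction with
  | self => exact hG
  | of_succ j hj ih =>
    rw [show Θ j = fun w => A j w (Θ (j + 1) (φ j w)) from funext (h.rel j hj)]
    exact ((h.st j hj).sA _ (hz j hj)).clm_apply
      (ContDiffAt.comp (g := Θ (j + 1)) _ ih ((h.st j hj).sφ _ (hz j hj)))

/-- crude bounds on the tube -/
theorem crude (k : ℕ) (L b : ℝ) (c : ℕ → ℝ) (hb : 1 ≤ b) (hL : 1 ≤ L) : ∃ C : ℝ, 1 ≤ C ∧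
    ∀ (E X V : Type) [NormedAddCommGroup E] [NormedSpace ℝ E] [NormedAddCommGroup X]
    [NormedSpace ℝ X] [NormedAddCommGroup V] [NormedSpace ℝ V] (R r q : ℝ) (T : ℕ)
    (ι : ℕ → E → X) (ψ : ℕ → E → E) (φ : ℕ → X → X) (A : ℕ → X → V →L[ℝ] V) (Θ : ℕ → X → V)
    (z : X) (d : ℝ), Amb R r q L b c T ι ψ φ A Θ → (∀ j < T, Tb R r (ι j) (orb φ z j)) →
    ContDiffAt ℝ ∞ (Θ T) (orb φ z T) → (∀ i ≤ k, ‖iteratedFDeriv ℝ i (Θ T) (orb φ z T)‖ ≤ d) →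
    ∀ i ≤ k, ‖iteratedFDeriv ℝ i (Θ 0) z‖ ≤ C * (2 * b * L ^ k) ^ T * d := by
  obtain ⟨C, C1, hC⟩ := cr k b L (cb c k) hb hL (cb_nonneg c k)
  refine ⟨C, C1, fun E X V _ _ _ _ _ _ R r q T ι ψ φ A Θ z d h hz hG hd => ?_⟩
  exact (hC X V T φ A Θ (orb φ z) d (fun j hj =>
    ⟨cda ((h.st j hj).sφ _ (hz j hj)) k, cda ((h.st j hj).sA _ (hz j hj)) k, rfl,
      (h.st j hj).nA _ (hz j hj), (h.st j hj).nφ _ (hz j hj),
      fun i i1 hi => ((h.st j hj).dφ i i1 _ (hz j hj)).trans (le_cb c hi),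
      fun i hi => ((h.st j hj).dA i _ (hz j hj)).trans (le_cb c hi),
      Eventually.of_forall (h.rel j hj)⟩) (cda hG k) hd 0 T.zero_le).2

/-- recentre at the orbit of `y` and rescale by `μ j` -/
theorem Amb.sc (h : Amb R r q L b c T ι ψ φ A Θ) {R1 θ : ℝ} {y : E} {μ : ℕ → ℝ} (hR : 0 < R1)
    (hy : ∀ j ≤ T, ‖orb ψ y j‖ + R1 ≤ R) (h0 : ∀ j, 0 < μ j) (h1 : ∀ j, μ j ≤ 1)
    (hθ : ∀ j, μ j ≤ θ * μ (j + 1)) (θ1 : 1 ≤ θ) (hq : θ * q ≤ 1) :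
    Amb R1 r (θ * q) (θ * L) b (fun k => θ * c k) T
      (fun j => sc (μ j) (μ j) (orb ψ y j) (ι j)) (fun j => sc (μ j) (μ (j + 1)) (orb ψ y j) (ψ j))
      (fun j => sc (μ j) (μ (j + 1)) (ι j (orb ψ y j)) (φ j))
      (fun j w => A j (ι j (orb ψ y j) + μ j • w)) fun j w => Θ j (ι j (orb ψ y j) + μ j • w) := by
  refine ⟨fun j hj => (h.pl j hj).sc (hy j hj) (h0 j) (h0 j).le (h1 j)
      (le_mul_of_one_le_left (h0 j).le θ1) (by linarith),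
    fun j hj => (h.st j hj).sc hR (hy j hj.le) (h0 _) (h0 j) (h1 j) (hθ j) θ1 hq,
    fun j hj w => ?_⟩
  have m : orb ψ y j ∈ ball (0 : E) R := by rw [mem_ball_zero_iff]; linarith [hy j hj.le]
  rw [h.rel j hj, orb, ← (h.st j hj).gr _ m, add_sc (h0 _).ne']

end Crest.Agent.N221.G0
private theorem rz_a023e657a7 : type_of% @_root_.Crest.Agent.N221.G0.orb.eq_def := @_root_.Crest.Agent.N221.G0.orb.eq_def -- L51
private theorem rz_fe88a2c5c2 : type_of% @_root_.Crest.Agent.N221.G0.orb.eq_1 := @_root_.Crest.Agent.N221.G0.orb.eq_1 -- L51
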