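import Crest.Agent.N221.Car.Main_Mg
import Crest.Agent.N221.Car.Rep1
import Crest.Agent.N221.Car.BrFin_Mg
import Crest.Agent.N221.Car.BrFrm
import Crest.Agent.N221.T6.Defs
import Crest.Agent.N221.K.In3
import Crest.Agent.N221.H.Uniq_Mg
import Crest.Agent.N221.A1.Hu
import Crest.Agent.N221.A1.Dy
import Crest.Agent.N221.Hm.Fin
import Crest.Agent.N221.Ex.Ux_Mg
import Crest.Agent.N221.G0.One
import Crest.Agent.N221.G0.ApB
import Crest.Agent.N221.X.Int
import Crest.Agent.N221.Ex.UB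
import Crest.Agent.N221.A1.PAll
import Crest.Agent.N221.G0.So2
import Crest.Agent.N221.G0.So
import Crest.Agent.N221.G0.LPoly

-- ▼ part N221/Car/All
section

/-!
Row 221, block `Car` (helper34): all statements without hypotheses.
-/

set_option autoImplicit false

namespace Crest.Agent.N221.Car

theorem p1 : Pol1S := pol1S
theorem p2 : Pol2S := pol2S
theorem p3 : Pol3S := pol3S p1 p2
theorem r1 : Rep1S := rep1S p1 p2
theorem r2 : Rep2S := rep2S p1 p2 p3 r1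
theorem r3 : Rep3S := rep3S p1 p2 p3 r1 r2
theorem core : CoreS := coreS p1 p2 p3 weitzS r1 r2 r3 sumS

/-- FINITE DEGREE -/
theorem car : CarS := carS p1 r1 r3 core

end Crest.Agent.N221.Car
end

-- ▼ part N221/Car/BrAll
section

/-!
Row 221, block `Car` (helper34): the bridge without hypotheses.
-/

set_option autoImplicit false

namespace Crest.Agent.N221

theorem good : GoodS := goodS ibpS frmS

/-- FINITE DEGREE on the cover -/
theorem finDeg : FinS := finS Car.car frmS good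

end Crest.Agent.N221
end

-- ▼ part N221/T6/Ev
section

/-!
Row 221, step P6: derivatives of `ev` (`EvS`) and finite degree for families given on unit
vectors (`FamS`).
-/

set_option autoImplicit false

open MvPolynomial MeasureTheory Set Function
open scoped ContDiff RealInnerProductSpace
open Crest.GeometryTopology.Submanifold
open Crest.Agent.R241.DDefs Crest.Agent.R241.D2
open Crest.Agent.R208.J Crest.Agent.R208.L
open Crest.Agent.R086 Crest.Agent.R086.SH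

noncomputable section

namespace Crest.Agent.N221.T6

open Car

namespace Ev

variable {n : ℕ}

lemma ev_C (φ : Car.Sm n) (x v : EE n) : ev (MvPolynomial.C φ) x v = φ.1 x := by
  simp [ev, Co.ax_C, pfun]

lemma ev_X (i : Fin n) (x v : EE n) : ev (MvPolynomial.X i) x v = v i := by
  simp [ev, Co.ax_X, pfun]

lemma ev_add (P Q : PP n) (x v : EE n) : ev (P + Q) x v = ev P x v + ev Q x v := by
  simp [ev, Co.ax_add]

lemma ev_mul (P Q : PP n) (x v : EE n) : ev (P * Q) x v = ev P x v * ev Q x v := by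
  simp [ev, Co.ax_mul]


lemma ev_zero (x v : EE n) : ev (0 : PP n) x v = 0 := by simp [ev, ax, pfun]

lemma ev_one (x v : EE n) : ev (1 : PP n) x v = 1 := by simp [ev, ax, pfun]

lemma ev_neg (P : PP n) (x v : EE n) : ev (-P) x v = -ev P x v := by simp [ev, ax, pfun]


lemma ev_sum {ι : Type} (s : Finset ι) (P : ι → PP n) (x v : EE n) :
    ev (∑ i ∈ s, P i) x v = ∑ i ∈ s, ev (P i) x v := by
  simp only [ev, Co.ax_sum, pfun_sum]

lemma un_C (φ : Car.Sm n) : uncurry (ev (MvPolynomial.C φ)) = fun z : EE n × EE n => φ.1 z.1 :=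
  funext fun z => ev_C φ z.1 z.2

lemma un_add (P Q : PP n) : uncurry (ev (P + Q)) = uncurry (ev P) + uncurry (ev Q) :=
  funext fun z => ev_add P Q z.1 z.2

lemma un_X (P : PP n) (i : Fin n) :
    uncurry (ev (P * MvPolynomial.X i)) = fun z : EE n × EE n => uncurry (ev P) z * z.2 i :=
  funext fun z => (ev_mul P _ z.1 z.2).trans (by rw [ev_X]; rfl)

lemma sm (P : PP n) : SmU (ev P) := by
  unfold SmU
  induction P using MvPolynomial.induction_on with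
  | C φ => rw [un_C]; exact (Car.Sm.sm φ).comp contDiff_fst
  | add P Q hP hQ => rw [un_add]; exact hP.add hQ
  | mul_X P i hP => rw [un_X]; exact hP.mul (by fun_prop)

/-- point derivations of `PP n` -/
lemma uniq (x v a b : EE n) (D : PP n → ℝ) (hC : ∀ φ, D (MvPolynomial.C φ) = fderiv ℝ φ.1 x a)
    (hA : ∀ P Q, D (P + Q) = D P + D Q)
    (hX : ∀ P i, D (P * MvPolynomial.X i) = ev P x v * b i + v i * D P) (P : PP n) :
    fderiv ℝ (uncurry (ev P)) (x, v) (a, b) = D P := by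
  have hd : ∀ P : PP n, DifferentiableAt ℝ (uncurry (ev P)) (x, v) := fun P =>
    ContDiff.differentiable (sm P) (by simp) _
  induction P using MvPolynomial.induction_on with
  | C φ =>
    have h := HasFDerivAt.comp (x, v) (g := φ.1)
      ((Car.Sm.sm φ).differentiable (by simp) x).hasFDerivAt (hasFDerivAt_fst (𝕜 := ℝ) (p := (x, v)))
    rw [un_C, hC]
    exact congrArg (fun L => L (a, b)) h.fderiv
  | add P Q hP hQ => rw [un_add, fderiv_add (hd P) (hd Q), hA, ← hP, ← hQ]; rfl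
  | mul_X P i hP =>
    have h1 : HasFDerivAt (fun z : EE n × EE n => z.2 i)
        ((EuclideanSpace.proj i).comp (ContinuousLinearMap.snd ℝ (EE n) (EE n))) (x, v) :=
      ((EuclideanSpace.proj i).comp (ContinuousLinearMap.snd ℝ (EE n) (EE n))).hasFDerivAt
    rw [un_X, hX, ← hP]
    exact congrArg (fun L => L (a, b)) ((hd P).hasFDerivAt.mul h1).fderiv

variable {N : ℕ} {a : ℝ} {S : Set (Euc N)} {G : Geo n N (-(a ^ 2)) S} {C : Cov G} (Φ : Frm C)

/-- coordinates in the frame -/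
def ad (x : Euc n) (w : Euc N) : Euc n := ∑ k, ⟪w, Φ.O x (Frm.ε k)⟫ • (Frm.ε k : Euc n)

lemma ad_O (x v : Euc n) : ad Φ x (Φ.O x v) = v := by
  conv_rhs => rw [← Frm.sum_ε v]
  refine Finset.sum_congr rfl fun k _ => ?_
  rw [Φ.inner_O]
  simp [EuclideanSpace.inner_single_right]

lemma ad_sm : ContDiff ℝ ∞ fun z : Euc n × Euc N => ad Φ z.1 z.2 :=
  ContDiff.sum fun _ _ =>
    (contDiff_snd.inner ℝ ((Φ.col_sm _).comp contDiff_fst)).smul contDiff_const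

lemma un_O {x : Euc n} {w : Euc N} (h : C.Un x w) : ∃ v, ‖v‖ = 1 ∧ Φ.O x v = w := by
  obtain ⟨v, rfl⟩ := Φ.O_surj x h.1.2
  exact ⟨v, (Φ.norm_O x v).symm.trans h.2, rfl⟩

end Ev

open Ev

theorem evS : EvS := by
  intro n P
  refine ⟨sm P, fun x v u => ?_, fun F i x v => ?_⟩
  · refine uniq x v 0 u (fun P => ∑ i, u i * ev (pderiv i P) x v) (fun φ => by simp [ev_zero])
      (fun P Q => by simp only [map_add, ev_add, mul_add, Finset.sum_add_distrib]) (fun P j => ?_) P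
    classical
    have h : ∀ i, ev (pderiv i (P * MvPolynomial.X j)) x v =
        (if i = j then ev P x v else 0) + v j * ev (pderiv i P) x v := by
      intro i
      rw [Derivation.leibniz, smul_eq_mul, smul_eq_mul, ev_add, ev_mul, ev_mul, ev_X, pderiv_X,
        Pi.single_apply]
      by_cases e : i = j
      · simp [e, ev_one]
      · simp [e, Ne.symm e, ev_zero]
    simp only [h, mul_add, Finset.sum_add_distrib, mul_ite, mul_zero, Finset.sum_ite_eq',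
      Finset.mem_univ, if_true, Finset.mul_sum, mul_comm (u j), mul_left_comm (v j)]
  · refine uniq x v _ _ (fun P => ev (F.alg.nab i P) x v) (fun φ => ?_) (fun P Q => ?_)
      (fun P j => ?_) P
    · rw [← Wz.nabD_apply, Wz.nab_C, ev_C]; rfl
    · simp only [← Wz.nabD_apply, map_add, ev_add]
    · simp only [← Wz.nabD_apply]
      rw [Derivation.leibniz, smul_eq_mul, smul_eq_mul, ev_add, ev_mul, ev_mul, ev_X, Wz.nab_X,
        ev_neg, ev_sum]
      simp only [ev_mul, ev_C, ev_X]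
      rfl

theorem famS : FamS := by
  intro n N a S G C Φ H ι _ L k hsm hfl hD
  classical
  let F : ι → Euc n → Euc N → ℝ := fun i x w => L i x (Φ.O x (‖ad Φ x w‖⁻¹ • ad Φ x w))
  have hF : ∀ i x w, C.Un x w → F i x w = L i x w := by
    intro i x w h
    obtain ⟨v, hv, rfl⟩ := un_O Φ h
    simp only [F, ad_O, hv, inv_one, one_smul]
  have hL : ∀ y x w, Fintype.linearCombination ℝ F y x w = ∑ i, y i * F i x w := fun y x w => by
    simp [Fintype.linearCombination_apply, Finset.sum_apply]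
  obtain ⟨D, P, hP, -, hu⟩ := finDeg n N a S G C Φ H (ι → ℝ) (Fintype.linearCombination ℝ F) k
    (fun y x w h => by
      obtain ⟨v, hv, rfl⟩ := un_O Φ h
      rw [show uncurry (Fintype.linearCombination ℝ F y) = fun z => ∑ i, y i * F i z.1 z.2 from
        funext fun z => hL y z.1 z.2]
      refine ContDiffAt.sum fun i _ => contDiffAt_const.mul ?_
      refine ContDiffAt.comp (g := fun z : Euc n × Euc n => L i z.1 (Φ.O z.1 (‖z.2‖⁻¹ • z.2)))
        (f := fun z : Euc n × Euc N => (z.1, ad Φ z.1 z.2)) _ ?_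
        (contDiff_fst.prodMk (ad_sm Φ)).contDiffAt
      simp only [ad_O]
      exact hsm i x v hv)
    (fun y x w h => by
      have e : (fun t => Fintype.linearCombination ℝ F y (C.gd x w t) (C.vel x w t)) =
          fun t => Real.exp (k * t) * Fintype.linearCombination ℝ F y x w := by
        funext t
        simp only [hL, hF _ _ _ h, hF _ _ _ (Cov.Un.vel C h t), hfl _ _ _ t h, Finset.mul_sum,
          mul_left_comm]
      rw [e]
      simpa using (((hasDerivAt_id (0 : ℝ)).const_mul k).exp).mul_const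
        (Fintype.linearCombination ℝ F y x w))
    (fun g hg y => by
      choose c hc using hD g hg
      refine ⟨fun j => ∑ i, y i * c i j, fun x w h => ?_⟩
      have h' : C.Un (g x) w := by unfold Cov.Un; rw [hg.pr_eq]; exact h
      simp only [hL, hF _ _ _ h, hF _ _ _ h', hc _ _ _ h, Finset.mul_sum, Finset.sum_mul, mul_assoc]
      exact Finset.sum_comm)
  refine ⟨D, fun i => P (Pi.single i 1), fun i l x => hP _ l x, fun i x v hv => ?_⟩
  have h := hu (Pi.single i 1) x v hv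
  rw [Fintype.linearCombination_apply_single, one_smul, hF _ _ _ (Φ.un hv)] at h
  rw [h, ev_sum]
  rfl

end Crest.Agent.N221.T6
end
end

-- ▼ part N221/T6/Main
section

/-!
Row 221, step P6: the affine case (`AffS`) and the assembly (`T6S`).
-/

set_option autoImplicit false

open MvPolynomial MeasureTheory Set Function Filter Topology
open scoped ContDiff RealInnerProductSpace
open Crest.GeometryTopology.Submanifold
open Crest.Agent.R241.DDefs Crest.Agent.R241.D2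
open Crest.Agent.R208.J Crest.Agent.R208.L
open Crest.Agent.R086 Crest.Agent.R086.SH

noncomputable section

namespace Crest.Agent.N221.T6

open Car Ev

namespace Mn

variable {n : ℕ}

lemma pfun0 {p : P0 n} (hp : p.IsHomogeneous 0) (v : EE n) : pfun p v = coeff 0 p := by
  rw [← totalDegree_zero_iff_isHomogeneous, totalDegree_eq_zero_iff_eq_C] at hp
  conv_lhs => rw [hp]
  simp [pfun]

lemma pfun1 {p : P0 n} (hp : p.IsHomogeneous 1) (v : EE n) :
    pfun p v = ∑ i, coeff 0 (pderiv i p) * v i := by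
  have h := hp.sum_X_mul_pderiv
  rw [one_smul] at h
  conv_lhs => rw [← h, pfun_sum]
  refine Finset.sum_congr rfl fun i _ => ?_
  rw [pfun_mul, pfun0 hp.pderiv, mul_comm]
  simp [pfun]

/-- a sum of harmonic components of degree `≤ 1` -/
lemma low (D : ℕ) (P : ℕ → PP n) (hP : ∀ l x, Sph.Harm l (ax x (P l)))
    (h2 : ∀ l, 2 ≤ l → l < D → P l = 0) : ∃ (c : EE n → ℝ) (z : Fin n → Car.Sm n),
    ∀ x v, ev (∑ l ∈ Finset.range D, P l) x v = c x + ∑ i, (z i).1 x * v i := by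
  induction D with
  | zero => exact ⟨0, 0, fun x v => by simp [ev_zero]⟩
  | succ D ih =>
    obtain ⟨c, z, H⟩ := ih fun l h h' => h2 l h (by omega)
    rcases D with _ | _ | D
    · refine ⟨fun x => c x + coeff 0 (ax x (P 0)), z, fun x v => ?_⟩
      rw [Finset.sum_range_succ, ev_add, H, ev, pfun0 (hP 0 x).hom]
      ring
    · refine ⟨c, fun i => z i + coeff 0 (pderiv i (P 1)), fun x v => ?_⟩
      rw [Finset.sum_range_succ, ev_add, H, ev, pfun1 (hP 1 x).hom, add_assoc,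
        ← Finset.sum_add_distrib]
      refine congrArg _ (Finset.sum_congr rfl fun i _ => ?_)
      rw [← R1.ax_pderiv, R1.coeff_ax, ← add_mul]
      rfl
    · refine ⟨c, z, fun x v => ?_⟩
      rw [Finset.sum_range_succ, h2 _ (by omega) (by omega), add_zero, H]

variable {N : ℕ} {a : ℝ} {S : Set (Euc N)} {G : Geo n N (-(a ^ 2)) S} {C : Cov G} (Φ : Frm C)

lemma sm_O (x : Euc n) {v : Euc n} (hv : ‖v‖ = 1) :
    ContDiffAt ℝ ∞ (fun z : Euc n × Euc n => Φ.O z.1 (‖z.2‖⁻¹ • z.2)) (x, v) :=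
  (Φ.O_sm.contDiffAt.comp _ contDiffAt_fst).clm_apply
    ((((contDiffAt_norm ℝ (Cov.bas_ne0 hv)).comp (x, v) contDiffAt_snd).inv
      (by simp [hv])).smul contDiffAt_snd)

lemma ev_un (x : Euc n) {v : Euc n} (hv : ‖v‖ = 1) :
    ∀ᶠ z : Euc n × Euc n in 𝓝 (x, v), C.Un z.1 (Φ.O z.1 (‖z.2‖⁻¹ • z.2)) :=
  ((continuousAt_snd (p := (x, v))).eventually_ne (Cov.bas_ne0 hv)).mono fun _ hz =>
    Φ.un (norm_smul_inv_norm hz)

end Mn

open Mn

theorem affS : AffS := by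
  intro n N a S G C Φ h Y f D P hP h2 hμ
  obtain ⟨c, z, H⟩ := low D P hP h2
  have key : ∀ x w, C.Un x w →
      C.muK Y f x w = c x + ⟪∑ i, (z i).1 x • Φ.O x (Frm.ε i), w⟫ := by
    intro x w hw
    obtain ⟨v, hv, rfl⟩ := un_O Φ hw
    rw [hμ x v hv, H, sum_inner]
    refine congrArg _ (Finset.sum_congr rfl fun i _ => ?_)
    rw [real_inner_smul_left, Φ.inner_O]
    simp [EuclideanSpace.inner_single_left]
  have hc : ∀ x w, C.Un x w → C.muK Y f x w + C.muK Y f x (-w) = 2 * c x := by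
    intro x w hw
    rw [key x w hw, key x _ hw.neg, inner_neg_right]
    ring
  have hg : ∀ x, c x = c 0 := by
    intro x
    by_cases e : (0 : Euc n) = x
    · rw [e]
    have hw := C.un_dir e
    have h1 := hc _ _ (hw.vel C (C.dd 0 x))
    have h3 := C.muK_gd (Y := Y) (f := f) h hw.neg (-C.dd 0 x)
    rw [C.gd_neg, C.vel_neg hw.mem, neg_neg] at h3
    rw [C.muK_gd h hw, h3, hc _ _ hw, C.gd_dir] at h1
    linarith
  refine ⟨fun x => ∑ i, (z i).1 x • Φ.O x (Frm.ε i), c 0, ?_, fun x => ?_, fun x v hv => ?_⟩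
  · exact (ContDiff.sum fun i _ => (Car.Sm.sm (z i)).smul (Φ.col_sm _)).differentiable (by simp)
  · exact Submodule.sum_mem _ fun i _ => Submodule.smul_mem _ _ (Φ.O_mem _ _)
  · rw [key x v hv, hg]

theorem t6S (hF : FamS) (hB : BrS) (hT : TopS) (hA : AffS) : T6S := by
  intro n N a S G C h hh h0 ι _ Y f hK hD κ _ φ hφ hne hdk hcl i
  obtain ⟨Φ⟩ := frmExS n N a S G C
  have ha := h.hyp.a_pos
  obtain ⟨D, P, hP, eP⟩ := hF n N a S G C Φ h.hyp ι (fun i => C.muK (Y i) (f i)) 0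
    (fun i x v hv => by
      obtain ⟨Y', f', K⟩ := hK i
      exact C.contDiffAt_muK h K contDiffAt_fst (sm_O Φ x hv) (ev_un Φ x hv))
    (fun i x w t hw => by rw [zero_mul, Real.exp_zero, one_mul]; exact C.muK_gd h hw t) hD
  obtain ⟨D', A, hA', eA⟩ := hF n N a S G C Φ h.hyp κ (fun j => C.uu hh (φ j)) hh
    (fun j x v hv => by
      have hu := ev_un Φ x hv
      have c1 := C.contDiffAt_Psi h contDiffAt_fst (sm_O Φ x hv) hu
      have c2 := C.contDiffAt_ep h contDiffAt_fst (sm_O Φ x hv) hu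
      exact (contDiffAt_const.mul c1.snd).exp.mul
        ((hφ j _ (C.norm_ep ha hu.self_of_nhds)).comp (x, v) c2))
    (fun j x w t hw => by
      simp only [Cov.uu]
      rw [C.Psi_gd h hw, C.ep_gd ha hw, mul_add, Real.exp_add]
      ring)
    (fun g hg j => by
      obtain ⟨c, hc⟩ := hdk g hg j
      refine ⟨c, fun x w hw => ?_⟩
      have e := hc _ (C.norm_ep ha hw)
      simp only [Cov.uu]
      rw [C.Psi_deck h hg hw, ← C.act_ep ha hg hw, mul_add, Real.exp_add, mul_assoc,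
        show (C.PsiB x w).1.1 = C.ep x w from rfl, e, Finset.mul_sum]
      exact Finset.sum_congr rfl fun _ _ => by ring)
  obtain ⟨Y', f', K⟩ := hK i
  refine hA n N a S G C Φ h (Y i) (f i) D (P i) (hP i) ?_ (eP i)
  refine hT n h.hyp.hn Φ.fr hh h0 D D' (P i) κ A (hP i) hA' (fun x => ?_) fun j => ?_
  · obtain ⟨j, ξ, hξ, e⟩ := hne
    obtain ⟨v, hv, e1⟩ := un_O Φ (C.un_W ha (Cov.bas_ne0 hξ) x)
    refine ⟨j, v, hv, ?_⟩
    rw [← eA j x v hv, e1]
    simp only [Cov.uu]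
    rw [C.ep_W ha hξ]
    exact mul_ne_zero (Real.exp_pos _).ne' e
  · obtain ⟨c, hc⟩ := hcl i j
    refine ⟨c, fun x v hv => ?_⟩
    rw [← hB n N a S G C Φ h _ _ _ _ K hh (φ j) (hφ j) _ _ (eP i) (eA j) x v hv]
    simp only [← eA _ x v hv, Cov.uu]
    rw [hc _ (C.norm_ep ha (Φ.un hv)), Finset.mul_sum]
    exact Finset.sum_congr rfl fun _ _ => by ring

end Crest.Agent.N221.T6
end
end

-- ▼ part N221/T6/Alg
section

/-!
Row 221, step P6, algebra (helper67): a product of two nonzero harmonic homogeneous polynomials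
does not agree on the unit sphere with a polynomial of lower degree (`|x|²` is prime).
-/

set_option autoImplicit false

open MvPolynomial
open Crest.Agent.R086 Crest.Agent.R086.SH

noncomputable section

namespace Crest.Agent.N221

namespace T6

open Car

/-- a homogeneous polynomial vanishing on the unit sphere is zero -/
theorem hom_eq_zero_of_sphere {n d : ℕ} (hn : 1 ≤ n) {R : MvPolynomial (Fin n) ℝ}
    (hR : R.IsHomogeneous d)
    (h : ∀ v : EuclideanSpace ℝ (Fin n), ‖v‖ = 1 → pfun R v = 0) : R = 0 := by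
  apply MvPolynomial.funext
  intro x
  have key : ∀ v : EuclideanSpace ℝ (Fin n), pfun R v = 0 := by
    intro v
    obtain ⟨u, hu, hv⟩ : ∃ u : EuclideanSpace ℝ (Fin n), ‖u‖ = 1 ∧ v = ‖v‖ • u := by
      by_cases h0 : v = 0
      · refine ⟨EuclideanSpace.single (⟨0, hn⟩ : Fin n) 1, by simp, ?_⟩
        rw [h0]; simp
      · have hne : ‖v‖ ≠ 0 := norm_ne_zero_iff.2 h0
        refine ⟨‖v‖⁻¹ • v, ?_, ?_⟩
        · rw [norm_smul, norm_inv, norm_norm, inv_mul_cancel₀ hne]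
        · rw [smul_smul, mul_inv_cancel₀ hne, one_smul]
    rw [hv, pfun_smul_of_hom hR, h u hu, mul_zero]
  have := key (WithLp.toLp 2 x)
  simpa [pfun] using this

/-- `|x|²` is prime in at least two variables -/
theorem rho_prime {n : ℕ} (hn : 2 ≤ n) : Prime (rho : MvPolynomial (Fin n) ℝ) := by
  obtain ⟨m, rfl⟩ : ∃ m, n = m + 1 := ⟨n - 1, by omega⟩
  have hm : 1 ≤ m := by omega
  have himg : finSuccEquiv ℝ m (rho : MvPolynomial (Fin (m + 1)) ℝ) =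
      Polynomial.X ^ 2 + Polynomial.C (rho : MvPolynomial (Fin m) ℝ) := by
    simp only [rho, Fin.sum_univ_succ, map_add, map_pow, map_sum, finSuccEquiv_X_zero,
      finSuccEquiv_X_succ]
  have hmon : (Polynomial.X ^ 2 + Polynomial.C (rho : MvPolynomial (Fin m) ℝ)).Monic :=
    Polynomial.monic_X_pow_add_C _ (by norm_num)
  have hdeg : (Polynomial.X ^ 2 + Polynomial.C (rho : MvPolynomial (Fin m) ℝ)).natDegree = 2 :=
    Polynomial.natDegree_X_pow_add_C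
  have hirr : Irreducible (Polynomial.X ^ 2 + Polynomial.C (rho : MvPolynomial (Fin m) ℝ)) := by
    rw [hmon.irreducible_iff_roots_eq_zero_of_degree_le_three (by omega) (by omega)]
    apply Multiset.eq_zero_of_forall_notMem
    intro r hr
    have h1 := (Polynomial.mem_roots hmon.ne_zero).1 hr
    simp only [Polynomial.IsRoot.def, Polynomial.eval_add, Polynomial.eval_pow, Polynomial.eval_X,
      Polynomial.eval_C] at h1
    have h2 := congrArg (MvPolynomial.eval (fun _ : Fin m => (1 : ℝ))) h1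
    simp only [rho, map_add, map_pow, map_sum, eval_X, one_pow, Finset.sum_const,
      Finset.card_univ, Fintype.card_fin, nsmul_eq_mul, mul_one, map_zero] at h2
    have h3 : (1 : ℝ) ≤ m := by exact_mod_cast hm
    nlinarith [sq_nonneg (MvPolynomial.eval (fun _ : Fin m => (1 : ℝ)) r)]
  have hirr' : Irreducible (rho : MvPolynomial (Fin (m + 1)) ℝ) := by
    rw [← himg] at hirr
    exact (MulEquiv.irreducible_iff (finSuccEquiv ℝ m).toMulEquiv).1 hirr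
  exact hirr'.prime

/-- a homogeneous polynomial of degree `d` that agrees on the sphere with a polynomial of lower
degree is a multiple of `|x|²` -/
theorem rho_dvd_of_sphere {n d : ℕ} (hn : 1 ≤ n) {P q : MvPolynomial (Fin n) ℝ}
    (hP : P.IsHomogeneous d) (hq : ∀ s : Fin n →₀ ℕ, d ≤ s.degree → coeff s q = 0)
    (h : ∀ v : EuclideanSpace ℝ (Fin n), ‖v‖ = 1 → pfun P v = pfun q v) : rho ∣ P := by
  classical
  -- `q` is the sum of its components of degree `< d`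
  have hsum : q = ∑ j ∈ Finset.range d, homogeneousComponent j q := by
    ext s
    rw [coeff_sum]
    simp only [coeff_homogeneousComponent]
    rw [Finset.sum_ite_eq]
    split_ifs with hs
    · rfl
    · exact hq s (by simpa using hs)
  set c : ℕ → MvPolynomial (Fin n) ℝ := fun j =>
    if Even (d - j) then rho ^ ((d - j) / 2 - 1) * homogeneousComponent j q else 0 with hc
  have hR : (P - rho * ∑ j ∈ Finset.range d, c j).IsHomogeneous d := by
    refine hP.sub ?_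
    rw [Finset.mul_sum]
    refine IsHomogeneous.sum _ _ _ (fun j hj => ?_)
    have hj' : j < d := Finset.mem_range.1 hj
    by_cases he : Even (d - j)
    · simp only [hc, he, if_true]
      have h1 := (rho_hom (d := n)).mul
        (((rho_hom (d := n)).pow ((d - j) / 2 - 1)).mul (homogeneousComponent_isHomogeneous j q))
      obtain ⟨t, ht⟩ := he
      have h2 : 2 + (2 * ((d - j) / 2 - 1) + j) = d := by omega
      rwa [h2] at h1
    · simp only [hc, he, if_false, mul_zero]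
      exact isHomogeneous_zero _ _ _
  have hzero : P - rho * ∑ j ∈ Finset.range d, c j = 0 := by
    refine hom_eq_zero_of_sphere hn hR (fun v hv => ?_)
    have h1 : pfun P v = ∑ j ∈ Finset.range d, pfun (homogeneousComponent j q) v := by
      rw [h v hv, ← pfun_sum, ← hsum]
    have h2 : (-1 : ℝ) ^ d * pfun P v =
        ∑ j ∈ Finset.range d, (-1 : ℝ) ^ j * pfun (homogeneousComponent j q) v := by
      have h3 := h ((-1 : ℝ) • v) (by rw [norm_smul, hv]; simp)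
      rw [pfun_smul_of_hom hP] at h3
      rw [h3]
      conv_lhs => rw [hsum, pfun_sum]
      refine Finset.sum_congr rfl (fun j _ => ?_)
      exact pfun_smul_of_hom (homogeneousComponent_isHomogeneous j q) _ _
    have hrho : pfun (rho : MvPolynomial (Fin n) ℝ) v = 1 := by rw [pfun_rho, hv]; norm_num
    have h4 : ∀ j ∈ Finset.range d, 2 * pfun (c j) v = pfun (homogeneousComponent j q) v +
        (-1 : ℝ) ^ d * ((-1 : ℝ) ^ j * pfun (homogeneousComponent j q) v) := by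
      intro j hj
      have hj' : j < d := Finset.mem_range.1 hj
      have hs : (-1 : ℝ) ^ d * (-1 : ℝ) ^ j = (-1 : ℝ) ^ (d - j) := by
        have : d = (d - j) + j := by omega
        conv_lhs => rw [this, pow_add, mul_assoc, ← pow_add, ← two_mul, pow_mul]
        simp
      rw [← mul_assoc, hs]
      by_cases he : Even (d - j)
      · have hp : pfun ((rho : MvPolynomial (Fin n) ℝ) ^ ((d - j) / 2 - 1)) v = 1 := by
          have : pfun ((rho : MvPolynomial (Fin n) ℝ) ^ ((d - j) / 2 - 1)) v =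
              pfun (rho : MvPolynomial (Fin n) ℝ) v ^ ((d - j) / 2 - 1) := by
            simp only [pfun, map_pow]
          rw [this, hrho, one_pow]
        simp only [hc, he, if_true, pfun_mul, hp, he.neg_one_pow]
        ring
      · have ho : Odd (d - j) := Nat.not_even_iff_odd.1 he
        simp only [hc, he, if_false, ho.neg_one_pow]
        simp [pfun]
    have h5 : 2 * pfun (∑ j ∈ Finset.range d, c j) v = 2 * pfun P v := by
      rw [pfun_sum, Finset.mul_sum, Finset.sum_congr rfl h4, Finset.sum_add_distrib,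
        ← Finset.mul_sum, ← h1, ← h2, ← mul_assoc, ← pow_add, ← two_mul, pow_mul]
      simp only [even_two, Even.neg_pow, one_pow, one_mul]
      ring
    have h6 : pfun (P - rho * ∑ j ∈ Finset.range d, c j) v =
        pfun P v - pfun (rho : MvPolynomial (Fin n) ℝ) v *
          pfun (∑ j ∈ Finset.range d, c j) v := by
      simp only [pfun, map_sub, map_mul]
    rw [h6, hrho]
    linarith
  exact ⟨_, sub_eq_zero.1 hzero⟩

/-- a harmonic multiple of `|x|²` is zero -/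
theorem harm_eq_zero_of_rho_dvd {n l : ℕ} (hn : 1 ≤ n) {p : MvPolynomial (Fin n) ℝ}
    (hp : Sph.Harm l p) (h : rho ∣ p) : p = 0 := by
  have : NeZero n := ⟨by omega⟩
  obtain ⟨r, rfl⟩ := h
  have h1 : plap (rho * r) = 0 := hp.harm
  rw [plap_rho_mul_injective h1, mul_zero]

theorem algS : AlgS := by
  intro n hn k J p A q hp hA hq h
  have hdvd : (rho : MvPolynomial (Fin n) ℝ) ∣ p * A :=
    rho_dvd_of_sphere (by omega) (hp.hom.mul hA.hom) hq h
  rcases (rho_prime (n := n) (by omega)).dvd_or_dvd hdvd with h1 | h1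
  · exact Or.inl (harm_eq_zero_of_rho_dvd (by omega) hp h1)
  · exact Or.inr (harm_eq_zero_of_rho_dvd (by omega) hA h1)

end T6

end Crest.Agent.N221
end
end

-- ▼ part N221/T6/Br
section

/-!
Row 221, step P6 (helper34): the lift of a Killing pair acts through the Poisson bracket.
-/

set_option autoImplicit false

open MvPolynomial MeasureTheory Set Function Filter Topology
open scoped ContDiff RealInnerProductSpace
open Crest.GeometryTopology.Submanifold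
open Crest.Agent.R241.DDefs Crest.Agent.R241.D2
open Crest.Agent.R208.J Crest.Agent.R208.L
open Crest.Agent.R086 Crest.Agent.R086.SH

noncomputable section

namespace Crest.Agent.N221.T6

open Car Crest.Agent.N221.Frm

variable {n N : ℕ} {a : ℝ} {S : Set (Euc N)} {G : Geo n N (-(a ^ 2)) S} {C : Cov G} (Φ : Frm C)
variable {x v : Euc n}

lemma hasFDerivAt_nrm (hv : ‖v‖ = 1) :
    HasFDerivAt (fun y : Euc n => ‖y‖⁻¹ • y) (piO v) v := by
  have h1 : HasFDerivAt (fun y : Euc n => ‖y‖) (innerSL ℝ v) v := by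
    have h := (hasStrictFDerivAt_norm_sq v).hasFDerivAt.sqrt (by rw [hv]; norm_num)
    simp only [Real.sqrt_sq (norm_nonneg _), hv] at h
    refine h.congr_fderiv ?_
    ext y; simp
  have h2 := (hasFDerivAt_inv (by rw [hv]; norm_num : ‖v‖ ≠ 0)).comp v h1
  refine (h2.smul (hasFDerivAt_id v)).congr_fderiv ?_
  ext1 y
  simp [piO, hv, sub_eq_add_neg]

/-- normalisation of the fibre variable -/
def nm (z : Euc n × Euc n) : Euc n × Euc n := (z.1, ‖z.2‖⁻¹ • z.2)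

/-- the unit vector field of the frame model -/
def VV (z : Euc n × Euc n) : Euc N := Φ.O z.1 (‖z.2‖⁻¹ • z.2)

lemma nm_self (hv : ‖v‖ = 1) : nm (x, v) = (x, v) := by simp [nm, hv]

lemma VV_self (hv : ‖v‖ = 1) : VV Φ (x, v) = Φ.O x v := by simp [VV, hv]

lemma hasFDerivAt_nrm2 (hv : ‖v‖ = 1) : HasFDerivAt (fun z : Euc n × Euc n => ‖z.2‖⁻¹ • z.2)
    (piO v ∘L ContinuousLinearMap.snd ℝ (Euc n) (Euc n)) (x, v) :=
  HasFDerivAt.comp (g := fun y : Euc n => ‖y‖⁻¹ • y) (f := Prod.snd) (x, v) (hasFDerivAt_nrm hv)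
    hasFDerivAt_snd

lemma hasFDerivAt_nm (hv : ‖v‖ = 1) : HasFDerivAt (nm (n := n))
    ((ContinuousLinearMap.fst ℝ (Euc n) (Euc n)).prod
      (piO v ∘L ContinuousLinearMap.snd ℝ (Euc n) (Euc n))) (x, v) :=
  (hasFDerivAt_fst (𝕜 := ℝ) (p := (x, v))).prodMk (hasFDerivAt_nrm2 hv)

lemma ev_ne (hv : ‖v‖ = 1) : ∀ᶠ z : Euc n × Euc n in 𝓝 (x, v), ‖‖z.2‖⁻¹ • z.2‖ = 1 := by
  have h : ∀ᶠ z : Euc n × Euc n in 𝓝 (x, v), z.2 ≠ 0 :=
    continuous_snd.continuousAt.eventually_ne (show v ≠ 0 from fun h => by simp [h] at hv)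
  exact h.mono fun z hz => norm_smul_inv_norm (𝕜 := ℝ) hz

lemma un_VV (hv : ‖v‖ = 1) : ∀ᶠ z : Euc n × Euc n in 𝓝 (x, v), C.Un z.1 (VV Φ z) :=
  (ev_ne hv).mono fun _ hz => Φ.un hz

lemma piO_of (δ : Euc n) (h : ⟪v, δ⟫ = 0) : piO v δ = δ := by simp [piO, h]

lemma VV_diff (hv : ‖v‖ = 1) : DifferentiableAt ℝ (VV Φ) (x, v) ∧
    ∀ z δ, ⟪v, δ⟫ = 0 → fderiv ℝ (VV Φ) (x, v) (z, δ) = Φ.dO x z v + Φ.O x δ := by
  have h1 : HasFDerivAt (fun q : Euc n × Euc n => Φ.O q.1)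
      ((fderiv ℝ Φ.O x).comp (ContinuousLinearMap.fst ℝ _ _)) (x, v) :=
    (Φ.diff_O x).hasFDerivAt.comp (x, v) hasFDerivAt_fst
  have h2 : HasFDerivAt (VV Φ) _ (x, v) := h1.clm_apply (hasFDerivAt_nrm2 hv)
  refine ⟨h2.differentiableAt, fun z δ hδ => ?_⟩
  rw [h2.fderiv, dO_apply]
  simp [hv, piO_of δ hδ, add_comm]

lemma fderiv_eq_ev {F : Euc n → Euc N → ℝ} {P : PP n} (hP : SmU (ev P))
    (h : ∀ x v, ‖v‖ = 1 → F x (Φ.O x v) = ev P x v) (hv : ‖v‖ = 1) (z δ : Euc n)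
    (hδ : ⟪v, δ⟫ = 0) : fderiv ℝ (fun q : Euc n × Euc n => F q.1 (VV Φ q)) (x, v) (z, δ) =
      fderiv ℝ (uncurry (ev P)) (x, v) (z, δ) := by
  have e : (fun q : Euc n × Euc n => F q.1 (VV Φ q)) =ᶠ[𝓝 (x, v)] uncurry (ev P) ∘ nm :=
    (ev_ne hv).mono fun q hq => h _ _ hq
  have h1 : HasFDerivAt (uncurry (ev P)) (fderiv ℝ (uncurry (ev P)) (x, v)) (nm (x, v)) := by
    rw [nm_self hv]; exact (ContDiff.differentiable hP (by simp) _).hasFDerivAt
  rw [e.fderiv_eq, (h1.comp (x, v) (hasFDerivAt_nm hv)).fderiv]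
  simp [piO_of δ hδ]

lemma inner_omv (F : Fr n) (i : Fin n) (x v : Euc n) : ⟪v, F.omv i x v⟫ = 0 := by
  have h : ⟪v, F.omv i x v⟫ = ∑ p, ∑ q, (F.om i p q).1 x * v q * v p := by
    rw [PiLp.inner_apply]
    exact Finset.sum_congr rfl fun p _ => by
      show (∑ q, (F.om i p q).1 x * v q) * v p = _
      rw [Finset.sum_mul]
  have h2 : ∑ p, ∑ q, (F.om i p q).1 x * v q * v p =
      -∑ p, ∑ q, (F.om i p q).1 x * v q * v p := by
    conv_lhs => rw [Finset.sum_comm]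
    simp only [← Finset.sum_neg_distrib]
    refine Finset.sum_congr rfl fun p _ => Finset.sum_congr rfl fun q _ => ?_
    rw [F.skew i q p, Co.sm_neg]; ring
  linarith

/-- the horizontal direction -/
def hor (x v : Euc n) (i : Fin n) : Euc n × Euc n := (Φ.E x (ε i), -Φ.fr.omv i x v)

lemma fderiv_VV_hor (hv : ‖v‖ = 1) (i : Fin n) : fderiv ℝ (VV Φ) (x, v) (hor Φ x v i) =
    II G (C.pr x) (Φ.O x (ε i)) (Φ.O x v) := by
  rw [hor, (VV_diff Φ hv).2 _ _ (by rw [inner_neg_right, inner_omv, neg_zero]), gauss, map_neg]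
  abel

variable {Y Y' : Euc n → Euc n} {f f' : Euc n → ℝ} {hh : ℝ} {φ : Euc n → ℝ} {P A : PP n}

lemma lift (hE : EvS) (h : SH G) (hK : C.Kill Y f Y' f')
    (hφ : ∀ ξ, ‖ξ‖ = 1 → ContDiffAt ℝ ∞ φ ξ)
    (hA : ∀ x v, ‖v‖ = 1 → C.uu hh φ x (Φ.O x v) = ev A x v) (hv : ‖v‖ = 1) {k j' : Euc n}
    (hk : Φ.O x k = C.jK Y Y' x (Φ.O x v) + C.muK Y f x (Φ.O x v) • Φ.O x v)
    (hj : Φ.O x j' = C.jK' Y Y' x (Φ.O x v)) (hj0 : ⟪v, j'⟫ = 0) :
    C.uu hh (fun ξ => fderiv ℝ φ ξ (Y ξ) + hh * f ξ * φ ξ) x (Φ.O x v) =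
      ∑ i, k i * ev (Φ.fr.alg.nab i A) x v + ∑ i, j' i * ev (pderiv i A) x v := by
  have hx := C.pr_mem x
  set δ : Euc n × Euc n := ∑ i, k i • hor Φ x v i + (0, j') with hδ
  have hV := VV_diff Φ (x := x) hv
  have h1 := C.fderiv_Psi_lift h hK (X := Prod.fst) (V := VV Φ) (z := (x, v))
    differentiableAt_fst hV.1 (un_VV Φ hv) δ
    (by
      rw [VV_self Φ hv, ← hk, fderiv_fst, Φ.O_sum x k, hδ]
      simp only [map_add, map_sum, map_smul, ContinuousLinearMap.coe_fst', hor, add_zero]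
      exact Finset.sum_congr rfl fun i _ => congrArg _ (Φ.pr_E x _))
    (by
      rw [VV_self Φ hv, ← hj, hδ]
      simp only [map_add, map_sum, map_smul, fderiv_VV_hor Φ hv,
        II_normal G hx (Φ.O_mem _ _) (Φ.O_mem _ _), smul_zero, Finset.sum_const_zero, zero_add]
      rw [hV.2 _ _ hj0]
      simp only [dO, map_zero, zero_add]
      exact (P_eq_self G hx).1 (Φ.O_mem _ _))
  have h2 := (C.differentiableAt_Psi h (X := Prod.fst) (V := VV Φ) (z := (x, v))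
    differentiableAt_fst hV.1 (un_VV Φ hv)).hasFDerivAt
  have hξ : ‖(C.PsiB x (VV Φ (x, v))).1.1‖ = 1 := by
    rw [VV_self Φ hv]; exact C.norm_ep h.hyp.a_pos (Φ.un hv)
  have h3 : HasFDerivAt (fun q : Euc n × Euc n => C.uu hh φ q.1 (VV Φ q)) _ (x, v) :=
    ((h2.snd.const_mul hh).exp).mul (HasFDerivAt.comp (x, v) ((hφ _ hξ).differentiableAt (by simp)).hasFDerivAt h2.fst.fst)
  have h4 : fderiv ℝ (fun q : Euc n × Euc n => C.uu hh φ q.1 (VV Φ q)) (x, v) δ =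
      C.uu hh (fun ξ => fderiv ℝ φ ξ (Y ξ) + hh * f ξ * φ ξ) x (Φ.O x v) := by
    rw [h3.fderiv]
    simp only [add_apply, smul_apply, ContinuousLinearMap.comp_apply, h1,
      ContinuousLinearMap.coe_fst', ContinuousLinearMap.coe_snd', smul_eq_mul,
      VV_self Φ hv, Cov.uu, show (C.PsiB x (Φ.O x v)).1.1 = C.ep x (Φ.O x v) from rfl]
    ring
  rw [← h4, hδ, map_add, map_sum, fderiv_eq_ev Φ (hE n A).1 hA hv _ _ hj0, (hE n A).2.1]
  congr 1
  refine Finset.sum_congr rfl fun i _ => ?_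
  rw [map_smul, hor, fderiv_eq_ev Φ (hE n A).1 hA hv _ _
    (by rw [inner_neg_right, inner_omv, neg_zero]), ← (hE n A).2.2]
  rfl

lemma ev_Eu (P : PP n) (x v : Euc n) : ev (Eu P) x v = ∑ i, v i * ev (pderiv i P) x v := by
  simp [ev, Eu, Co.ax_sum, Co.ax_mul, Co.ax_X, pfun]

theorem brS (hE : EvS) : BrS := by
  intro n N a S G C Φ h Y f Y' f' hK hh φ hφ P A hP hA x v hv
  have hx := C.pr_mem x
  have hu := Φ.un (x := x) hv
  have hV := VV_diff Φ (x := x) hv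
  obtain ⟨m1, m2⟩ := mem_Vp.1 (C.jK_mem h (Y := Y) (Y' := Y') hu)
  obtain ⟨m1', m2'⟩ := mem_Vp.1 (C.jK'_mem h (Y := Y) (Y' := Y') hu)
  obtain ⟨j, hj⟩ := Φ.O_surj x m1
  obtain ⟨j', hj'⟩ := Φ.O_surj x m1'
  have o1 : ⟪v, j⟫ = 0 := by rw [← Φ.inner_O x, hj, real_inner_comm]; exact m2
  have o2 : ⟪v, j'⟫ = 0 := by rw [← Φ.inner_O x, hj', real_inner_comm]; exact m2'
  have hm := (C.fderiv_muK h hK (X := Prod.fst) (V := VV Φ) (z := (x, v))
    differentiableAt_fst hV.1 (un_VV Φ hv)).2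
  simp only [VV_self Φ hv, fderiv_fst, ContinuousLinearMap.coe_fst'] at hm
  have e1 : ∀ i, j i = ev (pderiv i P) x v - v i * ev (Eu P) x v := by
    intro i
    have t : ⟪v, (ε i : Euc n) - v i • v⟫ = 0 := by
      rw [inner_sub_right, inner_smul_right, real_inner_self_eq_norm_sq, hv]
      simp [EuclideanSpace.inner_single_right]
    have h1 := hm (0, ε i - v i • v)
    rw [fderiv_eq_ev Φ (hE n P).1 hP hv _ _ t, (hE n P).2.1, hV.2 _ _ t, ← hj] at h1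
    simp only [dO, map_zero, zero_add, Φ.inner_O, inner_zero_left, sub_zero, inner_sub_left,
      inner_smul_left, o1, mul_zero] at h1
    rw [ev_Eu, Finset.mul_sum]
    simp only [PiLp.sub_apply, PiLp.smul_apply, smul_eq_mul, sub_mul, Finset.sum_sub_distrib,
      mul_assoc] at h1
    simpa [EuclideanSpace.inner_single_left, Pi.single_apply] using h1.symm
  have e2 : ∀ i, j' i = -ev (Φ.fr.alg.nab i P) x v := by
    intro i
    have h1 := hm (hor Φ x v i)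
    rw [fderiv_VV_hor Φ hv, inner_II G hx (Φ.O_mem _ _) (Φ.O_mem _ _) m1, hor,
      fderiv_eq_ev Φ (hE n P).1 hP hv _ _ (by rw [inner_neg_right, inner_omv, neg_zero]),
      ← hj', show C.Dp x (Φ.E x (ε i)) = Φ.O x (ε i) from Φ.pr_E x _, Φ.inner_O] at h1
    rw [← (hE n P).2.2, show Φ.fr.nabU i (ev P) x v = _ from h1]
    simp [EuclideanSpace.inner_single_left]
  have k0 : C.Kill (fun _ => 0) (fun _ => 1) (fun _ => 0) (fun _ => -1) :=
    ⟨fun _ _ => contDiffAt_const, fun _ _ => contDiffAt_const, fun _ _ => contDiffAt_const,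
      fun _ _ => contDiffAt_const, fun _ _ => by simp, fun _ _ => by simp, fun _ _ _ => by simp⟩
  have e3 := lift Φ hE h k0 hφ hA hv (x := x) (k := v) (j' := 0) (by simp [Cov.jK, Cov.muK])
    (by simp [Cov.jK', Cov.jK]) (by simp)
  have e4 : ∑ i, v i * ev (Φ.fr.alg.nab i A) x v = hh * ev A x v := by
    rw [← hA x v hv]
    simp only [PiLp.zero_apply, zero_mul, Finset.sum_const_zero, add_zero] at e3
    rw [← e3]
    simp only [Cov.uu, map_zero]
    ring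
  rw [lift Φ hE h hK hφ hA hv (k := j + ev P x v • v) (j' := j')
    (by rw [map_add, map_smul, hj, hP x v hv]) hj' o2]
  have e5 : ev (br Φ.fr P A + hh • ((P - Eu P) * A)) x v =
      ∑ i, (ev (pderiv i P) x v * ev (Φ.fr.alg.nab i A) x v -
        ev (Φ.fr.alg.nab i P) x v * ev (pderiv i A) x v) +
      hh * ((ev P x v - ev (Eu P) x v) * ev A x v) := by
    simp [ev, br, Co.ax_sum, Co.ax_mul, Co.ax_add, Co.ax_sub, Co.ax_smul, pfun]
  have e6 : ∑ i, (j + ev P x v • v) i * ev (Φ.fr.alg.nab i A) x v =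
      ∑ i, ev (pderiv i P) x v * ev (Φ.fr.alg.nab i A) x v +
      (ev P x v - ev (Eu P) x v) * ∑ i, v i * ev (Φ.fr.alg.nab i A) x v := by
    rw [Finset.mul_sum, ← Finset.sum_add_distrib]
    refine Finset.sum_congr rfl fun i _ => ?_
    rw [PiLp.add_apply, PiLp.smul_apply, e1, smul_eq_mul]
    ring
  rw [e5, e6, e4, Finset.sum_sub_distrib]
  simp only [e2, neg_mul, Finset.sum_neg_distrib]
  ring

end Crest.Agent.N221.T6
end
end

-- ▼ part N221/T6/Top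
section

/-! Row 221, step P6: the top degree argument. -/

set_option autoImplicit false

open MvPolynomial MeasureTheory Set Function
open scoped ContDiff RealInnerProductSpace
open Crest.Agent.R086 Crest.Agent.R086.SH

noncomputable section

namespace Crest.Agent.N221.T6

open Car Car.Co

variable {n : ℕ}

namespace Tp

/-- polynomials of degree `< d` -/
def DL (n d : ℕ) : Submodule ℝ (P0 n) where
  carrier := {p | ∀ s : Fin n →₀ ℕ, d ≤ s.degree → coeff s p = 0}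
  add_mem' hp hq s hs := by rw [coeff_add, hp s hs, hq s hs, add_zero]
  zero_mem' s _ := coeff_zero s
  smul_mem' c p hp s hs := by rw [coeff_smul, hp s hs, smul_zero]

variable {a b d : ℕ} {p q : P0 n}

lemma dl_mono (h : p ∈ DL n a) (hab : a ≤ b) : p ∈ DL n b := fun s hs => h s (hab.trans hs)

lemma dl_hom (h : p.IsHomogeneous a) (had : a < d) : p ∈ DL n d := fun s hs =>
  h.coeff_eq_zero (by omega)

lemma dl_mul (hp : p ∈ DL n a) (hq : q ∈ DL n b) (h : a + b ≤ d + 1) : p * q ∈ DL n d := by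
  classical
  intro s hs
  rw [coeff_mul]
  refine Finset.sum_eq_zero fun x hx => ?_
  rw [← Finset.HasAntidiagonal.mem_antidiagonal.1 hx, map_add] at hs
  rcases le_or_gt a x.1.degree with h1 | h1
  · rw [hp _ h1, zero_mul]
  · rw [hq _ (by omega), mul_zero]

lemma dl_pd (hp : p ∈ DL n (a + 1)) (i : Fin n) : pderiv i p ∈ DL n a := fun s hs => by
  rw [coeff_pderiv, hp _ (by rw [map_add, Finsupp.degree_single]; omega), zero_mul]

lemma dl_sum (s : Finset ℕ) {f : ℕ → P0 n} (hf : ∀ l, (f l).IsHomogeneous l)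
    (h : ∀ l ∈ s, d ≤ l → f l = 0) : ∑ l ∈ s, f l ∈ DL n d :=
  Submodule.sum_mem _ fun l hl => (le_or_gt d l).elim (fun e => h l hl e ▸ Submodule.zero_mem _)
    (dl_hom (hf l))

lemma dl_top {D : ℕ} {f : ℕ → P0 n} (hf : ∀ l, (f l).IsHomogeneous l) (hd : d < D)
    (h : ∀ l < D, d < l → f l = 0) : ∑ l ∈ Finset.range D, f l - f d ∈ DL n d := by
  rw [← Finset.sum_erase_eq_sub (Finset.mem_range.2 hd)]
  exact dl_sum _ hf fun l hl e => h l (Finset.mem_range.1 (Finset.mem_of_mem_erase hl))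
    (lt_of_le_of_ne e (Finset.ne_of_mem_erase hl).symm)

lemma hom_nab (F : Fr n) (i : Fin n) {Q : PP n} (h : ∀ y, (ax y Q).IsHomogeneous a) (x : EE n) :
    (ax x (F.alg.nab i Q)).IsHomogeneous a := by
  rw [AFr.nab, ax_sub, ax_rot]
  refine IsHomogeneous.sub (fun s hs => by_contra fun e => hs ?_)
    (IsHomogeneous.sum _ _ _ fun a _ => IsHomogeneous.sum _ _ _ fun b _ =>
      (Pol2.hom_X_pd (h x) a b).C_mul _)
  have h1 : coeff s Q = 0 := Subtype.ext (funext fun y => by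
    rw [← coeff_ax]; exact by_contra fun e' => e (h y e'))
  rw [coeff_ax, coeff_cD, h1, map_zero]
  rfl

lemma nab_sum (F : Fr n) (i : Fin n) (s : Finset ℕ) (Q : ℕ → PP n) :
    F.alg.nab i (∑ l ∈ s, Q l) = ∑ l ∈ s, F.alg.nab i (Q l) := by
  simp only [AFr.nab, rot, map_sum, Finset.mul_sum, Finset.sum_sub_distrib]
  congr 1
  rw [Finset.sum_comm (s := s)]
  exact Finset.sum_congr rfl fun a _ => Finset.sum_comm

lemma ax_Eu (x : EE n) (s : Finset ℕ) {Q : ℕ → PP n} (h : ∀ l, (ax x (Q l)).IsHomogeneous l) :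
    ax x (∑ l ∈ s, Q l - Eu (∑ l ∈ s, Q l)) = ∑ l ∈ s, (1 - (l : ℝ)) • ax x (Q l) := by
  simp only [Eu, ax_sub, ax_sum, ax_mul, ax_X, ax_pderiv, map_sum, Finset.mul_sum, sub_smul,
    one_smul, Finset.sum_sub_distrib, ← Pol1.euler (h _)]
  rw [Finset.sum_comm]

lemma ex_max (r : ℕ → Prop) {D l : ℕ} (hl : l < D) (h : r l) :
    ∃ k, l ≤ k ∧ k < D ∧ r k ∧ ∀ m < D, k < m → ¬ r m := by
  classical
  exact ⟨Nat.findGreatest r (D - 1), Nat.le_findGreatest (by omega) h,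
    by have := Nat.findGreatest_le (P := r) (D - 1); omega,
    Nat.findGreatest_spec (m := l) (by omega) h,
    fun m h1 h2 => Nat.findGreatest_is_greatest h2 (by omega)⟩

end Tp

open Tp

theorem topS (hA : AlgS) : TopS := by
  intro n hn F hh h0 D D' P κ _ A hP hA' hne hid l h2 hl
  by_contra hc
  obtain ⟨k, k1, k2, k3, k4⟩ := ex_max (fun l => P l ≠ 0) hl hc
  simp only [not_not] at k4
  have hK : IsClosed {x | ax x (P k) = 0} := by
    simp only [MvPolynomial.ext_iff, coeff_ax, ofPred_forall]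
    exact isClosed_iInter fun s => isClosed_eq (Sm.sm _).continuous continuous_const
  obtain ⟨x0, hx0⟩ : ∃ x, ax x (P k) ≠ 0 := by
    by_contra! e
    exact k3 (R1.ax_ext fun x => (e x).trans (map_zero _).symm)
  obtain ⟨l0, l1, l2⟩ : ∃ l < D', ∃ j x, ax x (P k) ≠ 0 ∧ ax x (A j l) ≠ 0 := by
    obtain ⟨j, v, -, e⟩ := hne x0
    by_contra! e'
    refine e ?_
    rw [ev, ax_sum, Finset.sum_eq_zero fun l hl => e' l (Finset.mem_range.1 hl) j x0 hx0]
    simp [pfun]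
  obtain ⟨J, -, J2, ⟨j, x, x1, x2⟩, J4⟩ :=
    ex_max (fun l => ∃ j x, ax x (P k) ≠ 0 ∧ ax x (A j l) ≠ 0) l1 l2
  have hS : ∀ j', ∀ m < D', J < m → Sup {x | ax x (P k) = 0} (A j' m) := fun j' m m1 m2 y hy =>
    by_contra fun e => J4 m m1 m2 ⟨j', y, hy, e⟩
  obtain ⟨c, hc⟩ := hid j
  have a1 : ∀ j', ax x (∑ l ∈ Finset.range D', A j' l) ∈ DL n (J + 1) := fun j' => by
    rw [ax_sum]
    exact dl_sum _ (fun l => (hA' j' l x).hom) fun l hl e => hS j' l (Finset.mem_range.1 hl) e x x1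
  have a2 : ∀ i, ax x (F.alg.nab i (∑ l ∈ Finset.range D', A j l)) ∈ DL n (J + 1) := fun i => by
    rw [nab_sum, ax_sum]
    exact dl_sum _ (fun l => hom_nab F i (fun y => (hA' j l y).hom) x) fun l hl e =>
      (hS j l (Finset.mem_range.1 hl) e).nab hK F i x x1
  have a3 : ax x (∑ l ∈ Finset.range D', A j l) - ax x (A j J) ∈ DL n J := by
    rw [ax_sum]
    exact dl_top (f := fun l => ax x (A j l)) (fun l => (hA' j l x).hom) J2
      fun l hl e => hS j l hl e x x1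
  have p1 : ax x (∑ l ∈ Finset.range D, P l) ∈ DL n (k + 1) := by
    rw [ax_sum]
    exact dl_sum _ (fun l => (hP l x).hom) fun l hl e => by
      rw [k4 l (Finset.mem_range.1 hl) e]; exact map_zero _
  have p2 : ∀ i, ax x (F.alg.nab i (∑ l ∈ Finset.range D, P l)) ∈ DL n (k + 1) := fun i => by
    rw [nab_sum, ax_sum]
    exact dl_sum _ (fun l => hom_nab F i (fun y => (hP l y).hom) x) fun l hl e => by
      rw [k4 l (Finset.mem_range.1 hl) e]; simp [AFr.nab, rot, ax]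
  have p3 : ax x (∑ l ∈ Finset.range D, P l - Eu (∑ l ∈ Finset.range D, P l)) -
      (1 - (k : ℝ)) • ax x (P k) ∈ DL n k := by
    rw [ax_Eu x _ fun l => (hP l x).hom]
    exact dl_top (f := fun l => (1 - (l : ℝ)) • ax x (P l))
      (fun l => (homogeneousSubmodule (Fin n) ℝ l).smul_mem _ (hP l x).hom) k2 fun l hl e => by
        rw [k4 l hl e]; simp [ax]
  have b1 : ax x (br F (∑ l ∈ Finset.range D, P l) (∑ l ∈ Finset.range D', A j l)) ∈
      DL n (k + J) := by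
    rw [br, ax_sum]
    refine Submodule.sum_mem _ fun i _ => ?_
    rw [ax_sub, ax_mul, ax_mul, ax_pderiv, ax_pderiv]
    exact Submodule.sub_mem _ (dl_mul (dl_pd p1 i) (a2 i) (by omega))
      (dl_mul (p2 i) (dl_pd (a1 j) i) (by omega))
  have hk : hh * (1 - (k : ℝ)) ≠ 0 := mul_ne_zero h0 (sub_ne_zero.2 (by
    exact_mod_cast (by omega : 1 ≠ k)))
  have pk := dl_hom (hP k x).hom (Nat.lt_succ_self k)
  refine (hA n hn k J _ _ _ (hP k x) (hA' j J x) ((DL n (k + J)).smul_mem (hh * (1 - (k : ℝ)))⁻¹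
    (Submodule.sub_mem _ (Submodule.sub_mem _ (Submodule.sum_mem _ (t := Finset.univ) fun j' _ =>
      Submodule.smul_mem _ (c j') (dl_mono (a1 j') (by omega))) b1)
      (Submodule.smul_mem _ hh (Submodule.add_mem _ (dl_mul p3 (a1 j) (by omega))
        (Submodule.smul_mem _ (1 - (k : ℝ)) (dl_mul pk a3 (by omega))))))) fun v hv => ?_).elim x1 x2
  have e := hc x v hv
  simp only [ev, ax_add, ax_smul, ax_mul, pfun_add, pfun_mul, Pol3.pfun_smul] at e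
  simp only [pfun_add, pfun_mul, Pol3.pfun_smul, Pol3.pfun_sub, pfun_sum _ (fun j' => c j' • _), e]
  rw [eq_inv_mul_iff_mul_eq₀ hk]
  ring

end Crest.Agent.N221.T6
end
end

-- ▼ part N221/K/All
section

/-! Row 221: step A2 without hypotheses; the core is reduced to `A1S`. -/

set_option autoImplicit false

namespace Crest.Agent.N221

theorem t6 : T6.T6S := T6.t6S T6.famS (T6.brS T6.evS) (T6.topS T6.algS) T6.affS

theorem horK : H.HorS := H.horS (H.irwS H.nemS H.hadS H.fixS)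

theorem splitT : H.SplitS := H.splitS sys volT lps

theorem trK : TrS := trS sys volT lps

/-- **A2**: smooth `U` and Liouville = Bowen-Margulis make the curvature parallel -/
theorem a2 : A2S := a2S t6 horK H.dHorS splitT trK

theorem core_of_A1 (h : A1S) : CoreS := core_of h a2

end Crest.Agent.N221
end

-- ▼ part N221/A1/Fin
section

/-! Row 221, step A1: what is left (helper90). -/

set_option autoImplicit false

namespace Crest.Agent.N221

theorem huS : HuS := huS_of Hm.hmS Br.brS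

theorem core_of3 (dy : DyS) (g0 : G0S) (np : NpS) : CoreS :=
  core_of_A1 (a1_of covS dy g0 huS np uxS)

theorem core_of2 (g0 : G0S) (np : NpS) : CoreS := core_of3 dyS g0 np

end Crest.Agent.N221
end

-- ▼ part N221/G0/ApS
section

/-! Row 221, block G0 (helper55): the leaves of `AprS`. -/

set_option autoImplicit false

open Set Metric
open scoped ContDiff

namespace Crest.Agent.N221.G0

open Real

/-- JETS AT A NODE.  `Θ` has level `j`, `Θ'` has level `s`, `j / m ≤ s ≤ j`.  Proof.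
`Δ = ψ(Θ) Θ' - ψ(Θ') Θ`, `τ = e^{-(3 a₀ + 1) j}`.  For `z' ∈ ball z τ`: `‖Θ z'‖ ≥ ‖Θ z‖ / 2`
(Lipschitz), `cov` gives a leaf `x'` through `z'`, `IND` for `Θ ∘ gs x'`, `Θ' ∘ gs x'` on
`ball z'.1 (e^{-a₀ j} / (4 L))` (`L` = Lipschitz constant of `gs`, `comp_at`, `b = C e^{a₀ (N+1) j}`)
gives `‖Δ z'‖ ≤ e^{-t j}`, `t` as large as we like.  `X.int_all N'` on `ball z τ` (`bilin_at`: the
`N'`-th derivative of `Δ` is `≤ C e^{a₀ (N'+2) j}`), `N'` large: the `n`-jet of `Δ` at `z` is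
`≤ e^{-t' j}`.  `|ψ Θ z| ≥ ‖Θ z‖ / A0`; `Θ' = ψ(Θ') w + Δ / ψ(Θ)` gives
`|ψ Θ' z| ≥ e^{-a₀ s} / (2 c' 0 A0)`; near `z`: `nrm ψ Θ = nrm ψ Θ' - (ψ Θ)⁻¹ (ψ Θ')⁻¹ Δ`;
`GB.nrm`, `GB.inv` (file `G0/ApA`). -/
def NdS : Prop := AllB fun E V _ _ _ _ _ _ _ _ _ _ _ _ B => ∀ (r N a : ℕ) (θ a₀ : ℝ), 0 < θ →
  1 ≤ a₀ → B.IND r N a θ → ∀ (n m : ℕ) (A0 : ℝ), ∃ K' : ℝ, 0 ≤ K' ∧ ∀ c c' : ℕ → ℝ,
    ∃ (C : ℝ) (j₀ : ℕ), ∀ j s : ℕ, j₀ ≤ j → s ≤ j → j ≤ m * s →
      ∀ (ψ : V →L[ℝ] ℝ) (z : E × E) (Θ Θ' : E × E → V), ‖ψ‖ ≤ 1 → ‖z‖ < B.r →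
        B.Cr c a₀ K' j Θ z → B.Cr c' a₀ (m * K') s Θ' z → exp (-(a₀ * j)) ≤ c 0 * ‖Θ z‖ →
        exp (-(a₀ * s)) ≤ c' 0 * ‖Θ' z‖ → ψ (Θ z) ≠ 0 → ‖nrm ψ Θ z‖ ≤ A0 →
        ∀ i ≤ n, ‖iteratedFDeriv ℝ i (nrm ψ Θ) z‖ ≤ C * exp (4 * a₀ * (i + 1) * s)

/-- BLOW UP.  `H` has jets `≤ c k M` along `v = 0`, `h = ψ H` is comparable to `h (q, 0)`.  Then
`nrm ψ H` rescaled by `(ρ, δ / M)` has jets `≤ C M / δ` of all orders. -/
def BlS : Prop := ∀ (E Z V : Type) [NormedAddCommGroup E] [NormedSpace ℝ E] [NormedAddCommGroup Z]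
  [NormedSpace ℝ Z] [NormedAddCommGroup V] [NormedSpace ℝ V] (n k : ℕ) (CH : ℝ) (c : ℕ → ℝ),
  ∃ C : ℝ, 0 < C ∧ ∀ (ψ : V →L[ℝ] ℝ) (H : E × Z → V) (q : E) (ρ δ M : ℝ), ‖ψ‖ ≤ 1 → 0 < ρ → ρ ≤ 1 →
    0 < δ → δ ≤ M → M * ρ ^ k ≤ δ → δ ≤ |ψ (H (q, 0))| →
    (∀ y ∈ ball q ρ, ContDiffAt ℝ ∞ H (y, 0) ∧ (∀ i, ‖iteratedFDeriv ℝ i H (y, 0)‖ ≤ c i * M) ∧
      |ψ (H (y, 0))| ≤ CH * |ψ (H (q, 0))| ∧ |ψ (H (q, 0))| ≤ CH * |ψ (H (y, 0))|) →
    ∀ y ∈ ball (0 : E) (1 / 2),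
      ContDiffAt ℝ ∞ (fun v : E × Z => nrm ψ H (q + ρ • v.1, (δ / M) • v.2)) (y, 0) ∧ ∀ i ≤ n,
      ‖iteratedFDeriv ℝ i (fun v : E × Z => nrm ψ H (q + ρ • v.1, (δ / M) • v.2)) (y, 0)‖ ≤
        C * (M / δ)

end Crest.Agent.N221.G0
end

-- ▼ part N221/G0/ApA
section

/-! Row 221, block G0 (helper55): more closure properties of `GB`: jets, inverses. -/

set_option autoImplicit false

open Set Metric Finset Filter
open scoped ContDiff Nat Topology

namespace Crest.Agent.N221.G0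

variable {ι X Y W V : Type} [NormedAddCommGroup X] [NormedSpace ℝ X] [NormedAddCommGroup Y]
  [NormedSpace ℝ Y] [NormedAddCommGroup W] [NormedSpace ℝ W] [NormedAddCommGroup V]
  [NormedSpace ℝ V] {n : ℕ} {f : ι → X → Y} {x : ι → X} {M M' D : ι → ℝ}


/-- one fixed germ -/
lemma GB.fix (n : ℕ) {Φ : X → Y} {a : X} (h : ContDiffAt ℝ ∞ Φ a) :
    GB n (fun _ : ι => Φ) (fun _ => a) (fun _ => 1) (fun _ => 1) := by
  refine ⟨fun _ => h, fun _ => le_rfl, 1 + ∑ k ∈ range (n + 1), ‖iteratedFDeriv ℝ k Φ a‖,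
    by positivity, fun _ k hk => ?_⟩
  have := single_le_sum (f := fun k => ‖iteratedFDeriv ℝ k Φ a‖) (fun _ _ => norm_nonneg _)
    (mem_range.2 (Nat.lt_succ_of_le hk))
  rw [one_pow, mul_one, mul_one]
  linarith

lemma GB.inv' {g : ι → X → ℝ} {d : ι → ℝ} (h : GB n g x M D) (d0 : ∀ i, 0 < d i)
    (hd : ∀ i, d i ≤ |g i (x i)|) (hM : ∀ i, d i ≤ M i) :
    GB n (fun i y => (g i y)⁻¹) x (fun i => (d i)⁻¹) (fun i => D i * (M i / d i)) := by
  have ne : ∀ i, g i (x i) ≠ 0 := fun i => abs_pos.1 ((d0 i).trans_le (hd i))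
  have a1 : ∀ i, |(g i (x i))⁻¹| ≤ (d i)⁻¹ := fun i => by
    rw [abs_inv]; exact inv_anti₀ (d0 i) (hd i)
  have q1 : ∀ i, 1 ≤ M i / d i := fun i => (one_le_div (d0 i)).2 (hM i)
  have h1 := h.smul a1
  obtain ⟨c, c0, hc⟩ := h1.bd
  have h2 := (GB.fix (ι := ι) n (contDiffAt_inv ℝ (one_ne_zero (α := ℝ)) (n := ∞))).comp
    (D' := fun i => D i * (M i / d i)) h1.sm (fun i => inv_mul_cancel₀ (ne i))
    (fun i => one_le_mul_of_one_le_of_one_le (h.one i) (q1 i)) ⟨c, fun i k k1 hk =>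
      (hc i k hk).trans (by
        have : M i / d i ≤ (M i / d i) ^ k := le_self_pow₀ (q1 i) (by omega)
        have D0 : 0 ≤ D i ^ k := pow_nonneg (zero_le_one.trans (h.one i)) k
        rw [mul_pow, mul_assoc, ← div_eq_inv_mul, mul_comm (D i ^ k)]
        gcongr)⟩
  refine ((h2.smul a1).mono le_rfl (fun i => by rw [mul_one]) fun i => by rw [one_mul]).congr
    fun i => .of_forall fun y => ?_
  simp only [smul_eq_mul, mul_inv, inv_inv]
  rw [inv_mul_cancel_left₀ (ne i)]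

lemma GB.psi {Θ : ι → X → V} (h : GB n Θ x M D) (ψ : ι → V →L[ℝ] ℝ) (hψ : ∀ i, ‖ψ i‖ ≤ 1) :
    GB n (fun i y => ψ i (Θ i y)) x M D :=
  (h.clm' (M' := fun _ => 1) ψ hψ).mono le_rfl (fun i => by rw [one_mul]) fun _ => le_rfl

lemma GB.nrm {Θ : ι → X → V} {d : ι → ℝ} (h : GB n Θ x M D) (ψ : ι → V →L[ℝ] ℝ)
    (hψ : ∀ i, ‖ψ i‖ ≤ 1) (d0 : ∀ i, 0 < d i) (hd : ∀ i, d i ≤ |ψ i (Θ i (x i))|)
    (hM : ∀ i, d i ≤ M i) :
    GB n (fun i => nrm (ψ i) (Θ i)) x (fun i => M i / d i) (fun i => D i * (M i / d i)) :=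
  (((h.psi ψ hψ).inv' d0 hd hM).fsmul (h.mono le_rfl (fun _ => le_rfl) fun i =>
    le_mul_of_one_le_right (zero_le_one.trans (h.one i)) ((one_le_div (d0 i)).2 (hM i)))).mono
      le_rfl (fun i => by rw [div_eq_inv_mul]) fun _ => le_rfl

/-- bounds `c k * M * D ^ k` give `GB` -/
lemma GB.of_seq (n : ℕ) (c : ℕ → ℝ) (sm : ∀ i, ContDiffAt ℝ ∞ (f i) (x i)) (one : ∀ i, 1 ≤ D i)
    (hM : ∀ i, 0 ≤ M i) (h : ∀ i, ∀ k ≤ n, ‖iteratedFDeriv ℝ k (f i) (x i)‖ ≤ c k * (M i * D i ^ k)) :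
    GB n f x M D := by
  refine ⟨sm, one, 1 + ∑ k ∈ range (n + 1), |c k|, by positivity, fun i k hk =>
    (h i k hk).trans ?_⟩
  have := single_le_sum (f := fun k => |c k|) (fun _ _ => abs_nonneg _)
    (mem_range.2 (Nat.lt_succ_of_le hk))
  rw [mul_assoc]
  exact mul_le_mul_of_nonneg_right (by linarith [le_abs_self (c k)])
    (mul_nonneg (hM i) (pow_nonneg (zero_le_one.trans (one i)) k))


lemma smul_nrm {Z : Type} {ψ : V →L[ℝ] ℝ} {Θ : Z → V} {z : Z} (h : ψ (Θ z) ≠ 0) :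
    ψ (Θ z) • nrm ψ Θ z = Θ z := by rw [nrm, smul_smul, mul_inv_cancel₀ h, one_smul]

lemma norm_le_nrm {Z : Type} {ψ : V →L[ℝ] ℝ} {Θ : Z → V} {z : Z} (h : ψ (Θ z) ≠ 0) {A : ℝ}
    (hA : ‖nrm ψ Θ z‖ ≤ A) : ‖Θ z‖ ≤ |ψ (Θ z)| * A := by
  conv_lhs => rw [← smul_nrm h, norm_smul, Real.norm_eq_abs]
  exact mul_le_mul_of_nonneg_left hA (abs_nonneg _)


lemma cda_nrm {ψ : V →L[ℝ] ℝ} {Θ : X → V} {z : X} (hΘ : ContDiffAt ℝ ∞ Θ z) (h : ψ (Θ z) ≠ 0) :
    ContDiffAt ℝ ∞ (nrm ψ Θ) z :=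
  ((ψ.contDiff.contDiffAt.comp z hΘ).inv h).smul hΘ

end Crest.Agent.N221.G0
end

-- ▼ part N221/G0/Nj
section

/-!
Row 221, block G0 (helper18): reciprocals of families of germs, and the jets of the direction
`Θ / ψ Θ` at a node (a point near which `Θ` is almost parallel to a form `Θ'` with small jets).
-/

set_option autoImplicit false

open Set Metric Finset Filter
open scoped ContDiff Nat Topology

namespace Crest.Agent.N221.G0

section
variable {ι X Y : Type} [NormedAddCommGroup X] [NormedSpace ℝ X] [NormedAddCommGroup Y]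
  [NormedSpace ℝ Y] {n : ℕ}

lemma GB.inv0 (n : ℕ) {y m : ι → ℝ} (h1 : ∀ i, 1 ≤ m i) (hy : ∀ i, 1 ≤ m i * |y i|) :
    GB n (fun (_ : ι) (t : ℝ) => t⁻¹) y m m := by
  have y0 : ∀ i, 0 < |y i| := fun i => by
    refine (abs_nonneg _).lt_of_ne' fun e => ?_
    have := hy i
    rw [e, mul_zero] at this
    linarith
  refine ⟨fun i => contDiffAt_inv ℝ (abs_pos.1 (y0 i)), h1, n !, by positivity, fun i k hk => ?_⟩
  rw [norm_iteratedFDeriv_eq_norm_iteratedDeriv, iteratedDeriv_eq_iterate]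
  have e := iter_deriv_inv k (y i)
  rw [show (fun t : ℝ => t⁻¹) = Inv.inv from rfl, e, norm_mul, norm_mul, norm_pow, norm_neg, norm_one,
    one_pow, one_mul, Real.norm_natCast, norm_zpow, Real.norm_eq_abs,
    show (-1 - k : ℤ) = -((k + 1 : ℕ) : ℤ) by push_cast; ring, zpow_neg, zpow_natCast, ← inv_pow,
    mul_assoc, ← pow_succ']
  have a1 : (k ! : ℝ) ≤ n ! := by exact_mod_cast Nat.factorial_le hk
  have a2 : |y i|⁻¹ ≤ m i := by rw [inv_le_iff_one_le_mul₀ (y0 i)]; exact hy i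
  have := y0 i
  gcongr

/-- reciprocal -/
lemma GB.invm {u : ι → X → ℝ} {x : ι → X} {M D m : ι → ℝ} (h : GB n u x M D) (hM : ∀ i, 1 ≤ M i)
    (h1 : ∀ i, 1 ≤ m i) (hu : ∀ i, 1 ≤ m i * |u i (x i)|) :
    GB n (fun i z => (u i z)⁻¹) x m (fun i => m i * (M i * D i)) := by
  obtain ⟨c, c0, hc⟩ := h.bd
  refine (GB.inv0 n h1 hu).comp h.sm (fun _ => rfl)
    (fun i => one_le_mul_of_one_le_of_one_le (hM i) (h.one i)) ⟨c, fun i k k1 hk => ?_⟩
  refine (hc i k hk).trans ?_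
  have := hM i
  have := h.one i
  rw [mul_pow, mul_assoc]
  gcongr
  exact le_self_pow₀ (hM i) (by omega)

/-- from bounds `c k * E ^ (k + 1)` -/
lemma GB.of_pow (n : ℕ) (c : ℕ → ℝ) {f : ι → X → Y} {x : ι → X} {E : ι → ℝ} (h1 : ∀ i, 1 ≤ E i)
    (hs : ∀ i, ContDiffAt ℝ ∞ (f i) (x i))
    (hb : ∀ i k, ‖iteratedFDeriv ℝ k (f i) (x i)‖ ≤ c k * E i ^ (k + 1)) : GB n f x E E := by
  refine ⟨hs, h1, 1 + ∑ k ∈ range (n + 1), |c k|, by positivity, fun i k hk => (hb i k).trans ?_⟩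
  have a1 : c k ≤ 1 + ∑ k ∈ range (n + 1), |c k| := by
    have := single_le_sum (f := fun k => |c k|) (fun _ _ => abs_nonneg _)
      (mem_range.2 (Nat.lt_succ_of_le hk))
    linarith [le_abs_self (c k)]
  have := h1 i
  rw [pow_succ', ← mul_assoc]
  gcongr

end

lemma pw_le {E : ℝ} (h1 : 1 ≤ E) {a b c : ℕ} (h : a + c ≤ b) :
    E ^ a * (E ^ b)⁻¹ ≤ (E ^ c)⁻¹ := by
  rw [← div_eq_mul_inv, div_le_iff₀ (by positivity), inv_mul_eq_div, le_div_iff₀ (by positivity),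
    ← pow_add]
  exact pow_le_pow_right₀ h1 h

/-- the data at a node -/
structure Nod (X V : Type) [NormedAddCommGroup X] [NormedSpace ℝ X] [NormedAddCommGroup V]
    [NormedSpace ℝ V] (n : ℕ) (c : ℕ → ℝ) (A : ℝ) where
  E : ℝ
  E' : ℝ
  p : X
  Θ : X → V
  Θ' : X → V
  ψ : V →L[ℝ] ℝ
  two : 2 ≤ E
  one : 1 ≤ E'
  le : E' ≤ E
  hψ : ‖ψ‖ ≤ 1
  sm : ∀ y ∈ ball p (E ^ 2)⁻¹, ContDiffAt ℝ ∞ Θ y ∧ ContDiffAt ℝ ∞ Θ' y
  bd : ∀ y ∈ ball p (E ^ 2)⁻¹, ∀ k, ‖iteratedFDeriv ℝ k Θ y‖ ≤ c k * E ^ (k + 1) ∧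
    ‖iteratedFDeriv ℝ k Θ' y‖ ≤ c k * E' ^ (k + 1)
  fl : 1 ≤ E ^ 2 * |ψ (Θ p)|
  fl' : 1 ≤ E' * ‖Θ' p‖
  dir : ‖Θ p‖ ≤ A * |ψ (Θ p)|
  par : ∀ y ∈ ball p (E ^ 2)⁻¹, ‖ψ (Θ y) • Θ' y - ψ (Θ' y) • Θ y‖ ≤ (E ^ (6 * n + 4))⁻¹

/-- NODE JETS -/
theorem nj (X V : Type) [NormedAddCommGroup X] [NormedSpace ℝ X] [NormedAddCommGroup V]
    [NormedSpace ℝ V] [CompleteSpace V] (n : ℕ) (c : ℕ → ℝ) (A : ℝ) : ∃ C : ℝ, 0 < C ∧
    ∀ t : Nod X V n c A, ∀ i ≤ n,
      ‖iteratedFDeriv ℝ i (fun z => (t.ψ (t.Θ z))⁻¹ • t.Θ z) t.p‖ ≤ C * t.E' ^ (3 * (i + 1)) := by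
  set T := Nod X V n c A
  have E1 : ∀ t : T, 1 ≤ t.E := fun t => by linarith [t.two]
  have r0 : ∀ t : T, 0 < (t.E ^ 2)⁻¹ := fun t => by have := E1 t; positivity
  have pm : ∀ t : T, t.p ∈ ball t.p (t.E ^ 2)⁻¹ := fun t => mem_ball_self (r0 t)
  set A' := max 1 (2 * A) with hA'
  have A1 : 1 ≤ A' := le_max_left _ _
  have fl2 : ∀ t : T, 1 ≤ A' * t.E' * |t.ψ (t.Θ' t.p)| := fun t => by
    have e1 := E1 t
    have e2 := t.one
    have a1 := t.par _ (pm t)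
    have a2 := norm_add_le (t.ψ (t.Θ t.p) • t.Θ' t.p - t.ψ (t.Θ' t.p) • t.Θ t.p)
      (t.ψ (t.Θ' t.p) • t.Θ t.p)
    rw [sub_add_cancel, norm_smul, norm_smul, Real.norm_eq_abs, Real.norm_eq_abs] at a2
    have a3 := mul_le_mul_of_nonneg_left t.dir (abs_nonneg (t.ψ (t.Θ' t.p)))
    have g0 : 0 < |t.ψ (t.Θ t.p)| := by
      refine (abs_nonneg _).lt_of_ne' fun e => ?_
      have := t.fl
      rw [e, mul_zero] at this
      linarith
    have a4 : t.E' * (t.E ^ (6 * n + 4))⁻¹ ≤ |t.ψ (t.Θ t.p)| / 2 := by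
      rw [← div_eq_mul_inv, div_le_iff₀ (by positivity)]
      have b1 : t.E ^ 4 ≤ t.E ^ (6 * n + 4) := pow_le_pow_right₀ e1 (by omega)
      have b2 : t.E' * 2 ≤ t.E ^ 2 := by nlinarith [t.le, t.two]
      have b3 := mul_le_mul_of_nonneg_left t.fl (show 0 ≤ t.E ^ 2 by positivity)
      nlinarith
    have a5 := mul_le_mul_of_nonneg_left t.fl' g0.le
    have a6 : |t.ψ (t.Θ t.p)| * 1 ≤ |t.ψ (t.Θ t.p)| * (2 * A * t.E' * |t.ψ (t.Θ' t.p)|) := by
      nlinarith [mul_le_mul_of_nonneg_left (a2.trans (add_le_add a1 a3)) (zero_le_one.trans e2)]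
    refine (le_of_mul_le_mul_left a6 g0).trans ?_
    gcongr
    exact le_max_right _ _
  have G1 : GB n (fun t : T => t.Θ) (·.p) (·.E) (·.E) :=
    GB.of_pow n c E1 (fun t => (t.sm _ (pm t)).1) fun t k => (t.bd _ (pm t) k).1
  have G2 : GB n (fun t : T => t.Θ') (·.p) (·.E') (·.E') :=
    GB.of_pow n c (·.one) (fun t => (t.sm _ (pm t)).2) fun t k => (t.bd _ (pm t) k).2
  have g1 := (G1.clm' (fun t => t.ψ) fun t => t.hψ).invm (m := fun t => t.E ^ 2)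
    (fun t => by simpa using E1 t) (fun t => one_le_pow₀ (E1 t)) fun t => t.fl
  have g2 := ((G2.clm' (fun t => t.ψ) fun t => t.hψ).invm (m := fun t => A' * t.E')
    (fun t => by simpa using t.one) (fun t => one_le_mul_of_one_le_of_one_le A1 t.one) fl2).absorb
    (M' := (·.E')) (D' := fun t => t.E' ^ 3) A1 (fun _ => le_rfl) (fun t => le_of_eq (by ring))
    fun t => one_le_pow₀ t.one
  have W2 := g2.fsmul (G2.mono (D' := fun t => t.E' ^ 3) le_rfl (fun _ => le_rfl)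
    fun t => le_self_pow₀ t.one (by norm_num))
  -- the defect
  set N := 6 * n + 5 with hN
  let U := {s : T × X // s.2 ∈ ball s.1.p (s.1.E ^ 2)⁻¹}
  have H1 : GB N (fun s : U => s.1.1.Θ) (·.1.2) (·.1.1.E) (·.1.1.E) :=
    GB.of_pow N c (fun s => E1 _) (fun s => (s.1.1.sm _ s.2).1) fun s k => (s.1.1.bd _ s.2 k).1
  have H2 : GB N (fun s : U => s.1.1.Θ') (·.1.2) (·.1.1.E) (·.1.1.E) :=
    (GB.of_pow N c (fun s : U => s.1.1.one) (fun s => (s.1.1.sm _ s.2).2)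
      fun s k => (s.1.1.bd _ s.2 k).2).mono le_rfl (fun s => s.1.1.le) fun s => s.1.1.le
  have H3 := ((H1.clm' (fun s => s.1.1.ψ) fun s => s.1.1.hψ).fsmul H2).sub
    ((H2.clm' (fun s => s.1.1.ψ) fun s => s.1.1.hψ).fsmul H1)
  obtain ⟨c3, c30, hc3⟩ := H3.bd
  obtain ⟨C4, C40, h4⟩ := Crest.Agent.N221.X.int_all N
  have P : GB n (fun (t : T) y => t.ψ (t.Θ y) • t.Θ' y - t.ψ (t.Θ' y) • t.Θ y) (·.p)
      (fun t => (t.E ^ (4 * n + 3))⁻¹) (fun t => t.E ^ 4) := by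
    refine ⟨fun t => H3.sm ⟨(t, t.p), pm t⟩, fun t => one_le_pow₀ (E1 t), C4 * (1 + c3),
      by positivity, fun t k hk => ?_⟩
    have e1 := E1 t
    refine (h4 X V _ t.p _ _ (c3 * (1 * t.E * t.E) * t.E ^ N) (r0 t)
      (fun y hy => (cda (H3.sm ⟨(t, y), hy⟩) N).contDiffWithinAt) t.par
      (fun y hy => hc3 ⟨(t, y), hy⟩ N le_rfl) k (by omega) _
      (mem_ball_self (half_pos (r0 t)))).trans ?_
    refine le_trans ?_ (le_mul_of_one_le_right (by positivity) (one_le_pow₀ (one_le_pow₀ e1)))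
    rw [mul_assoc C4, add_mul, one_mul]
    refine mul_le_mul_of_nonneg_left (add_le_add ?_ ?_) C40.le
    · have := pw_le e1 (a := 2 * k) (b := 6 * n + 4) (c := 4 * n + 3) (by omega)
      rw [inv_pow, div_inv_eq_mul, ← pow_mul]
      linarith
    · have := pw_le e1 (a := 2 + N) (b := 2 * (N - k)) (c := 4 * n + 3) (by omega)
      rw [inv_pow, ← pow_mul]
      refine le_trans (le_of_eq ?_) (mul_le_mul_of_nonneg_left this c30.le)
      rw [pow_add]; ring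
  have W3 := (g1.mono (D' := fun t => t.E ^ 4) le_rfl (fun _ => le_rfl)
    fun t => le_of_eq (by ring)).fsmul ((g2.mono (M' := (·.E)) (D' := fun t => t.E ^ 4) le_rfl (·.le)
      fun t => (pow_le_pow_left₀ (zero_le_one.trans t.one) t.le 3).trans
        (pow_le_pow_right₀ (E1 t) (by norm_num))).fsmul P)
  obtain ⟨c2, c20, hc2⟩ := W2.bd
  obtain ⟨c5, c50, hc5⟩ := W3.bd
  refine ⟨c2 + c5, by positivity, fun t i hi => ?_⟩
  have e1 := E1 t
  have e2 := t.one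
  have n1 : ∀ᶠ y in 𝓝 t.p, t.ψ (t.Θ y) ≠ 0 :=
    (t.ψ.continuous.continuousAt.comp (G1.sm t).continuousAt).eventually_ne fun e => by
      have := t.fl
      rw [show t.ψ (t.Θ t.p) = 0 from e, abs_zero, mul_zero] at this
      linarith
  have n2 : ∀ᶠ y in 𝓝 t.p, t.ψ (t.Θ' y) ≠ 0 :=
    (t.ψ.continuous.continuousAt.comp (G2.sm t).continuousAt).eventually_ne fun e => by
      have := fl2 t
      rw [show t.ψ (t.Θ' t.p) = 0 from e, abs_zero, mul_zero] at this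
      linarith
  have e : (fun z => (t.ψ (t.Θ z))⁻¹ • t.Θ z) =ᶠ[𝓝 t.p] fun y => (t.ψ (t.Θ' y))⁻¹ • t.Θ' y -
      (t.ψ (t.Θ y))⁻¹ • (t.ψ (t.Θ' y))⁻¹ • (t.ψ (t.Θ y) • t.Θ' y - t.ψ (t.Θ' y) • t.Θ y) := by
    filter_upwards [n1, n2] with y a b
    match_scalars <;> field_simp
    ring
  rw [(e.iteratedFDeriv ℝ i).eq_of_nhds,
    fun_iteratedFDeriv_sub_apply (cda (W2.sm t) i) (cda (W3.sm t) i)]
  refine (norm_sub_le _ _).trans ((add_le_add (hc2 t i hi) (hc5 t i hi)).trans ?_)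
  rw [add_mul, mul_assoc c2, mul_assoc c5]
  refine add_le_add (mul_le_mul_of_nonneg_left ?_ c20.le) (mul_le_mul_of_nonneg_left ?_ c50.le)
  · rw [← pow_two, ← pow_mul, ← pow_add]
    exact pow_le_pow_right₀ e2 (by omega)
  · refine le_trans ?_ (one_le_pow₀ e2)
    rw [← mul_assoc, ← pow_succ, ← pow_mul, mul_right_comm, ← pow_add, ← div_eq_mul_inv,
      div_le_one (by positivity)]
    exact pow_le_pow_right₀ e1 (by omega)

end Crest.Agent.N221.G0
end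

-- ▼ part N221/G0/Nd
section

/-! Row 221, block G0 (helper55): jets of the normalised source at a node. -/

set_option autoImplicit false

open Set Metric Filter Finset
open scoped ContDiff Nat Topology

namespace Crest.Agent.N221.G0

open Real Ex

lemma exp_lev (a : ℝ) (k j : ℕ) : exp (a * (k + 1) * j) = exp (a * j) ^ (k + 1) := by
  rw [← exp_nat_mul]; congr 1; push_cast; ring

lemma ev_big {a : ℝ} (ha : 0 < a) (κ : ℝ) : ∃ j₀ : ℕ, ∀ j : ℕ, j₀ ≤ j → κ ≤ exp (a * j) := by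
  obtain ⟨j₀, h⟩ := exists_nat_ge (κ / a)
  refine ⟨j₀, fun j hj => ?_⟩
  have h1 : (j₀ : ℝ) ≤ j := by exact_mod_cast hj
  rw [div_le_iff₀ ha] at h
  nlinarith [add_one_le_exp (a * j)]

section
variable {E V V' X Y : Type} [NormedAddCommGroup E] [NormedSpace ℝ E] [NormedAddCommGroup V]
  [NormedSpace ℝ V] [NormedAddCommGroup V'] [NormedSpace ℝ V'] {B : LB E V V' X Y}

lemma LB.Ok.ubg (h : B.Ok) : UB (fun _ : X => ball (0 : E) B.R) B.gs :=
  (UB.id (M := B.R) h.ubs.op fun _ _ hx => (mem_ball_zero_iff.1 hx).le).prod h.ubs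

/-- slices of an ambient relation -/
lemma LB.Ok.slice [FiniteDimensional ℝ E] (h : B.Ok) (N : ℕ) : ∃ L : ℝ, 1 ≤ L ∧
    ∀ (Θ : E × E → V) (z p : E × E) (x : X) (ρ τ ε M b : ℝ), B.s x z.1 = z.2 → ‖z‖ < 2 * B.r →
      0 < ρ → ρ ≤ B.r → ‖z - p‖ + L * ρ ≤ τ → 1 ≤ b → L * M ≤ b →
      (∀ y ∈ ball p τ, ContDiffAt ℝ ∞ Θ y ∧ ‖B.io y (Θ y)‖ ≤ ε ∧
        ∀ k ≤ N, ‖iteratedFDeriv ℝ k Θ y‖ ≤ M) →
      B.SR N x (fun y => Θ (B.gs x y)) z.1 ρ ε b := by
  have := FiniteDimensional.complete ℝ (E × E)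
  obtain ⟨L1, l1, h1⟩ := h.ubg.taylor
  obtain ⟨L2, l2, h2⟩ := h.ubg.bdn N
  have f1 : (1 : ℝ) ≤ N ! := by exact_mod_cast Nat.factorial_pos N
  have p1 : 1 ≤ L2 ^ N := one_le_pow₀ l2
  refine ⟨max L1 (N ! * L2 ^ N), le_max_of_le_left l1, fun Θ z p x ρ τ ε M b hx hz hρ hr hτ hb hM hΘ
    => ?_⟩
  have e : B.gs x z.1 = z := Prod.ext rfl hx
  have sub : ball z.1 ρ ⊆ ball 0 B.R := ball_subset_ball' (by
    rw [dist_zero_right]; linarith [norm_fst_le z, h.rR, h.rp])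
  have mem : ∀ y ∈ ball z.1 ρ, B.gs x y ∈ ball p τ := fun y hy => by
    have a1 := ((h1 x).2 _ (convex_ball _ _) sub _ (mem_ball_self hρ) y hy).1
    have a2 : L1 * ‖y - z.1‖ < max L1 (N ! * L2 ^ N) * ρ :=
      (mul_lt_mul_of_pos_left (mem_ball_iff_norm.1 hy) (by linarith)).trans_le
        (mul_le_mul_of_nonneg_right (le_max_left _ _) hρ.le)
    rw [e] at a1
    rw [mem_ball_iff_norm]
    linarith [norm_sub_le_norm_sub_add_norm_sub (B.gs x y) z p]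
  have M0 : 0 ≤ M := (norm_nonneg _).trans ((hΘ _ (mem _ (mem_ball_self hρ))).2.2 0 (Nat.zero_le _))
  refine ⟨by rwa [e], hρ, by linarith [h.rR, h.R1, h.rp], hb, fun y hy => ?_,
    fun y hy => (hΘ _ (mem y hy)).2.1, fun y hy i hi => ?_⟩
  · exact (ContDiffAt.comp (g := Θ) y (hΘ _ (mem y hy)).1 (h.ubg.at (sub hy))).contDiffWithinAt
  · refine (comp_at i (hΘ _ (mem y hy)).1 (h.ubg.at (sub hy)) (C := M) (D := L2)
      (fun k hk => (hΘ _ (mem y hy)).2.2 k (hk.trans hi)) fun k k1 hk =>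
        (h2 k (hk.trans hi) x y (sub hy)).trans (le_self_pow₀ l2 (by omega))).trans (le_trans ?_ hM)
    have a1 : (i ! : ℝ) ≤ N ! := by exact_mod_cast Nat.factorial_le hi
    have a2 : L2 ^ i ≤ L2 ^ N := pow_le_pow_right₀ l2 hi
    calc _ ≤ N ! * M * L2 ^ N := by gcongr
      _ = N ! * L2 ^ N * M := by ring
      _ ≤ _ := mul_le_mul_of_nonneg_right (le_max_right _ _) M0

end

set_option maxHeartbeats 1600000 in
theorem ndS : NdS := by
  intro E V V' X Y _ _ _ _ _ _ _ _ _ B hB r N a θ a₀ hθ ha ⟨CI, hI⟩ n m A0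
  have := FiniteDimensional.complete ℝ V
  set P : ℕ := 1 + 2 * r + (N + 4) * a + 2 * (6 * n + 4) with hP
  have K0 : 0 ≤ a₀ * P / θ := by positivity
  refine ⟨a₀ * P / θ, K0, fun c c' => ?_⟩
  set d : ℕ → ℝ := fun k => max 1 (max (c k) (c' k)) with hd
  have d1 : ∀ k, 1 ≤ d k := fun k => le_max_left _ _
  have dc : ∀ k, c k ≤ d k := fun k => (le_max_left _ _).trans (le_max_right _ _)
  have dc' : ∀ k, c' k ≤ d k := fun k => (le_max_right _ _).trans (le_max_right _ _)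
  obtain ⟨C, C0, hC⟩ := nj (E × E) V n d A0
  obtain ⟨L, L1, hL⟩ := hB.slice N
  set dN := ∑ k ∈ range (N + 1), d k with hdN
  have dN1 : ∀ k ≤ N, d k ≤ dN := fun k hk =>
    single_le_sum (fun k _ => zero_le_one.trans (d1 k)) (mem_range.2 (by omega))
  have r0 := hB.rp
  obtain ⟨j₀, hj₀⟩ := ev_big (by linarith : 0 < a₀)
    (2 + L + L * dN + B.r⁻¹ + 2 * d 0 + d 0 * |A0| + 2 * d 0 * d 1 + |CI|)
  refine ⟨C * d 0 ^ (3 * (n + 1)), j₀, fun j s hj hs hm ψ z Θ Θ' hψ hz h1 h2 f1 f2 ne hA i hi => ?_⟩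
  have big := hj₀ j hj
  have a0 := d1 0
  have a1 := d1 1
  have a2 := (d1 0).trans (dN1 0 (Nat.zero_le _))
  have a3 : 0 ≤ L * dN := by positivity
  have a4 : 0 < B.r⁻¹ := by positivity
  have a5 : 0 ≤ d 0 * |A0| := by positivity
  have a6 : 0 ≤ 2 * d 0 * d 1 := by positivity
  have a7 := abs_nonneg CI
  simp only [LB.Cr, exp_lev, exp_neg] at h1 h2 f1 f2
  have GF : exp (a₀ * s) ≤ exp (a₀ * j) :=
    exp_le_exp.2 (mul_le_mul_of_nonneg_left (by exact_mod_cast hs) (by linarith))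
  have G1 : 1 ≤ exp (a₀ * s) := one_le_exp (by positivity)
  have eε : ((exp (a₀ * P / θ * j))⁻¹) ^ θ = (exp (a₀ * j) ^ P)⁻¹ := by
    rw [← exp_neg, ← exp_mul, ← exp_nat_mul, ← exp_neg]; congr 1; field_simp
  have eε' : (exp (m * (a₀ * P / θ) * s))⁻¹ ≤ (exp (a₀ * P / θ * j))⁻¹ := by
    refine inv_anti₀ (exp_pos _) (exp_le_exp.2 ?_)
    have : (j : ℝ) ≤ m * s := by exact_mod_cast hm
    nlinarith
  have fin : exp (a₀ * s) ^ (3 * (i + 1)) ≤ exp (4 * a₀ * (i + 1) * s) := by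
    rw [← exp_nat_mul]
    refine exp_le_exp.2 ?_
    push_cast
    nlinarith [show (0 : ℝ) ≤ a₀ * (i + 1) * s by positivity]
  generalize exp (a₀ * s) = G at *
  generalize exp (a₀ * j) = F at *
  generalize (exp (a₀ * P / θ * j))⁻¹ = ε at *
  have F2 : 2 ≤ F := by linarith
  have F1 : 1 ≤ F := by linarith
  have F0 : 0 < F := by linarith
  have i1 : F⁻¹ ≤ G⁻¹ := inv_anti₀ (by linarith) GF
  have i2 : F⁻¹ ≤ B.r := by rw [inv_le_comm₀ F0 r0]; linarith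
  have i3 : (F ^ 2)⁻¹ ≤ F⁻¹ := inv_anti₀ F0 (le_self_pow₀ F1 two_ne_zero)
  have i4 : ((F ^ 2) ^ 2)⁻¹ ≤ (F ^ 2)⁻¹ :=
    inv_anti₀ (by positivity) (le_self_pow₀ (one_le_pow₀ F1) two_ne_zero)
  have i5 : (F ^ 2)⁻¹ + L * (F ^ 2)⁻¹ ≤ F⁻¹ := by
    rw [← one_add_mul, ← div_eq_mul_inv, div_le_iff₀ (by positivity), sq, inv_mul_cancel_left₀ F0.ne']
    linarith
  have s1 : ball z ((F ^ 2) ^ 2)⁻¹ ⊆ ball z F⁻¹ := ball_subset_ball (i4.trans i3)
  have s2 : ball z F⁻¹ ⊆ ball z G⁻¹ := ball_subset_ball i1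
  have b1 : ∀ y ∈ ball z F⁻¹, ∀ k, ‖iteratedFDeriv ℝ k Θ y‖ ≤ d k * F ^ (k + 1) := fun y hy k =>
    ((h1 y hy).2.2 k).trans (by have := dc k; gcongr)
  have b2 : ∀ y ∈ ball z F⁻¹, ∀ k, ‖iteratedFDeriv ℝ k Θ' y‖ ≤ d k * G ^ (k + 1) := fun y hy k =>
    ((h2 y (s2 hy)).2.2 k).trans (by have := dc' k; gcongr)
  have bN : ∀ k ≤ N, d k * F ^ (k + 1) ≤ dN * F ^ (N + 1) := fun k hk => by
    have := dN1 k hk
    have := pow_le_pow_right₀ F1 (Nat.succ_le_succ hk)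
    gcongr
  have bL : L * (dN * F ^ (N + 1)) ≤ F ^ (N + 2) := by
    rw [← mul_assoc, pow_succ' F (N + 1)]
    gcongr
    linarith
  have fl' : 1 ≤ d 0 * G * ‖Θ' z‖ := by
    rw [inv_le_iff_one_le_mul₀ (by linarith)] at f2
    have := dc' 0
    calc _ ≤ c' 0 * ‖Θ' z‖ * G := f2
      _ ≤ d 0 * ‖Θ' z‖ * G := by gcongr
      _ = _ := by ring
  have dir := norm_le_nrm ne hA
  have par : ∀ y ∈ ball z ((F ^ 2) ^ 2)⁻¹,
      ‖ψ (Θ y) • Θ' y - ψ (Θ' y) • Θ y‖ ≤ ((F ^ 2) ^ (6 * n + 4))⁻¹ := fun y hy => by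
    have hy' := mem_ball_iff_norm.1 hy
    have y2 : ‖y‖ < 2 * B.r := by linarith [norm_le_norm_add_norm_sub' y z]
    obtain ⟨x, hx⟩ := hB.cov y y2
    have t1 := hL Θ y z x (F ^ 2)⁻¹ F⁻¹ ε _ _ hx y2 (by positivity) (i3.trans i2) (by linarith)
      (one_le_pow₀ F1) bL fun w hw => ⟨(h1 w hw).1, (h1 w hw).2.1, fun k hk =>
        (b1 w hw k).trans (bN k hk)⟩
    have t2 := hL Θ' y z x (F ^ 2)⁻¹ F⁻¹ ε _ _ hx y2 (by positivity) (i3.trans i2) (by linarith)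
      (one_le_pow₀ F1) bL fun w hw => ⟨(h2 w (s2 hw)).1, (h2 w (s2 hw)).2.1.trans eε', fun k hk =>
        (b2 w hw k).trans (le_trans (by have := d1 k; gcongr) (bN k hk))⟩
    have t3 := hI x _ _ _ _ _ _ t2 t1 ψ hψ
    have e : B.gs x y.1 = y := Prod.ext rfl hx
    simp only [e] at t3
    rw [norm_sub_rev, eε, div_inv_eq_mul, ← pow_add, ← pow_mul] at t3
    have lip : ‖Θ' y - Θ' z‖ ≤ d 1 * F ^ 2 * ‖y - z‖ :=
      (convex_ball z F⁻¹).norm_image_sub_le_of_norm_fderiv_le (𝕜 := ℝ)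
        (fun w hw => (h2 w (s2 hw)).1.differentiableAt (by simp)) (fun w hw => by
          have := b2 w hw 1
          rw [← norm_iteratedFDeriv_fderiv, norm_iteratedFDeriv_zero] at this
          exact this.trans (by gcongr)) (mem_ball_self (by positivity)) (s1 hy)
    have low : 1 ≤ F ^ 2 * ‖Θ' y‖ := by
      have u1 : d 1 * F ^ 2 * ‖y - z‖ ≤ d 1 * (F ^ 2)⁻¹ := by
        calc _ ≤ d 1 * F ^ 2 * ((F ^ 2) ^ 2)⁻¹ := by gcongr
          _ = _ := by field_simp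
      have u2 : ‖Θ' z‖ ≤ ‖Θ' y‖ + d 1 * (F ^ 2)⁻¹ := by
        linarith [norm_le_norm_add_norm_sub (Θ' y) (Θ' z)]
      have u3 : 1 ≤ d 0 * F * (‖Θ' y‖ + d 1 * (F ^ 2)⁻¹) := fl'.trans (by gcongr)
      have u4 : d 0 * F * (d 1 * (F ^ 2)⁻¹) ≤ 1 / 2 := by
        rw [show d 0 * F * (d 1 * (F ^ 2)⁻¹) = d 0 * d 1 / F by field_simp, div_le_iff₀ F0]
        linarith
      have u5 : 2 * d 0 * F * ‖Θ' y‖ ≤ F * F * ‖Θ' y‖ := by gcongr; linarith
      rw [mul_add] at u3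
      rw [sq]
      linarith
    have low' : 1 ≤ F ^ (2 * r) * ‖Θ' y‖ ^ r := by
      rw [pow_mul, ← mul_pow]; exact one_le_pow₀ low
    have t4 : CI * F ^ ((N + 2 + 2) * a) * (F ^ P)⁻¹ ≤ F * F ^ ((N + 2 + 2) * a) * (F ^ P)⁻¹ := by
      gcongr; linarith [le_abs_self CI]
    calc _ ≤ F ^ (2 * r) * ‖Θ' y‖ ^ r * ‖ψ (Θ y) • Θ' y - ψ (Θ' y) • Θ y‖ :=
          le_mul_of_one_le_left (norm_nonneg _) low'
      _ ≤ F ^ (2 * r) * (F * F ^ ((N + 2 + 2) * a) * (F ^ P)⁻¹) := by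
          rw [mul_assoc]; exact mul_le_mul_of_nonneg_left (t3.trans t4) (by positivity)
      _ = F ^ (2 * r + ((N + 2 + 2) * a + 1)) * (F ^ P)⁻¹ := by
          rw [pow_add F (2 * r), pow_succ' F ((N + 2 + 2) * a)]; ring
      _ ≤ _ := by rw [← pow_mul]; exact pw_le F1 (by rw [hP]; ring_nf; omega)
  have main := hC ⟨F ^ 2, d 0 * G, z, Θ, Θ', ψ, by nlinarith, one_le_mul_of_one_le_of_one_le a0 G1,
    by rw [sq]; gcongr; linarith, hψ, fun y hy => ⟨(h1 y (s1 hy)).1, (h2 y (s2 (s1 hy))).1⟩,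
    fun y hy k => ⟨(b1 y (s1 hy) k).trans (by
      have := d1 k
      gcongr
      exact le_self_pow₀ F1 two_ne_zero), (b2 y (s1 hy) k).trans (by
      have := d1 k
      gcongr
      exact le_mul_of_one_le_left (by linarith) a0)⟩, by
      rw [inv_le_iff_one_le_mul₀ F0] at f1
      have := dc 0
      have u1 : c 0 * ‖Θ z‖ * F ≤ d 0 * (|ψ (Θ z)| * |A0|) * F := by
        gcongr
        exact dir.trans (by gcongr; exact le_abs_self _)
      have u2 : d 0 * |A0| * F ≤ (F ^ 2) ^ 2 :=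
        calc _ ≤ F * F := by gcongr; linarith
          _ = F ^ 2 := by ring
          _ ≤ _ := le_self_pow₀ (one_le_pow₀ F1) two_ne_zero
      calc _ ≤ d 0 * |A0| * F * |ψ (Θ z)| := by linarith
        _ ≤ _ := by gcongr, fl', by rw [mul_comm]; exact dir, par⟩ i hi
  refine main.trans ?_
  simp only [mul_pow]
  rw [← mul_assoc]
  have := pow_le_pow_right₀ a0 (by omega : 3 * (i + 1) ≤ 3 * (n + 1))
  gcongr

end Crest.Agent.N221.G0
end

-- ▼ part N221/G0/Net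
section

/-!
Row 221, block G0 (helper18): `net` (a function with crude bounds that is small on a fine net is
small everywhere) and `lm0` (local lower modulus: a point near `y` where all jets of `F` are
controlled by `1 / |μ y|`).
-/

set_option autoImplicit false

open Set Metric Finset Filter
open scoped ContDiff Topology

namespace Crest.Agent.N221.G0

/-- Lipschitz bound at scale `ρ` from the sup and one high derivative -/
theorem lip_scale (N : ℕ) (hN : 1 ≤ N) : ∃ C : ℝ, 1 ≤ C ∧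
    ∀ (E F : Type) [NormedAddCommGroup E] [NormedSpace ℝ E] [NormedAddCommGroup F]
      [NormedSpace ℝ F] [CompleteSpace F] (f : E → F) (y : E) (ρ M B : ℝ), 0 < ρ →
      ContDiffOn ℝ N f (ball y ρ) → (∀ x ∈ ball y ρ, ‖f x‖ ≤ M) →
      (∀ x ∈ ball y ρ, ‖iteratedFDeriv ℝ N f x‖ ≤ B) → ∀ z ∈ ball y (ρ / 2),
        ‖f z - f y‖ ≤ C * (M / ρ + B * ρ ^ (N - 1)) * ‖z - y‖ := by
  obtain ⟨C, C0, h⟩ := X.int_all N
  refine ⟨max C 1, le_max_right _ _, fun E F _ _ _ _ _ f y ρ M B hρ hf hM hB z hz => ?_⟩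
  have M0 : 0 ≤ M := (norm_nonneg _).trans (hM y (mem_ball_self hρ))
  have B0 : 0 ≤ B := (norm_nonneg _).trans (hB y (mem_ball_self hρ))
  have sub : ball y (ρ / 2) ⊆ ball y ρ := ball_subset_ball (by linarith)
  refine (convex_ball y (ρ / 2)).norm_image_sub_le_of_norm_fderiv_le (𝕜 := ℝ)
    (fun x hx => (hf.contDiffAt (isOpen_ball.mem_nhds (sub hx))).differentiableAt
      (by exact_mod_cast (by omega : N ≠ 0))) (fun x hx => ?_) (mem_ball_self (by linarith)) hz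
  have := h E F f y ρ M B hρ hf hM hB 1 hN x hx
  rw [← norm_iteratedFDeriv_fderiv, norm_iteratedFDeriv_zero, pow_one] at this
  exact this.trans (mul_le_mul_of_nonneg_right (le_max_left _ _) (by positivity))

/-- small on a `σ`-net, crude bounds `M`, `B` ⟹ small on a slightly smaller ball -/
theorem net (N : ℕ) (hN : 1 ≤ N) : ∃ C : ℝ, 1 ≤ C ∧
    ∀ (E F : Type) [NormedAddCommGroup E] [NormedSpace ℝ E] [NormedAddCommGroup F]
      [NormedSpace ℝ F] [CompleteSpace F] (f : E → F) (x₀ : E) (r ρ σ η M B : ℝ) (L : ℕ), 0 < ρ →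
      0 ≤ σ → 2 * C * σ ≤ ρ / 2 → ContDiffOn ℝ N f (ball x₀ r) → (∀ x ∈ ball x₀ r, ‖f x‖ ≤ M) →
      (∀ x ∈ ball x₀ r, ‖iteratedFDeriv ℝ N f x‖ ≤ B) →
      (∀ y ∈ ball x₀ (r - ρ), ∃ z, ‖z - y‖ ≤ σ ∧ ‖f z‖ ≤ η) → ∀ y ∈ ball x₀ (r - (L + 1) * ρ),
        ‖f y‖ ≤ 2 * (η + B * ρ ^ N) + (C * σ / ρ) ^ (L + 1) * M := by
  obtain ⟨C, C1, h⟩ := lip_scale N hN
  refine ⟨C, C1, fun E F _ _ _ _ _ f x₀ r ρ σ η M B L hρ hσ hs hf hM hB hz => ?_⟩
  have hθ : C * σ / ρ ≤ 1 / 2 := by rw [div_le_iff₀ hρ]; linarith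
  have θ0 : 0 ≤ C * σ / ρ := by positivity
  have step : ∀ r' M', r' ≤ r → (∀ x ∈ ball x₀ r', ‖f x‖ ≤ M') → ∀ y ∈ ball x₀ (r' - ρ),
      0 ≤ η + B * ρ ^ N ∧ ‖f y‖ ≤ η + B * ρ ^ N + C * σ / ρ * M' := fun r' M' hr hM' y hy => by
    have sub : ball y ρ ⊆ ball x₀ r' := ball_subset_ball' (by linarith [mem_ball.1 hy])
    have sub' : ball y ρ ⊆ ball x₀ r := sub.trans (ball_subset_ball hr)
    obtain ⟨z, z1, z2⟩ := hz y (ball_subset_ball (by linarith) hy)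
    have M0 : 0 ≤ M' := (norm_nonneg _).trans (hM' y (sub (mem_ball_self hρ)))
    have B0 : 0 ≤ B := (norm_nonneg _).trans (hB y (sub' (mem_ball_self hρ)))
    have η0 : 0 ≤ η := (norm_nonneg _).trans z2
    have h1 := h E F f y ρ M' B hρ (hf.mono sub') (fun x hx => hM' x (sub hx))
      (fun x hx => hB x (sub' hx)) z (by rw [mem_ball_iff_norm]; nlinarith)
    have h2 : C * (M' / ρ + B * ρ ^ (N - 1)) * ‖z - y‖ ≤ C * (M' / ρ + B * ρ ^ (N - 1)) * σ := by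
      gcongr
    have h3 : C * (M' / ρ + B * ρ ^ (N - 1)) * σ = C * σ / ρ * M' + C * σ / ρ * (B * ρ ^ N) := by
      obtain ⟨n, rfl⟩ : ∃ n, N = n + 1 := ⟨N - 1, by omega⟩
      rw [Nat.add_sub_cancel, pow_succ]; field_simp
    have h4 : C * σ / ρ * (B * ρ ^ N) ≤ B * ρ ^ N :=
      mul_le_of_le_one_left (by positivity) (by linarith)
    have h5 := norm_sub_le (f z) (f z - f y)
    rw [sub_sub_cancel] at h5
    exact ⟨by positivity, by linarith⟩
  induction L with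
  | zero =>
    intro y hy
    obtain ⟨a, b⟩ := step r M le_rfl hM y (by simpa using hy)
    rw [zero_add, pow_one]; linarith
  | succ L ih =>
    intro y hy
    have L0 : 0 ≤ ((L : ℝ) + 1) * ρ := by positivity
    obtain ⟨a, b⟩ := step _ _ (by linarith) ih y (by convert hy using 2; push_cast; ring)
    rw [pow_succ _ (L + 1)]
    nlinarith

/-- local lower modulus -/
theorem lm0 (k N : ℕ) : ∃ C : ℝ, 1 ≤ C ∧
    ∀ (E V : Type) [NormedAddCommGroup E] [NormedSpace ℝ E] [FiniteDimensional ℝ E]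
      [NormedAddCommGroup V] [NormedSpace ℝ V] [CompleteSpace V] (F : E → V) (μ : E → ℝ) (y : E)
      (ρ A B B' : ℝ), 0 < ρ → ContDiffOn ℝ ∞ μ (ball y ρ) → ContDiffOn ℝ N F (ball y ρ) →
      μ y ≠ 0 → (∀ x ∈ ball y ρ, ‖iteratedFDeriv ℝ (k + 1) μ x‖ ≤ B) → B * ρ ^ (k + 1) ≤ |μ y| →
      (∀ x ∈ ball y ρ, ‖F x‖ * |μ x| ≤ A) → (∀ x ∈ ball y ρ, ‖iteratedFDeriv ℝ N F x‖ ≤ B') →
      ∃ x₀ ∈ ball y ρ, ∀ i ≤ N,
        ‖iteratedFDeriv ℝ i F x₀‖ ≤ C * (A / |μ y| / ρ ^ i + B' * ρ ^ (N - i)) := by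
  obtain ⟨C1, c1, h1⟩ := lip_scale (k + 1) (by omega)
  obtain ⟨C2, c2, h2⟩ := X.int_all N
  set D : ℝ := 2 * 12 ^ k + 1 with hD
  have D1 : 1 ≤ D := le_add_of_nonneg_left (by positivity)
  set K : ℝ := 8 * C1 * (D + 1) with hK
  have K1 : 4 ≤ K := by nlinarith
  refine ⟨max 1 (C2 * (2 * K ^ N)), le_max_left _ _,
    fun E V _ _ _ _ _ _ F μ y ρ A B B' hρ hμ hF h0 hB hs hA hB' => ?_⟩
  have := FiniteDimensional.proper ℝ E
  have sub : closedBall y (ρ / 2) ⊆ ball y ρ := closedBall_subset_ball (by linarith)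
  obtain ⟨x₀, hx, hm⟩ := (isCompact_closedBall y (ρ / 2)).exists_isMaxOn
    ⟨y, mem_closedBall_self (by linarith)⟩ (hμ.continuousOn.mono sub).abs
  set S := |μ x₀| with hS
  have yS : |μ y| ≤ S := hm (mem_closedBall_self (by linarith))
  have y0 : 0 < |μ y| := abs_pos.2 h0
  have B0 : 0 ≤ B := (norm_nonneg _).trans (hB y (mem_ball_self hρ))
  have B0' : 0 ≤ B' := (norm_nonneg _).trans (hB' y (mem_ball_self hρ))
  have A0 : 0 ≤ A := le_trans (by positivity) (hA y (mem_ball_self hρ))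
  obtain ⟨t1, t2, -⟩ := PS.tay_ E ℝ k
  have mem : ∀ x ∈ ball (0 : E) ρ, y + x ∈ ball y ρ := fun x hx => by
    rwa [mem_ball_iff_norm, add_sub_cancel_left, ← mem_ball_zero_iff]
  have r1 : ∀ x ∈ ball (0 : E) ρ, ‖μ (y + x) - PS.tay k (fun x => μ (y + x)) x‖ ≤ S := fun x hx => by
    refine (t1 (fun x => μ (y + x)) ρ B (hμ.comp (by fun_prop) mem) (fun x hx => ?_) x hx).trans ?_
    · rw [iteratedFDeriv_comp_add_left]; exact hB _ (mem x hx)
    · refine le_trans ?_ (hs.trans yS)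
      have := (mem_ball_zero_iff.1 hx).le
      gcongr
  have r2 : ∀ x ∈ ball y ρ, ‖μ x‖ ≤ D * S := fun x hx => by
    have hx' : x - y ∈ ball (0 : E) ρ := by rwa [mem_ball_zero_iff, ← mem_ball_iff_norm]
    have a1 := t2 (fun x => μ (y + x)) (ρ / 2) ρ (2 * S) (by linarith) (by linarith)
      (fun z hz => by
        have b1 := r1 z (mem_ball_zero_iff.2 (by linarith))
        have b2 : |μ (y + z)| ≤ S := hm (by rwa [mem_closedBall_iff_norm, add_sub_cancel_left])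
        have b3 := norm_sub_le (μ (y + z)) (μ (y + z) - PS.tay k (fun x => μ (y + x)) z)
        rw [sub_sub_cancel, Real.norm_eq_abs (μ _)] at b3
        linarith) (x - y) (mem_ball_zero_iff.1 hx').le
    have a2 := r1 _ hx'
    have a3 := norm_add_le (μ (y + (x - y)) - PS.tay k (fun x => μ (y + x)) (x - y))
      (PS.tay k (fun x => μ (y + x)) (x - y))
    rw [sub_add_cancel] at a3
    rw [show 6 * ρ / (ρ / 2) = 12 by field_simp; norm_num] at a1
    rw [add_sub_cancel] at a2 a3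
    rw [hD]; linarith
  have sub2 : ball x₀ (ρ / 2) ⊆ ball y ρ := ball_subset_ball' (by linarith [mem_closedBall.1 hx])
  have ρK : 0 < ρ / K := by positivity
  have ρK' : ρ / K ≤ ρ / 4 := by gcongr
  have sub3 : ball x₀ (ρ / K) ⊆ ball y ρ := (ball_subset_ball (by linarith)).trans sub2
  have r3 : ∀ z ∈ ball x₀ (ρ / K), ‖F z‖ ≤ 2 * (A / |μ y|) := fun z hz => by
    have a1 := h1 E ℝ μ x₀ (ρ / 2) (D * S) B (by linarith)
      ((hμ.mono sub2).of_le (by exact_mod_cast le_top)) (fun x hx => r2 x (sub2 hx))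
      (fun x hx => hB x (sub2 hx)) z (ball_subset_ball (by linarith) hz)
    have S0 : 0 < S := y0.trans_le yS
    have a2 : B * (ρ / 2) ^ (k + 1 - 1) ≤ S / (ρ / 2) := by
      rw [le_div_iff₀ (by linarith), Nat.add_sub_cancel, mul_assoc, ← pow_succ]
      refine le_trans ?_ (hs.trans yS)
      gcongr
      linarith
    have a3 : C1 * (D * S / (ρ / 2) + B * (ρ / 2) ^ (k + 1 - 1)) * ‖z - x₀‖ ≤
        C1 * (D * S / (ρ / 2) + S / (ρ / 2)) * (ρ / K) := by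
      have := (mem_ball_iff_norm.1 hz).le
      gcongr
    have a4 : C1 * (D * S / (ρ / 2) + S / (ρ / 2)) * (ρ / K) = S / 4 := by
      rw [hK]; field_simp; norm_num
    have a5 := abs_sub_abs_le_abs_sub (μ x₀) (μ z)
    rw [abs_sub_comm, ← Real.norm_eq_abs (μ z - _)] at a5
    have a6 : |μ y| / 2 ≤ |μ z| := by linarith
    have a7 := (mul_le_mul_of_nonneg_left a6 (norm_nonneg (F z))).trans (hA z (sub3 hz))
    rw [← mul_div_assoc, le_div_iff₀ y0]
    linarith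
  refine ⟨x₀, sub hx, fun i hi => (h2 E V F x₀ (ρ / K) _ B' ρK (hF.mono sub3) r3
    (fun x hx => hB' x (sub3 hx)) i hi x₀ (mem_ball_self (by linarith))).trans ?_⟩
  refine le_trans ?_ (mul_le_mul_of_nonneg_right (le_max_right _ _) (by positivity))
  rw [mul_assoc C2]
  refine mul_le_mul_of_nonneg_left ?_ c2.le
  have K0 : 1 ≤ K := by linarith
  have e1 : 2 * (A / |μ y|) / (ρ / K) ^ i = 2 * K ^ i * (A / |μ y| / ρ ^ i) := by
    rw [div_pow]; field_simp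
  have e2 : K ^ i ≤ K ^ N := pow_le_pow_right₀ K0 hi
  have e3 : (ρ / K) ^ (N - i) ≤ 2 * K ^ N * ρ ^ (N - i) := by
    have b1 : (ρ / K) ^ (N - i) ≤ ρ ^ (N - i) := by gcongr; exact div_le_self hρ.le K0
    have b2 : 1 ≤ K ^ N := one_le_pow₀ K0
    nlinarith [pow_pos hρ (N - i)]
  rw [e1, mul_add, mul_left_comm _ B']
  gcongr

end Crest.Agent.N221.G0
end

-- ▼ part N221/G0/Harn
section

/-!
Row 221, block G0 (helper18): HARNACK at one scale for `f * h = 1`, both almost polynomial.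
-/

set_option autoImplicit false

open Set Metric Finset Filter
open scoped ContDiff Topology

namespace Crest.Agent.N221.G0

/-- sup from the jets at the centre and one high derivative -/
theorem sup_of_jets {E V : Type} [NormedAddCommGroup E] [NormedSpace ℝ E] [NormedAddCommGroup V]
    [NormedSpace ℝ V] [CompleteSpace V] (k : ℕ) {F : E → V} {x₀ : E} {r η B : ℝ}
    (hF : ContDiffOn ℝ ∞ F (ball x₀ r)) (hB : ∀ x ∈ ball x₀ r, ‖iteratedFDeriv ℝ (k + 1) F x‖ ≤ B)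
    (hj : ∀ i ≤ k, ‖iteratedFDeriv ℝ i F x₀‖ * r ^ i ≤ η) :
    ∀ x ∈ ball x₀ r, ‖F x‖ ≤ (k + 1) * η + B * r ^ (k + 1) := fun x hx => by
  have mem : ∀ x ∈ ball (0 : E) r, x₀ + x ∈ ball x₀ r := fun x hx => by
    rwa [mem_ball_iff_norm, add_sub_cancel_left, ← mem_ball_zero_iff]
  have hx' : ‖x - x₀‖ < r := mem_ball_iff_norm.1 hx
  have B0 : 0 ≤ B := (norm_nonneg _).trans (hB x hx)
  have h1 := (PS.tay_ E V k).1 (fun x => F (x₀ + x)) r B (hF.comp (by fun_prop) mem)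
    (fun x hx => by rw [iteratedFDeriv_comp_add_left]; exact hB _ (mem x hx)) (x - x₀)
    (mem_ball_zero_iff.2 hx')
  have h2 : ‖PS.tay k (fun x => F (x₀ + x)) (x - x₀)‖ ≤ (k + 1) * η := by
    refine (norm_sum_le _ _).trans ((sum_le_card_nsmul _ _ η fun i hi => ?_).trans ?_)
    · refine le_trans ?_ (hj i (Nat.lt_succ_iff.1 (mem_range.1 hi)))
      rw [norm_smul, iteratedFDeriv_comp_add_left, add_zero]
      refine (mul_le_of_le_one_left (norm_nonneg _) ?_).trans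
        ((ContinuousMultilinearMap.le_opNorm _ _).trans ?_)
      · rw [norm_inv, Real.norm_natCast]
        exact inv_le_one_of_one_le₀ (by exact_mod_cast Nat.factorial_pos i)
      · rw [prod_const, card_univ, Fintype.card_fin]
        gcongr
    · rw [card_range, nsmul_eq_mul]; push_cast; exact le_rfl
  have h3 : B * ‖x - x₀‖ ^ (k + 1) ≤ B * r ^ (k + 1) := by gcongr
  have h4 := norm_add_le (F (x₀ + (x - x₀)) - PS.tay k (fun x => F (x₀ + x)) (x - x₀))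
    (PS.tay k (fun x => F (x₀ + x)) (x - x₀))
  rw [sub_add_cancel] at h4
  rw [add_sub_cancel] at h1 h4
  linarith

/-- vector form: `‖F‖ |μ| ≤ A` on the ball, `μ` almost polynomial -/
theorem harnV (k : ℕ) : ∃ C : ℝ, 1 ≤ C ∧
    ∀ (E V : Type) [NormedAddCommGroup E] [NormedSpace ℝ E] [FiniteDimensional ℝ E]
      [NormedAddCommGroup V] [NormedSpace ℝ V] [CompleteSpace V] (F : E → V) (μ : E → ℝ) (y x' : E)
      (ρ A B B' : ℝ), 0 < ρ → ContDiffOn ℝ ∞ μ (ball y (4 * ρ)) → ContDiffOn ℝ ∞ F (ball y (4 * ρ)) →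
      x' ∈ ball y ρ → μ x' ≠ 0 → (∀ x ∈ ball y (4 * ρ), ‖iteratedFDeriv ℝ (k + 1) μ x‖ ≤ B) →
      B * ρ ^ (k + 1) ≤ |μ x'| → (∀ x ∈ ball y (4 * ρ), ‖F x‖ * |μ x| ≤ A) →
      (∀ x ∈ ball y (4 * ρ), ‖iteratedFDeriv ℝ (k + 1) F x‖ ≤ B') →
      ∀ x ∈ ball y ρ, ‖F x‖ ≤ C * (A / |μ x'| + B' * ρ ^ (k + 1)) := by
  obtain ⟨C, C1, h⟩ := lm0 k (k + 1)
  refine ⟨(k + 1) * (C * 5 ^ k) + 5 ^ (k + 1), le_add_of_nonneg_of_le (by positivity)
    (one_le_pow₀ (by norm_num)), fun E V _ _ _ _ _ _ F μ y x' ρ A B B' hρ hμ hF hx' h0 hB hs hA hB'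
      x hx => ?_⟩
  have sub : ball x' (ρ / 2) ⊆ ball y (4 * ρ) := ball_subset_ball' (by linarith [mem_ball.1 hx'])
  have B0 : 0 ≤ B := (norm_nonneg _).trans (hB y (mem_ball_self (by linarith)))
  have B0' : 0 ≤ B' := (norm_nonneg _).trans (hB' y (mem_ball_self (by linarith)))
  have A0 : 0 ≤ A := le_trans (by positivity) (hA y (mem_ball_self (by linarith)))
  have p2 : (ρ / 2) ^ (k + 1) ≤ ρ ^ (k + 1) := by gcongr; linarith
  obtain ⟨x₀, hx₀, h1⟩ := h E V F μ x' (ρ / 2) A B B' (by linarith) (hμ.mono sub)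
    ((hF.mono sub).of_le (by exact_mod_cast le_top)) h0 (fun x hx => hB x (sub hx))
    ((mul_le_mul_of_nonneg_left p2 B0).trans hs) (fun x hx => hA x (sub hx))
    (fun x hx => hB' x (sub hx))
  have d0 : dist x₀ y < 3 / 2 * ρ := by
    linarith [dist_triangle x₀ x' y, mem_ball.1 hx₀, mem_ball.1 hx']
  have sub2 : ball x₀ (5 * (ρ / 2)) ⊆ ball y (4 * ρ) := ball_subset_ball' (by linarith)
  set Z := A / |μ x'| + B' * ρ ^ (k + 1) with hZ
  have Z1 : 0 ≤ A / |μ x'| := by positivity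
  have h2 := sup_of_jets k (η := C * 5 ^ k * Z) (hF.mono sub2) (fun x hx => hB' x (sub2 hx))
    (fun i hi => by
      refine (mul_le_mul_of_nonneg_right (h1 i (by omega)) (by positivity)).trans ?_
      have e : C * (A / |μ x'| / (ρ / 2) ^ i + B' * (ρ / 2) ^ (k + 1 - i)) * (5 * (ρ / 2)) ^ i =
          C * 5 ^ i * (A / |μ x'| + B' * (ρ / 2) ^ (k + 1)) := by
        rw [show (ρ / 2) ^ (k + 1) = (ρ / 2) ^ (k + 1 - i) * (ρ / 2) ^ i by
          rw [← pow_add]; congr 1; omega, mul_pow]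
        field_simp
      rw [e, hZ]
      gcongr
      norm_num) x (by
      rw [mem_ball]; linarith [dist_triangle_right x x₀ y, mem_ball.1 hx])
  refine h2.trans ?_
  have h3 : B' * (5 * (ρ / 2)) ^ (k + 1) ≤ 5 ^ (k + 1) * Z := by
    rw [mul_pow, mul_left_comm]
    refine mul_le_mul_of_nonneg_left ?_ (by positivity)
    linarith [mul_le_mul_of_nonneg_left p2 B0']
  nlinarith

/-- HARN -/
theorem harn (k : ℕ) : ∃ C : ℝ, 1 ≤ C ∧
    ∀ (E : Type) [NormedAddCommGroup E] [NormedSpace ℝ E] [FiniteDimensional ℝ E] (f h : E → ℝ)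
      (y x' : E) (ρ : ℝ), 0 < ρ → ContDiffOn ℝ ∞ f (ball y (4 * ρ)) →
      ContDiffOn ℝ ∞ h (ball y (4 * ρ)) → (∀ x ∈ ball y (4 * ρ), f x * h x = 1) → x' ∈ ball y ρ →
      (∀ x ∈ ball y (4 * ρ), ‖iteratedFDeriv ℝ k f x‖ * ρ ^ k ≤ |f x'|) →
      (∀ x ∈ ball y (4 * ρ), ‖iteratedFDeriv ℝ k h x‖ * ρ ^ k ≤ |h x'|) →
      ∀ x ∈ ball y ρ, |f x| ≤ C * |f x'| := by
  rcases k with _ | k
  · refine ⟨1, le_rfl, fun E _ _ _ f h y x' ρ hρ _ _ _ _ h1 _ x hx => ?_⟩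
    simpa using h1 x (ball_subset_ball (by linarith) hx)
  obtain ⟨C, C1, H⟩ := harnV k
  refine ⟨C * 2, by linarith, fun E _ _ _ f h y x' ρ hρ hf hh e hx' h1 h2 x hx => ?_⟩
  have e' := e x' (ball_subset_ball (by linarith) hx')
  have p : 0 < ρ ^ (k + 1) := by positivity
  have := H E ℝ f h y x' ρ 1 (|h x'| / ρ ^ (k + 1)) (|f x'| / ρ ^ (k + 1)) hρ hh hf hx'
    (right_ne_zero_of_mul_eq_one e') (fun x hx => (le_div_iff₀ p).2 (h2 x hx))
    (div_mul_cancel₀ _ p.ne').le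
    (fun x hx => by rw [Real.norm_eq_abs, ← abs_mul, e x hx, abs_one])
    (fun x hx => (le_div_iff₀ p).2 (h1 x hx)) x hx
  rw [div_mul_cancel₀ _ p.ne', one_div, ← abs_inv, ← eq_inv_of_mul_eq_one_left e',
    Real.norm_eq_abs] at this
  linarith

end Crest.Agent.N221.G0
end

-- ▼ part N221/G0/Ap3
section

/-! Row 221, block G0 (helper55): Harnack along the leaf and the net argument for jets. -/

set_option autoImplicit false

open Set Metric Filter Finset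
open scoped ContDiff Nat Topology

namespace Crest.Agent.N221.G0

open Real

section
variable {E Z V : Type} [NormedAddCommGroup E] [NormedSpace ℝ E] [NormedAddCommGroup Z]
  [NormedSpace ℝ Z] [NormedAddCommGroup V] [NormedSpace ℝ V]

lemma itd_itd {f : E → V} {x : E} (h : ContDiffAt ℝ ∞ f x) (i n : ℕ) :
    ‖iteratedFDeriv ℝ n (iteratedFDeriv ℝ i f) x‖ ≤ ‖iteratedFDeriv ℝ (n + i) f x‖ := by
  induction i generalizing n with
  | zero =>
    rw [iteratedFDeriv_zero_eq_comp, LinearIsometryEquiv.norm_iteratedFDeriv_comp_left, add_zero]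
  | succ i ih =>
    have h1 : ContDiffAt ℝ ∞ (iteratedFDeriv ℝ i f) x :=
      h.iteratedFDeriv_right (by exact_mod_cast le_top)
    have h2 := ((continuousMultilinearCurryLeftEquiv ℝ (fun _ : Fin (i + 1) => E)
      V).symm.toLinearIsometry.toContinuousLinearMap).norm_iteratedFDeriv_comp_left
        (cda_fderiv h1) (n := n) (by exact_mod_cast le_top)
    refine le_trans h2 ((mul_le_of_le_one_left (norm_nonneg _)
      (LinearIsometry.norm_toContinuousLinearMap_le _)).trans ?_)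
    rw [norm_iteratedFDeriv_fderiv, add_comm i, ← add_assoc]
    exact ih _

lemma itd_snd {W : E × Z → V} {y : E} (h : ContDiffAt ℝ ∞ W (y, 0)) (i : ℕ) :
    iteratedFDeriv ℝ i (fun v => W (y, v)) 0 = ContinuousMultilinearMap.compContinuousLinearMapL
      (fun _ => ContinuousLinearMap.inr ℝ E Z) (iteratedFDeriv ℝ i W (y, 0)) := by
  have h1 : ContDiffAt ℝ i (fun p => W ((y, 0) + p)) (ContinuousLinearMap.inr ℝ E Z 0) :=
    ContDiffAt.comp (g := W) _ (by simpa using cda h i) (by fun_prop)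
  have := itf_lin (ContinuousLinearMap.inr ℝ E Z) i h1
  rw [iteratedFDeriv_comp_add_left] at this
  simpa using this

lemma fst_sm {W : E × Z → V} {y : E} (h : ContDiffAt ℝ ∞ W (y, 0)) :
    ContDiffAt ℝ ∞ (fun t => W (t, 0)) y := ContDiffAt.comp (g := W) y h (by fun_prop)

lemma fst_le {W : E × Z → V} {y : E} (h : ContDiffAt ℝ ∞ W (y, 0)) (i : ℕ) :
    ‖iteratedFDeriv ℝ i (fun t => W (t, 0)) y‖ ≤ ‖iteratedFDeriv ℝ i W (y, 0)‖ :=
  lin_r_le (ContinuousLinearMap.inl ℝ E Z) (ContinuousLinearMap.norm_inl_le_one _ _ _) (f := W) i h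

end

/-- the net argument for the vertical jets -/
theorem net_jet (N : ℕ) (hN : 1 ≤ N) : ∃ C : ℝ, 1 ≤ C ∧ ∀ (E Z V : Type) [NormedAddCommGroup E]
    [NormedSpace ℝ E] [NormedAddCommGroup Z] [NormedSpace ℝ Z] [NormedAddCommGroup V]
    [NormedSpace ℝ V] [CompleteSpace V] (W : E × Z → V) (i L : ℕ) (M η u : ℝ), 4 ≤ u →
    2 * (L + 1) < u → (∀ y ∈ ball (0 : E) (1 / 2), ContDiffAt ℝ ∞ W (y, 0) ∧
      ∀ k ≤ N + i, ‖iteratedFDeriv ℝ k W (y, 0)‖ ≤ M) →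
    (∀ y ∈ ball (0 : E) (1 / 2 - u⁻¹), ∃ z ∈ ball (0 : E) (1 / 2), ‖z - y‖ ≤ (u ^ 2)⁻¹ / C ∧
      ‖iteratedFDeriv ℝ i (fun v => W (z, v)) 0‖ ≤ η) →
    ‖iteratedFDeriv ℝ i (fun v => W (0, v)) 0‖ ≤ 2 * (η + M * u⁻¹ ^ N) + u⁻¹ ^ (L + 1) * M := by
  obtain ⟨C, C1, h⟩ := net N hN
  refine ⟨C, C1, fun E Z V _ _ _ _ _ _ _ W i L M η u h4 hL hW hz => ?_⟩
  set T : ((E × Z) [×i]→L[ℝ] V) →L[ℝ] (Z [×i]→L[ℝ] V) :=
    ContinuousMultilinearMap.compContinuousLinearMapL fun _ => ContinuousLinearMap.inr ℝ E Z with hT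
  have T1 : ‖T‖ ≤ 1 := (ContinuousMultilinearMap.norm_compContinuousLinearMapL_le _ _).trans
    (prod_le_one (fun _ _ => norm_nonneg _) fun _ _ => ContinuousLinearMap.norm_inr_le_one _ _ _)
  have u0 : 0 < u := by linarith
  have sm : ∀ y ∈ ball (0 : E) (1 / 2), ContDiffAt ℝ ∞ (iteratedFDeriv ℝ i W) (y, 0) := fun y hy =>
    (hW y hy).1.iteratedFDeriv_right (by exact_mod_cast le_top)
  have bd : ∀ y ∈ ball (0 : E) (1 / 2), ∀ k ≤ N,
      ‖iteratedFDeriv ℝ k (fun y => T (iteratedFDeriv ℝ i W (y, 0))) y‖ ≤ M := fun y hy k hk => by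
    refine (T.norm_iteratedFDeriv_comp_left (fst_sm (sm y hy)) (by exact_mod_cast le_top)).trans ?_
    refine (mul_le_of_le_one_left (norm_nonneg _) T1).trans ((fst_le (sm y hy) k).trans ?_)
    exact (itd_itd (hW y hy).1 i k).trans ((hW y hy).2 _ (by omega))
  have e : C * ((u ^ 2)⁻¹ / C) / u⁻¹ = u⁻¹ := by field_simp
  have := h E _ (fun y => T (iteratedFDeriv ℝ i W (y, 0))) 0 (1 / 2) u⁻¹ ((u ^ 2)⁻¹ / C) η M M L
    (by positivity) (by positivity) (by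
      rw [show 2 * C * ((u ^ 2)⁻¹ / C) = 2 / u * u⁻¹ by field_simp, div_eq_inv_mul u⁻¹]
      gcongr
      rw [div_le_iff₀ u0]; linarith)
    (fun y hy => (cda (T.contDiff.contDiffAt.comp y (fst_sm (sm y hy))) N).contDiffWithinAt)
    (fun y hy => by simpa using bd y hy 0 (Nat.zero_le _)) (fun y hy => bd y hy N le_rfl)
    (fun y hy => by
      obtain ⟨z, z1, z2, z3⟩ := hz y hy
      exact ⟨z, z2, by rwa [itd_snd (hW z z1).1] at z3⟩) 0 (mem_ball_self (by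
      rw [sub_pos, ← div_eq_mul_inv, div_lt_iff₀ u0]; linarith))
  rwa [e, ← itd_snd (hW 0 (mem_ball_self (by norm_num))).1] at this

/-- Harnack for `ψ θ` along the leaf -/
theorem harn_leaf (k : ℕ) : ∃ C : ℝ, 1 ≤ C ∧ ∀ (E V : Type) [NormedAddCommGroup E]
    [NormedSpace ℝ E] [FiniteDimensional ℝ E] [NormedAddCommGroup V] [NormedSpace ℝ V]
    (ψ : V →L[ℝ] ℝ) (θ : E → V) (l : E → V →L[ℝ] ℝ) (q : E) (ρ F d : ℝ), ‖ψ‖ ≤ 1 → 0 < ρ →
    1 ≤ F → 1 ≤ d → 2 ^ k * d ≤ F → F ^ 5 * ρ ^ k ≤ 1 →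
    (∀ y ∈ ball q (4 * ρ), ContDiffAt ℝ ∞ θ y ∧ ContDiffAt ℝ ∞ l y ∧ l y (θ y) = 1 ∧
      (F ^ 2)⁻¹ ≤ |ψ (θ y)| ∧ ∀ i ≤ k, ‖iteratedFDeriv ℝ i θ y‖ ≤ d * F ∧
        ‖iteratedFDeriv ℝ i l y‖ ≤ d * F ∧ ‖iteratedFDeriv ℝ i (nrm ψ θ) y‖ ≤ F) →
    ∀ y ∈ ball q ρ, ∀ y' ∈ ball q ρ, |ψ (θ y)| ≤ C * |ψ (θ y')| := by
  obtain ⟨C, C1, h⟩ := harn k
  refine ⟨C, C1, fun E V _ _ _ _ _ ψ θ l q ρ F d hψ hρ F1 d1 hd hk H y hy y' hy' => ?_⟩
  have F0 : 0 < F := by linarith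
  have ne : ∀ y ∈ ball q (4 * ρ), ψ (θ y) ≠ 0 := fun y hy =>
    abs_pos.1 (lt_of_lt_of_le (by positivity) (H y hy).2.2.2.1)
  have sw : ∀ y ∈ ball q (4 * ρ), ContDiffAt ℝ ∞ (nrm ψ θ) y := fun y hy =>
    cda_nrm (H y hy).1 (ne y hy)
  have one : ∀ y ∈ ball q (4 * ρ), ψ (θ y) * l y (nrm ψ θ y) = 1 := fun y hy => by
    rw [← smul_eq_mul, ← map_smul, smul_nrm (ne y hy), (H y hy).2.2.1]
  have m' : y' ∈ ball q (4 * ρ) := ball_subset_ball (by linarith) hy'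
  have dF : d ≤ F := le_trans (le_mul_of_one_le_left (by linarith) (one_le_pow₀ one_le_two)) hd
  have key : F ^ 3 * ρ ^ k ≤ (F ^ 2)⁻¹ := by
    rw [← one_div, le_div_iff₀ (by positivity)]
    exact (le_of_eq (by ring)).trans hk
  refine h E (fun y => ψ (θ y)) (fun y => l y (nrm ψ θ y)) q y' ρ hρ
    (fun y hy => (ψ.contDiff.contDiffAt.comp y (H y hy).1).contDiffWithinAt)
    (fun y hy => ((H y hy).2.1.clm_apply (sw y hy)).contDiffWithinAt) one hy'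
    (fun x hx => le_trans ?_ (key.trans (H y' m').2.2.2.1)) (fun x hx => le_trans ?_
      (key.trans ?_)) y hy
  · refine mul_le_mul_of_nonneg_right ?_ (by positivity)
    refine (ψ.norm_iteratedFDeriv_comp_left (H x hx).1 (by exact_mod_cast le_top)).trans ?_
    refine (mul_le_of_le_one_left (norm_nonneg _) hψ).trans (((H x hx).2.2.2.2 k le_rfl).1.trans ?_)
    calc d * F ≤ F * F * 1 := by rw [mul_one]; gcongr
      _ ≤ F * F * F := by gcongr
      _ = _ := by ring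
  · refine mul_le_mul_of_nonneg_right ?_ (by positivity)
    refine (bilin_at (ContinuousLinearMap.id ℝ (V →L[ℝ] ℝ)) k (H x hx).2.1 (sw x hx)).trans ?_
    refine (mul_le_of_le_one_left (by positivity) ContinuousLinearMap.norm_id_le).trans ?_
    calc _ ≤ ∑ i ∈ range (k + 1), (k.choose i : ℝ) * (d * F) * F := sum_le_sum fun i hi => by
          have a1 := ((H x hx).2.2.2.2 i (Nat.lt_succ_iff.1 (mem_range.1 hi))).2.1
          have a2 := ((H x hx).2.2.2.2 (k - i) (Nat.sub_le _ _)).2.2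
          gcongr
      _ = 2 ^ k * d * (F * F) := by
          rw [← sum_mul, ← sum_mul, ← Nat.cast_sum, Nat.sum_range_choose]; push_cast; ring
      _ ≤ F * (F * F) := by gcongr
      _ = _ := by ring
  · have a1 := congrArg abs (one y' m')
    rw [abs_mul, abs_one] at a1
    have a2 : |ψ (θ y')| ≤ F ^ 2 := by
      have b1 := ((H y' m').2.2.2.2 0 (Nat.zero_le _)).1
      rw [norm_iteratedFDeriv_zero] at b1
      have b2 := (ψ.le_opNorm (θ y')).trans (mul_le_of_le_one_left (norm_nonneg _) hψ)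
      exact b2.trans (b1.trans (by rw [sq]; gcongr))
    rw [inv_le_iff_one_le_mul₀ (by positivity), ← a1, mul_comm]
    gcongr

end Crest.Agent.N221.G0
end

-- ▼ part N221/G0/Bl
section

/-! Row 221, block G0 (helper18): `blS : BlS`, the blow up of the direction along a leaf. -/

set_option autoImplicit false

open Set Metric Finset Filter
open scoped ContDiff Topology

namespace Crest.Agent.N221.G0

namespace Bl

variable {E Z V : Type} [NormedAddCommGroup E] [NormedSpace ℝ E] [NormedAddCommGroup Z]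
  [NormedSpace ℝ Z] [NormedAddCommGroup V] [NormedSpace ℝ V]

lemma aff (L : E →L[ℝ] Z) (a : Z) {f : Z → V} {x : E} (k : ℕ) (hf : ContDiffAt ℝ ∞ f (a + L x)) :
    iteratedFDeriv ℝ k (fun v => f (a + L v)) x =
      (iteratedFDeriv ℝ k f (a + L x)).compContinuousLinearMap fun _ => L := by
  rw [itf_lin L (f := fun z => f (a + z)) k
    (ContDiffAt.comp (g := f) _ (cda hf k) (by fun_prop)), iteratedFDeriv_comp_add_left]

/-- the rescaling -/
noncomputable def L (E Z : Type) [NormedAddCommGroup E] [NormedSpace ℝ E] [NormedAddCommGroup Z]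
    [NormedSpace ℝ Z] (ρ s : ℝ) : E × Z →L[ℝ] E × Z :=
  (ρ • ContinuousLinearMap.fst ℝ E Z).prod (s • ContinuousLinearMap.snd ℝ E Z)

lemma L_apply (ρ s : ℝ) (v : E × Z) : L E Z ρ s v = (ρ • v.1, s • v.2) := rfl

lemma L_le {ρ s : ℝ} (ρ0 : 0 ≤ ρ) (ρ1 : ρ ≤ 1) (s0 : 0 ≤ s) (s1 : s ≤ 1) (v : E × Z) :
    ‖L E Z ρ s v‖ ≤ ‖v‖ := by
  rw [L_apply]
  refine norm_prod_le_iff.2 ⟨?_, ?_⟩ <;> rw [norm_smul, Real.norm_of_nonneg (by assumption)]
  exacts [(mul_le_of_le_one_left (norm_nonneg _) ρ1).trans (norm_fst_le v),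
    (mul_le_of_le_one_left (norm_nonneg _) s1).trans (norm_snd_le v)]

lemma pt (q y : E) (ρ s : ℝ) : (q, (0 : Z)) + L E Z ρ s (y, 0) = (q + ρ • y, 0) := by
  simp [L_apply]

lemma mem {q y : E} {ρ : ℝ} (ρ0 : 0 < ρ) (hy : y ∈ ball (0 : E) 1) : q + ρ • y ∈ ball q ρ := by
  rw [mem_ball_zero_iff] at hy
  rw [mem_ball, dist_eq_norm, add_sub_cancel_left, norm_smul, Real.norm_of_nonneg ρ0.le]
  exact mul_lt_of_lt_one_right ρ0 hy

/-- the scalar estimate -/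
lemma scal (n k : ℕ) (CH : ℝ) (c : ℕ → ℝ) : ∃ C : ℝ, ∀ (h : E × Z → ℝ) (q : E) (ρ s M : ℝ),
    0 < ρ → ρ ≤ 1 → 0 ≤ s → s ≤ 1 → 0 ≤ M → M * ρ ^ k ≤ 1 → M * s ≤ 1 →
    (∀ y ∈ ball q ρ, ContDiffAt ℝ ∞ h (y, 0) ∧ (∀ i, ‖iteratedFDeriv ℝ i h (y, 0)‖ ≤ |c i| * M) ∧
      |h (y, 0)| ≤ CH) → ∀ y ∈ ball (0 : E) (1 / 2), ∀ i ≤ n,
      ‖iteratedFDeriv ℝ i (fun v => h ((q, 0) + L E Z ρ s v)) (y, 0)‖ ≤ C + |c i| * i := by
  obtain ⟨C, C0, hC⟩ := X.int_all (n + k)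
  refine ⟨C * (|CH| + |c (n + k)|), fun h q ρ s M ρ0 ρ1 s0 s1 M0 hk hs H y hy i hi => ?_⟩
  set P : E →L[ℝ] E × Z := ρ • ContinuousLinearMap.inl ℝ E Z with hP
  have e : ∀ y, (q, (0 : Z)) + P y = (q + ρ • y, 0) := fun y => by simp [hP]
  have nP : ‖P‖ ≤ ρ := P.opNorm_le_bound ρ0.le fun v => by
    simp [hP, norm_smul, abs_of_pos ρ0]; positivity
  have sm : ∀ y ∈ ball (0 : E) 1, ContDiffAt ℝ ∞ h ((q, 0) + P y) := fun y hy => by
    rw [e]; exact (H _ (mem ρ0 hy)).1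
  have y1 : y ∈ ball (0 : E) 1 := ball_subset_ball (by norm_num) hy
  have a1 := hC E ℝ (fun v => h ((q, 0) + P v)) 0 1 |CH| |c (n + k)| one_pos
    (fun y hy => (ContDiffAt.comp (g := h) (f := fun v => (q, 0) + P v) y (cda (sm y hy) _)
      (by fun_prop)).contDiffWithinAt)
    (fun y hy => by rw [e]; exact (H _ (mem ρ0 hy)).2.2.trans (le_abs_self _))
    (fun y hy => by
      rw [aff P _ _ (sm y hy), e]
      refine (ContinuousMultilinearMap.norm_compContinuousLinearMap_le _ _).trans ?_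
      rw [prod_const, card_univ, Fintype.card_fin]
      calc _ ≤ |c (n + k)| * M * ρ ^ k := mul_le_mul ((H _ (mem ρ0 hy)).2.1 _)
            ((pow_le_pow_left₀ (norm_nonneg _) nP _).trans (pow_le_pow_of_le_one ρ0.le ρ1 (by omega)))
            (by positivity) (by positivity)
        _ ≤ _ := by rw [mul_assoc]; exact mul_le_of_le_one_right (abs_nonneg _) hk)
    i (by omega) y hy
  rw [one_pow, one_pow, div_one, mul_one, aff P _ _ (sm y y1), e] at a1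
  rw [aff _ _ _ (by rw [pt]; exact (H _ (mem ρ0 y1)).1), pt]
  refine opNorm_le_unit _ (by positivity) fun m hm => ?_
  have a2 := ContinuousMultilinearMap.le_of_opNorm_le a1 fun j => (m j).1
  have a3 : ∏ j, ‖(m j).1‖ ≤ 1 :=
    prod_le_one (fun _ _ => norm_nonneg _) fun j _ => (norm_fst_le _).trans (hm j)
  have e2 : ∀ j, P (m j).1 = L E Z ρ 0 (m j) := fun j => by simp [hP, L_apply]
  simp only [ContinuousMultilinearMap.compContinuousLinearMap_apply, e2] at a2 ⊢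
  have a4 := (iteratedFDeriv ℝ i h (q + ρ • y, 0)).norm_image_sub_le (fun j => L E Z ρ s (m j))
    fun j => L E Z ρ 0 (m j)
  have n1 : ∀ t, 0 ≤ t → t ≤ 1 → ‖fun j => L E Z ρ t (m j)‖ ≤ 1 := fun t t0 t1 =>
    (pi_norm_le_iff_of_nonneg zero_le_one).2 fun j => (L_le ρ0.le ρ1 t0 t1 _).trans (hm j)
  have n2 : ‖(fun j => L E Z ρ s (m j)) - fun j => L E Z ρ 0 (m j)‖ ≤ s :=
    (pi_norm_le_iff_of_nonneg s0).2 fun j => by
      refine norm_prod_le_iff.2 ⟨by simpa [L_apply] using s0, ?_⟩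
      show ‖s • (m j).2 - (0 : ℝ) • (m j).2‖ ≤ s
      rw [zero_smul, sub_zero, norm_smul, Real.norm_of_nonneg s0]
      exact mul_le_of_le_one_right s0 ((norm_snd_le (m j)).trans (hm j))
  have n3 : max ‖fun j => L E Z ρ s (m j)‖ ‖fun j => L E Z ρ 0 (m j)‖ ^ (i - 1) ≤ 1 :=
    pow_le_one₀ (le_max_of_le_left (norm_nonneg _))
      (max_le (n1 s s0 s1) (n1 0 le_rfl zero_le_one))
  rw [Fintype.card_fin] at a4
  have a5 : _ ≤ |c i| * M * i * 1 * s := a4.trans (by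
    have := (H _ (mem ρ0 y1)).2.1 i
    gcongr)
  have a6 : |c i| * M * i * 1 * s ≤ |c i| * i := by
    rw [show |c i| * M * i * 1 * s = |c i| * i * (M * s) by ring]
    exact mul_le_of_le_one_right (by positivity) hs
  have a7 := mul_le_of_le_one_right (show 0 ≤ C * (|CH| + |c (n + k)|) by positivity) a3
  linarith [norm_le_norm_add_norm_sub' (iteratedFDeriv ℝ i h (q + ρ • y, 0) fun j => L E Z ρ s (m j))
    (iteratedFDeriv ℝ i h (q + ρ • y, 0) fun j => L E Z ρ 0 (m j))]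

/-- the data -/
structure Dt (E Z V : Type) [NormedAddCommGroup E] [NormedSpace ℝ E] [NormedAddCommGroup Z]
    [NormedSpace ℝ Z] [NormedAddCommGroup V] [NormedSpace ℝ V] (k : ℕ) (CH : ℝ) (c : ℕ → ℝ) where
  ψ : V →L[ℝ] ℝ
  H : E × Z → V
  q : E
  ρ : ℝ
  δ : ℝ
  M : ℝ
  y : E
  hψ : ‖ψ‖ ≤ 1
  ρ0 : 0 < ρ
  ρ1 : ρ ≤ 1
  δ0 : 0 < δ
  δM : δ ≤ M
  hk : M * ρ ^ k ≤ δ
  hδ : δ ≤ |ψ (H (q, 0))|
  h : ∀ y ∈ ball q ρ, ContDiffAt ℝ ∞ H (y, 0) ∧ (∀ i, ‖iteratedFDeriv ℝ i H (y, 0)‖ ≤ c i * M) ∧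
    |ψ (H (y, 0))| ≤ CH * |ψ (H (q, 0))| ∧ |ψ (H (q, 0))| ≤ CH * |ψ (H (y, 0))|
  hy : y ∈ ball (0 : E) (1 / 2)

end Bl

open Bl in
theorem blS : BlS := by
  intro E Z V _ _ _ _ _ _ n k CH c
  set T := Dt E Z V k CH c
  have M0 : ∀ t : T, 0 < t.M := fun t => t.δ0.trans_le t.δM
  have s0 : ∀ t : T, 0 ≤ t.δ / t.M := fun t => (div_pos t.δ0 (M0 t)).le
  have s1 : ∀ t : T, t.δ / t.M ≤ 1 := fun t => (div_le_one (M0 t)).2 t.δM
  have h0 : ∀ t : T, 0 < |t.ψ (t.H (t.q, 0))| := fun t => t.δ0.trans_le t.hδ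
  have i0 : ∀ t : T, |(t.ψ (t.H (t.q, 0)))⁻¹| ≤ t.δ⁻¹ := fun t => by
    rw [abs_inv]; exact inv_anti₀ t.δ0 t.hδ
  have ym : ∀ t : T, t.q + t.ρ • t.y ∈ ball t.q t.ρ := fun t =>
    mem t.ρ0 (ball_subset_ball (by norm_num) t.hy)
  have G0 : GB n (fun t : T => t.H) (fun t => (t.q + t.ρ • t.y, 0)) (·.M) fun _ => 1 :=
    GB.of_seq n c (fun t => (t.h _ (ym t)).1) (fun _ => le_rfl) (fun t => (M0 t).le)
      fun t i _ => by simpa using (t.h _ (ym t)).2.1 i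
  have G1 := (G0.comp_aff (x := fun t => (t.y, 0)) (fun t => L E Z t.ρ (t.δ / t.M))
    (fun t => (t.q, 0)) (fun t => ContinuousLinearMap.opNorm_le_bound _ zero_le_one fun v => by
      rw [one_mul]; exact L_le t.ρ0.le t.ρ1 (s0 t) (s1 t) v) fun t => pt _ _ _ _)
  obtain ⟨C, hC⟩ := scal (E := E) (Z := Z) n k CH c
  have G2 : GB n (fun (t : T) v => (t.ψ (t.H (t.q, 0)))⁻¹ • t.ψ (t.H ((t.q, 0) +
      L E Z t.ρ (t.δ / t.M) v))) (fun t => (t.y, 0)) (fun _ => 1) fun _ => 1 := by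
    refine GB.of_seq n (fun i => C + |c i| * i) ((G1.psi _ fun t => t.hψ).smul i0).sm
      (fun _ => le_rfl) (fun _ => zero_le_one) fun t i hi => ?_
    rw [one_pow, mul_one, mul_one]
    have d0 := t.δ0
    have m0 := M0 t
    refine hC (fun v => ((t.ψ (t.H (t.q, 0)))⁻¹ • t.ψ) (t.H v)) t.q t.ρ (t.δ / t.M) (t.M / t.δ) t.ρ0
      t.ρ1 (s0 t) (s1 t) (by positivity) (by rw [div_mul_eq_mul_div, div_le_one d0]; exact t.hk)
      (le_of_eq (by field_simp)) (fun y hy => ⟨lin_sm _ (t.h y hy).1, fun i => ?_, ?_⟩) _ t.hy i hi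
    · refine (ContinuousLinearMap.norm_iteratedFDeriv_comp_left _ (cda (t.h y hy).1 i) le_rfl).trans ?_
      rw [norm_smul, Real.norm_eq_abs, div_eq_inv_mul, mul_left_comm]
      exact mul_le_mul ((mul_le_of_le_one_right (abs_nonneg _) t.hψ).trans (i0 t))
        (((t.h y hy).2.1 i).trans (mul_le_mul_of_nonneg_right (le_abs_self _) m0.le)) (norm_nonneg _)
        (by positivity)
    · rw [smul_apply, smul_eq_mul, abs_mul, abs_inv, inv_mul_le_iff₀ (h0 t),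
        mul_comm]
      exact (t.h y hy).2.2.1
  set A := max 1 CH with hA
  have A1 : 1 ≤ A := le_max_left _ _
  have lo : ∀ t : T, A⁻¹ ≤ |(t.ψ (t.H (t.q, 0)))⁻¹ • t.ψ (t.H ((t.q, 0) +
      L E Z t.ρ (t.δ / t.M) (t.y, 0)))| := fun t => by
    rw [pt, smul_eq_mul, abs_mul, abs_inv, le_inv_mul_iff₀ (h0 t), mul_inv_le_iff₀' (by positivity)]
    exact (t.h _ (ym t)).2.2.2.trans (mul_le_mul_of_nonneg_right (le_max_right _ _) (abs_nonneg _))
  have G3 := ((G2.inv' (d := fun _ => A⁻¹) (fun _ => by positivity) lo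
    fun _ => inv_le_one_of_one_le₀ A1).absorb (M' := fun _ => 1) (D' := fun _ => 1) A1
      (fun _ => by simp) (fun _ => by simp) fun _ => le_rfl).fsmul (G1.smul i0)
  have G4 : GB n (fun (t : T) (v : E × Z) => nrm t.ψ t.H (t.q + t.ρ • v.1, (t.δ / t.M) • v.2))
      (fun t => (t.y, 0)) (fun t => t.M / t.δ) fun _ => 1 :=
    (G3.mono le_rfl (fun t => by rw [one_mul, div_eq_inv_mul]) fun _ => le_rfl).congr fun t =>
      .of_forall fun v => by
        have := abs_pos.1 (h0 t)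
        simp only [nrm, Bl.L_apply, Prod.mk_add_mk, zero_add, smul_smul, smul_eq_mul]
        congr 1
        rw [mul_inv, inv_inv, mul_right_comm, mul_inv_cancel₀ this, one_mul]
  obtain ⟨C', C0, hC'⟩ := G4.bd
  refine ⟨C', C0, fun ψ H q ρ δ M a1 a2 a3 a4 a5 a6 a7 a8 y hy => ?_⟩
  exact ⟨G4.sm ⟨ψ, H, q, ρ, δ, M, y, a1, a2, a3, a4, a5, a6, a7, a8, hy⟩, fun i hi => by
    simpa using hC' ⟨ψ, H, q, ρ, δ, M, y, a1, a2, a3, a4, a5, a6, a7, a8, hy⟩ i hi⟩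

end Crest.Agent.N221.G0
end

-- ▼ part N221/G0/Ap4
section

/-! Row 221, block G0 (helper55): the field `apr` (Harnack, blow up, nodes, net). -/

set_option autoImplicit false

open Set Metric Filter Finset
open scoped ContDiff Nat Topology

namespace Crest.Agent.N221.G0

open Real

lemma aff_ge {Z V : Type} [NormedAddCommGroup Z] [NormedSpace ℝ Z] [NormedAddCommGroup V]
    [NormedSpace ℝ V] {w : Z → V} {a : Z} {μ : ℝ} (hμ : 0 < μ) (i : ℕ)
    (hw : ContDiffAt ℝ ∞ w a) :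
    μ ^ i * ‖iteratedFDeriv ℝ i w a‖ ≤ ‖iteratedFDeriv ℝ i (fun t => w (a + μ • t)) 0‖ := by
  have h1 := aff_le (f := fun t => w (a + μ • t)) (a := 0) (s := 0) (inv_pos.2 hμ).le i
    (aff_sm (by simpa using hw))
  simp only [zero_add, smul_smul, mul_inv_cancel₀ hμ.ne', one_smul, smul_zero,
    iteratedFDeriv_comp_add_left, add_zero] at h1
  rwa [inv_pow, le_inv_mul_iff₀ (by positivity)] at h1

theorem apr_core (bl : BlS) (E Z V : Type) [NormedAddCommGroup E] [NormedSpace ℝ E]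
    [FiniteDimensional ℝ E] [NormedAddCommGroup Z] [NormedSpace ℝ Z] [NormedAddCommGroup V]
    [NormedSpace ℝ V] [CompleteSpace V] (k K : ℕ) (hk : 1 ≤ k) (c : ℕ → ℝ) (A0 c' : ℝ) :
    ∃ κ : ℝ, ∀ (ψ : V →L[ℝ] ℝ) (ι : E → Z) (Θ : Z → V) (l : E → V →L[ℝ] ℝ) (q : E) (F u η : ℝ)
      (i : ℕ), ‖ψ‖ ≤ 1 → κ ≤ u → κ ≤ F → F ^ 5 ≤ u ^ k → i ≤ K + 1 →
      (∀ y ∈ ball q u⁻¹, ContDiffAt ℝ ∞ Θ (ι y) ∧
        ContDiffAt ℝ ∞ (fun v : E × Z => Θ (ι v.1 + F⁻¹ • v.2)) (y, 0) ∧ ContDiffAt ℝ ∞ l y ∧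
        l y (Θ (ι y)) = 1 ∧ ψ (Θ (ι y)) ≠ 0 ∧ ‖nrm ψ Θ (ι y)‖ ≤ A0 ∧
        (∀ n, ‖iteratedFDeriv ℝ n l y‖ ≤ c n * F ∧
          ‖iteratedFDeriv ℝ n (fun v : E × Z => Θ (ι v.1 + F⁻¹ • v.2)) (y, 0)‖ ≤ c n * F) ∧
        ∀ n ≤ k, ‖iteratedFDeriv ℝ n (fun t => nrm ψ Θ (ι t)) y‖ ≤ F) →
      (∀ y ∈ ball q u⁻¹, ∃ y', ‖y' - y‖ ≤ c' * (u ^ 4)⁻¹ ∧
        (y' ∈ ball q u⁻¹ → ‖iteratedFDeriv ℝ i (nrm ψ Θ) (ι y')‖ ≤ η)) →
      ‖iteratedFDeriv ℝ i (nrm ψ Θ) (ι q)‖ ≤ 2 * η + 3 := by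
  obtain ⟨CH, -, hH⟩ := harn_leaf k
  obtain ⟨L, hL⟩ : ∃ L, k * (4 * (K + 2)) = L + 1 := Nat.exists_eq_add_one.2 (by positivity)
  obtain ⟨Cn, n1, hn⟩ := net_jet (L + 1) (by omega)
  obtain ⟨Cb, b0, hb⟩ := bl E Z V (L + 1 + (K + 1)) k CH c
  set d := 1 + ∑ n ∈ range (k + 1), |c n| with hd
  have d1 : 1 ≤ d := le_add_of_nonneg_right (by positivity)
  have dc : ∀ n ≤ k, c n ≤ d := fun n hn => by
    have := single_le_sum (f := fun n => |c n|) (fun _ _ => abs_nonneg _)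
      (mem_range.2 (Nat.lt_succ_of_le hn))
    linarith [le_abs_self (c n)]
  refine ⟨4 + 2 ^ k * d + d * |A0| + Cb + 4 * |c'| * Cn + 2 * (L + 1),
    fun ψ ι Θ l q F u η i hψ hu hF hFu hi H hz => ?_⟩
  have a1 : 0 ≤ 2 ^ k * d := by positivity
  have a2 : 0 ≤ d * |A0| := by positivity
  have a3 : 0 ≤ 4 * |c'| * Cn := by positivity
  have a4 : (0 : ℝ) ≤ 2 * (L + 1) := by positivity
  have u4 : 4 ≤ u := by linarith
  have u0 : 0 < u := by linarith
  have F1 : 1 ≤ F := by linarith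
  have F0 : 0 < F := by linarith
  have ui : 0 < u⁻¹ := inv_pos.2 u0
  have ui1 : u⁻¹ ≤ 1 := inv_le_one_of_one_le₀ (by linarith)
  set ρ := u⁻¹ / 4 with hρ
  have ρ0 : 0 < ρ := by positivity
  have e4 : 4 * ρ = u⁻¹ := by rw [hρ]; ring
  have k5 : F ^ 5 * u⁻¹ ^ k ≤ 1 := by rw [inv_pow, mul_inv_le_iff₀ (by positivity), one_mul]; exact hFu
  have k5' : F ^ 5 * ρ ^ k ≤ 1 := le_trans (by gcongr; linarith) k5
  set G : E × Z → V := fun v => Θ (ι v.1 + F⁻¹ • v.2) with hG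
  have eG : (fun t => G (t, 0)) = fun t => Θ (ι t) := by funext t; simp [hG]
  have eG' : ∀ t, G (t, 0) = Θ (ι t) := fun t => congrFun eG t
  have fl : ∀ y ∈ ball q u⁻¹, (F ^ 2)⁻¹ ≤ |ψ (Θ (ι y))| := fun y hy => by
    obtain ⟨-, -, -, h1, h2, h3, h4, -⟩ := H y hy
    have b1 := (l y).le_opNorm (Θ (ι y))
    have b2 := (h4 0).1
    have b3 := norm_le_nrm h2 (h3.trans (le_abs_self _))
    have b4 := dc 0 (Nat.zero_le _)
    rw [norm_iteratedFDeriv_zero] at b2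
    rw [h1, norm_one] at b1
    rw [inv_le_iff_one_le_mul₀ (by positivity)]
    calc _ ≤ ‖l y‖ * ‖Θ (ι y)‖ := b1
      _ ≤ d * F * (|ψ (Θ (ι y))| * |A0|) := by gcongr; exact b2.trans (by gcongr)
      _ = |ψ (Θ (ι y))| * (d * |A0| * F) := by ring
      _ ≤ _ := by rw [sq]; gcongr; linarith
  have har := hH E V ψ (fun t => Θ (ι t)) l q ρ F d hψ ρ0 F1 d1 (by linarith) k5' fun y hy => by
    rw [e4] at hy
    obtain ⟨-, h0, h1, h2, -, -, h4, h5⟩ := H y hy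
    refine ⟨eG ▸ fst_sm h0, h1, h2, fl y hy, fun n hn => ⟨?_, (h4 n).1.trans ?_, h5 n hn⟩⟩
    · rw [← eG]
      exact (fst_le h0 n).trans ((h4 n).2.trans (by have := dc n hn; gcongr))
    · have := dc n hn
      gcongr
  have sub : ball q ρ ⊆ ball q u⁻¹ := ball_subset_ball (by linarith)
  have qm : q ∈ ball q ρ := mem_ball_self ρ0
  have blow := hb ψ G q ρ (F ^ 2)⁻¹ F hψ ρ0 (by linarith) (by positivity)
    ((inv_le_one_of_one_le₀ (one_le_pow₀ F1)).trans F1) (by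
      rw [← one_div, le_div_iff₀ (by positivity)]
      refine le_trans ?_ k5'
      calc _ = F ^ 3 * ρ ^ k := by ring
        _ ≤ _ := by gcongr; norm_num) (by rw [eG']; exact fl q (sub qm))
    fun y hy => ⟨(H y (sub hy)).2.1, fun n => ((H y (sub hy)).2.2.2.2.2.2.1 n).2, by
      rw [eG', eG']; exact har y hy q qm, by rw [eG', eG']; exact har q qm y hy⟩
  set μ := (F ^ 4)⁻¹ with hμ
  have μ0 : 0 < μ := by positivity
  have μ1 : μ ≤ 1 := inv_le_one_of_one_le₀ (one_le_pow₀ F1)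
  have eW : ∀ z : E, (fun v : Z => nrm ψ G (q + ρ • z, ((F ^ 2)⁻¹ / F) • v)) =
      fun v => nrm ψ Θ (ι (q + ρ • z) + μ • v) := fun z => by
    funext v
    simp only [nrm, hG, smul_smul]
    rw [show F⁻¹ * ((F ^ 2)⁻¹ / F) = μ by rw [hμ]; field_simp]
  have mem : ∀ z ∈ ball (0 : E) (1 / 2), q + ρ • z ∈ ball q u⁻¹ := fun z hz => by
    rw [mem_ball_iff_norm, add_sub_cancel_left, norm_smul, Real.norm_of_nonneg ρ0.le]
    nlinarith [mem_ball_zero_iff.1 hz]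
  have sw : ∀ y ∈ ball q u⁻¹, ContDiffAt ℝ ∞ (nrm ψ Θ) (ι y) := fun y hy =>
    cda_nrm (H y hy).1 (H y hy).2.2.2.2.1
  have main := hn E Z V (fun v => nrm ψ G (q + ρ • v.1, ((F ^ 2)⁻¹ / F) • v.2)) i L (F ^ 4)
    (μ ^ i * η) u u4 (by linarith) (fun y hy => ⟨(blow y hy).1, fun n hn =>
      ((blow y hy).2 n (by omega)).trans (by
        rw [div_inv_eq_mul, show F ^ 4 = F * (F * F ^ 2) by ring]
        gcongr
        linarith)⟩) fun y hy => by
    have hy' := mem_ball_zero_iff.1 hy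
    obtain ⟨y', h1, h2⟩ := hz _ (mem y (ball_subset_ball (by linarith) hy))
    have e : q + ρ • ρ⁻¹ • (y' - q) = y' := by
      rw [smul_smul, mul_inv_cancel₀ ρ0.ne', one_smul, add_sub_cancel]
    have b1 : ‖ρ⁻¹ • (y' - q) - y‖ ≤ (u ^ 2)⁻¹ / Cn := by
      have e1 : ρ⁻¹ • (y' - q) - y = ρ⁻¹ • (y' - (q + ρ • y)) := by
        rw [← sub_sub, smul_sub _ (y' - q), smul_smul, inv_mul_cancel₀ ρ0.ne', one_smul]
      rw [e1, norm_smul, Real.norm_of_nonneg (inv_pos.2 ρ0).le, le_div_iff₀ (by linarith)]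
      calc _ ≤ ρ⁻¹ * (|c'| * (u ^ 4)⁻¹) * Cn := by
            gcongr; exact h1.trans (by gcongr; exact le_abs_self _)
        _ = 4 * |c'| * Cn * (u ^ 3)⁻¹ := by rw [hρ]; field_simp
        _ ≤ u * (u ^ 3)⁻¹ := by gcongr; linarith
        _ = _ := by field_simp
    have b2 : (u ^ 2)⁻¹ / Cn ≤ u⁻¹ := (div_le_self (by positivity) n1).trans
      (inv_anti₀ u0 (le_self_pow₀ (by linarith) two_ne_zero))
    have b3 : ρ⁻¹ • (y' - q) ∈ ball (0 : E) (1 / 2) := by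
      rw [mem_ball_zero_iff]
      linarith [norm_le_norm_add_norm_sub' (ρ⁻¹ • (y' - q)) y]
    have b4 := mem _ b3
    refine ⟨_, b3, b1, ?_⟩
    rw [eW]
    rw [e] at b4 ⊢
    refine (aff_le μ0.le i (by simpa using sw y' b4)).trans ?_
    rw [smul_zero, add_zero]
    exact mul_le_mul_of_nonneg_left (h2 b4) (by positivity)
  rw [eW, smul_zero, add_zero] at main
  have low := (aff_ge μ0 i (sw q (sub qm))).trans main
  have tiny : F ^ 4 * u⁻¹ ^ (L + 1) ≤ μ ^ i := by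
    have b1 : u⁻¹ ^ k ≤ F⁻¹ := by
      rw [← one_div F, le_div_iff₀ F0, mul_comm]
      exact le_trans (by gcongr; exact le_self_pow₀ F1 (by norm_num)) k5
    calc _ = F ^ 4 * (u⁻¹ ^ k) ^ (4 * (K + 2)) := by rw [← hL, pow_mul]
      _ ≤ F ^ 4 * F⁻¹ ^ (4 * (K + 2)) := by gcongr
      _ = μ ^ (K + 1) := by rw [pow_mul, inv_pow, ← hμ, pow_succ' μ (K + 1), ← mul_assoc, hμ,
          mul_inv_cancel₀ (by positivity), one_mul]
      _ ≤ _ := pow_le_pow_of_le_one μ0.le μ1 hi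
  refine le_of_mul_le_mul_left ?_ (pow_pos μ0 i)
  nlinarith

theorem aprS_of (nd : NdS) (bl : BlS) : AprS := by
  intro E V V' X Y _ _ _ _ _ _ _ _ _ B hB r N a θ χ a₀ hθ hχ ha hI hN ε' hε
  have := FiniteDimensional.complete ℝ V
  obtain ⟨m, hm⟩ := exists_nat_ge (max 2 (4 * a₀ / ε'))
  have m2 : (2 : ℝ) ≤ m := (le_max_left _ _).trans hm
  have m2' : 2 ≤ m := by exact_mod_cast m2
  have m3 : 4 * a₀ ≤ m * ε' := (div_le_iff₀ hε).1 ((le_max_right _ _).trans hm)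
  set γ := χ / (4 * m) with hγ
  have γ0 : 0 < γ := by positivity
  obtain ⟨k, hk⟩ := exists_nat_ge (5 * a₀ / γ)
  rw [div_le_iff₀ γ0] at hk
  have k1 : 1 ≤ k := Nat.pos_of_ne_zero fun e => by
    rw [e, Nat.cast_zero, zero_mul] at hk; linarith
  refine ⟨k, γ, γ0, fun K A0 => ?_⟩
  obtain ⟨K', -, nd⟩ := nd _ _ _ _ _ B hB r N a θ a₀ hθ ha hI (K + 1) m A0
  obtain ⟨c', j1, hN⟩ := hN (m * K')
  refine ⟨K', fun c => ?_⟩
  obtain ⟨C, j2, nd⟩ := nd c c'
  obtain ⟨κ, hκ⟩ := apr_core bl E (E × E) V k K k1 c A0 |c' 0|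
  obtain ⟨j3, h3⟩ := ev_big γ0 κ
  obtain ⟨j4, h4⟩ := ev_big (by linarith : 0 < a₀) κ
  refine ⟨2 * (|C| * exp (4 * a₀ * (K + 2))) + 3, m * j1 + j2 + j3 + j4 + 2,
    fun j hj ψ x Θ l hψ hso q hq i hi => ?_⟩
  have j0 : (0 : ℝ) ≤ j := Nat.cast_nonneg _
  set s := j / m + 1 with hs
  have s1 : j ≤ m * s := (Nat.lt_mul_div_succ j (by omega)).le
  have s2 : s ≤ j := Nat.div_lt_self (by omega) (by omega)
  have s3 : j1 ≤ s := Nat.le_of_mul_le_mul_left (le_trans (by omega) s1) (by omega : 0 < m)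
  have s1' : (j : ℝ) ≤ m * s := by exact_mod_cast s1
  have s4 : (m : ℝ) * s ≤ j + m := by
    have : m * s ≤ j + m := by rw [hs, mul_add, mul_one]; gcongr; exact Nat.mul_div_le j m
    exact_mod_cast this
  rw [exp_neg] at hq
  have key := hκ ψ (B.gs x) Θ l q (exp (a₀ * j)) (exp (γ * j)) (|C| * exp (4 * a₀ * (i + 1) * s)) i
    hψ (h3 j (by omega)) (h4 j (by omega)) (by
      rw [← exp_nat_mul, ← exp_nat_mul]
      refine exp_le_exp.2 ?_
      push_cast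
      nlinarith) hi (fun y hy => by
      obtain ⟨h1, h2, h5, h6⟩ := hq y hy
      have so := hso y (mem_ball_zero_iff.1 h1)
      have s0 := (so.cr _ (mem_ball_self (exp_pos _))).1
      have b := so.bl
      rw [exp_neg] at b
      refine ⟨s0, ContDiffAt.comp (g := Θ) _ (by simpa using s0) (ContDiffAt.add ?_ (by fun_prop)),
        so.sl, so.one, h2, h5, fun n => ⟨so.dl n, b n⟩, fun n hn => (h6 n hn).trans
          (exp_le_exp.2 (le_mul_of_one_le_left j0 ha))⟩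
      refine ContDiffAt.comp (g := B.gs x) _ (hB.ubg.at (mem_ball_zero_iff.2 ?_)) contDiffAt_fst
      linarith [norm_fst_le (B.gs x y), mem_ball_zero_iff.1 h1, hB.rR, hB.rp,
        show ‖(B.gs x y).1‖ = ‖y‖ from rfl]) fun y hy => by
      obtain ⟨y', Θ', h1, h2, h5⟩ := hN s s3 x y (mem_ball_zero_iff.1 (hq y hy).1)
      refine ⟨y', h1.trans ?_, fun hy' => ?_⟩
      · rw [← exp_nat_mul, ← exp_neg]
        refine (mul_le_mul_of_nonneg_right (le_abs_self _) (exp_pos _).le).trans ?_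
        refine mul_le_mul_of_nonneg_left (exp_le_exp.2 (neg_le_neg ?_)) (abs_nonneg _)
        rw [hγ]
        push_cast
        rw [show 4 * (χ / (4 * m) * j) = χ * (j / m) by field_simp]
        gcongr
        rwa [div_le_iff₀' (by linarith)]
      · obtain ⟨g1, g2, g3, -⟩ := hq y' hy'
        have so := hso y' (mem_ball_zero_iff.1 g1)
        refine (nd j s (by omega) s2 s1 ψ _ Θ Θ' hψ (mem_ball_zero_iff.1 g1) so.cr h2 ?_ h5 g2 g3 i
          hi).trans (mul_le_mul_of_nonneg_right (le_abs_self _) (exp_pos _).le)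
        have b1 := (l y').le_opNorm (Θ (B.gs x y'))
        have b2 := so.dl 0
        rw [norm_iteratedFDeriv_zero] at b2
        rw [so.one, norm_one] at b1
        rw [exp_neg, inv_le_iff_one_le_mul₀ (exp_pos _), mul_right_comm]
        exact b1.trans (mul_le_mul_of_nonneg_right b2 (norm_nonneg _))
  have i1 : (i : ℝ) + 1 ≤ K + 2 := by exact_mod_cast (by omega : i + 1 ≤ K + 2)
  have e1 : exp (4 * a₀ * (i + 1) * s) ≤ exp (4 * a₀ * (K + 2)) * exp (ε' * (i + 1) * j) := by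
    rw [← exp_add]
    refine exp_le_exp.2 ?_
    have b1 : 4 * a₀ * s ≤ 4 * a₀ + ε' * j := by
      refine le_of_mul_le_mul_left ?_ (by linarith : (0 : ℝ) < m)
      nlinarith [mul_le_mul_of_nonneg_left s4 (by linarith : 0 ≤ 4 * a₀),
        mul_le_mul_of_nonneg_right m3 j0]
    have b2 := mul_le_mul_of_nonneg_right b1 (by positivity : (0 : ℝ) ≤ i + 1)
    nlinarith
  have e2 : 1 ≤ exp (ε' * (i + 1) * j) := one_le_exp (by positivity)
  have e3 := mul_le_mul_of_nonneg_left e1 (abs_nonneg C)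
  refine key.trans ?_
  nlinarith

theorem aprS : AprS := aprS_of ndS blS

end Crest.Agent.N221.G0
end

-- ▼ part N221/G0/Fm
section

/-!
Row 221, block G0 (helper26): the fields `crude` and `fml` of a good leaf, shape free.
`nrm ψ Θ = Θ / ψ Θ`; `crude_jets`: jets along a curve; `fml_jets`: the jets of the defect along a
curve on which `D` is smooth are small.
-/

set_option autoImplicit false

open Set Metric Finset Filter Real
open scoped ContDiff Nat Topology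

noncomputable section

namespace Crest.Agent.N221.G0

variable {Q X V V' : Type} [NormedAddCommGroup Q] [NormedSpace ℝ Q] [NormedAddCommGroup X]
  [NormedSpace ℝ X] [NormedAddCommGroup V] [NormedSpace ℝ V] [NormedAddCommGroup V']
  [NormedSpace ℝ V']

lemma GB.of_uj {ι : Type} (n : ℕ) {c : ℕ → ℝ} {f : ι → Q → X} {x : ι → Q}
    (h : ∀ i, UJ c (f i) (x i)) : GB n f x (fun _ => 1) fun _ => 1 :=
  GB.of_pow n c (fun _ => le_rfl) (fun i => (h i).1) fun i k => by simpa using (h i).2 k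

/-- the data at one point -/
structure Fd (Q X V : Type) [NormedAddCommGroup Q] [NormedSpace ℝ Q] [NormedAddCommGroup X]
    [NormedSpace ℝ X] [NormedAddCommGroup V] [NormedSpace ℝ V] (c : ℕ → ℝ) (A : ℝ) where
  E : ℝ
  q : Q
  γ : Q → X
  Θ : X → V
  ψ : V →L[ℝ] ℝ
  one : 1 ≤ E
  hγ : UJ c γ q
  sm : ContDiffAt ℝ ∞ Θ (γ q)
  bd : ∀ k, ‖iteratedFDeriv ℝ k Θ (γ q)‖ ≤ c k * E ^ (k + 1)
  fl : 1 ≤ c 0 * E * ‖Θ (γ q)‖
  hψ : ‖ψ‖ ≤ 1
  ne : ψ (Θ (γ q)) ≠ 0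
  le : ‖nrm ψ Θ (γ q)‖ ≤ A

namespace Fd

variable (n : ℕ) (c : ℕ → ℝ) (A : ℝ)

lemma gb : GB n (fun (t : Fd Q X V c A) z => t.Θ (t.γ z)) (fun t => t.q) (fun t => t.E)
    fun t => t.E :=
  ((GB.of_pow n c (fun t : Fd Q X V c A => t.one) (fun t => t.sm) fun t => t.bd).comp'
    (GB.of_uj n fun t => t.hγ) fun _ => rfl).mono le_rfl (fun _ => le_rfl) fun _ => (mul_one _).le

lemma gbi : GB n (fun (t : Fd Q X V c A) z => (t.ψ (t.Θ (t.γ z)))⁻¹) (fun t => t.q) (fun t => t.E)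
    fun t => t.E ^ 3 := by
  set A' := max 1 (c 0 * A) with hA'
  have A1 : 1 ≤ A' := le_max_left _ _
  have h1 := ((gb (Q := Q) (X := X) (V := V) n c A).clm' (M' := fun _ => 1) (fun t => t.ψ)
    fun t => t.hψ).mono (M' := fun t => t.E) le_rfl (fun _ => (one_mul _).le) fun _ => le_rfl
  refine (h1.invm (m := fun t => A' * t.E) (fun t => t.one)
    (fun t => one_le_mul_of_one_le_of_one_le A1 t.one) fun t => ?_).absorb A1 (fun _ => le_rfl)
    (fun t => le_of_eq (by ring)) fun t => one_le_pow₀ t.one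
  have e1 := t.one
  have e2 := t.fl
  have e3 := t.le
  have e4 := abs_pos.2 t.ne
  have c0 : 0 ≤ c 0 := (norm_nonneg _).trans (t.hγ.2 0)
  rw [nrm, norm_smul, norm_inv, Real.norm_eq_abs, inv_mul_le_iff₀ e4] at e3
  calc (1 : ℝ) ≤ c 0 * t.E * (|t.ψ (t.Θ (t.γ t.q))| * A) := e2.trans (by gcongr)
    _ = c 0 * A * t.E * |t.ψ (t.Θ (t.γ t.q))| := by ring
    _ ≤ _ := by gcongr; exact le_max_right _ _

/-- CRUDE -/
theorem crude : ∃ C : ℝ, 0 < C ∧ ∀ t : Fd Q X V c A, ∀ i ≤ n,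
    ‖iteratedFDeriv ℝ i (fun z => nrm t.ψ t.Θ (t.γ z)) t.q‖ ≤ C * t.E ^ (3 * (i + 1)) := by
  obtain ⟨C, C0, hC⟩ := ((gbi (Q := Q) (X := X) (V := V) n c A).fsmul ((gb n c A).mono le_rfl
    (fun _ => le_rfl) fun t => le_self_pow₀ t.one (by norm_num))).bd
  refine ⟨C, C0, fun t i hi => (hC t i hi).trans ?_⟩
  have := t.one
  rw [mul_assoc, ← pow_mul, ← sq, ← pow_add]
  gcongr
  omega

end Fd

/-- the data along a curve -/
structure Fe (Q X V V' : Type) [NormedAddCommGroup Q] [NormedSpace ℝ Q] [NormedAddCommGroup X]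
    [NormedSpace ℝ X] [NormedAddCommGroup V] [NormedSpace ℝ V] [NormedAddCommGroup V']
    [NormedSpace ℝ V'] (c : ℕ → ℝ) (A r : ℝ) (b : ℕ) extends Fd Q X V c A where
  D : Q → V →L[ℝ] V'
  uγ : ∀ z ∈ ball q r, UJ c γ z
  uD : ∀ z ∈ ball q r, UJ c D z
  sm' : ∀ y ∈ ball (γ q) E⁻¹, ContDiffAt ℝ ∞ Θ y
  bd' : ∀ y ∈ ball (γ q) E⁻¹, ∀ k, ‖iteratedFDeriv ℝ k Θ y‖ ≤ c k * E ^ (k + 1)
  df : ∀ z ∈ ball q r, γ z ∈ ball (γ q) E⁻¹ → ‖D z (Θ (γ z))‖ ≤ (E ^ b)⁻¹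

namespace Fe

variable [CompleteSpace V'] (K s : ℕ) (c : ℕ → ℝ) (A : ℝ) {r : ℝ} (hr : 0 < r)
include hr

lemma small : GB K (fun (t : Fe Q X V V' c A r ((s + K + 2) * K + s)) z => t.D z (t.Θ (t.γ z)))
    (fun t => t.q) (fun t => (t.E ^ s)⁻¹) fun _ => 1 := by
  set T := Fe Q X V V' c A r ((s + K + 2) * K + s)
  set L := max 1 (c 1) with hL
  have L1 : 1 ≤ L := le_max_left _ _
  set κ := min r L⁻¹ with hκ
  have κ0 : 0 < κ := lt_min hr (by positivity)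
  have κ1 : κ ≤ 1 := (min_le_right _ _).trans (inv_le_one_of_one_le₀ L1)
  let ρ : T → ℝ := fun t => κ * (t.E ^ (s + K + 2))⁻¹
  have E0 : ∀ t : T, 0 < t.E := fun t => by linarith [t.one]
  have ρ0 : ∀ t, 0 < ρ t := fun t => by have := E0 t; positivity
  have ρE : ∀ t, ρ t ≤ κ * t.E⁻¹ := fun t => by
    have := E0 t
    exact mul_le_mul_of_nonneg_left (inv_anti₀ this (le_self_pow₀ t.one (by omega))) κ0.le
  have ρκ : ∀ t, ρ t ≤ κ := fun t =>
    (ρE t).trans (mul_le_of_le_one_right κ0.le (inv_le_one_of_one_le₀ t.one))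
  have m1 : ∀ t : T, ∀ z ∈ ball t.q (ρ t), z ∈ ball t.q r := fun t z hz =>
    ball_subset_ball ((ρκ t).trans (min_le_left _ _)) hz
  have m2 : ∀ t : T, ∀ z ∈ ball t.q (ρ t), t.γ z ∈ ball (t.γ t.q) t.E⁻¹ := fun t z hz => by
    have h1 := (convex_ball t.q r).norm_image_sub_le_of_norm_fderiv_le (𝕜 := ℝ) (f := t.γ) (C := L)
      (fun y hy => (t.uγ y hy).1.differentiableAt (by simp))
      (fun y hy => by
        have := (t.uγ y hy).2 1
        rw [← norm_iteratedFDeriv_fderiv, norm_iteratedFDeriv_zero] at this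
        exact this.trans (le_max_right _ _)) (mem_ball_self hr) (m1 t z hz)
    rw [mem_ball_iff_norm] at hz ⊢
    have h2 : L * κ ≤ 1 := by
      calc L * κ ≤ L * L⁻¹ := by gcongr; exact min_le_right _ _
        _ = 1 := mul_inv_cancel₀ (by positivity)
    have h3 : 0 < t.E⁻¹ := inv_pos.2 (E0 t)
    calc _ ≤ L * ‖z - t.q‖ := h1
      _ < L * (κ * t.E⁻¹) := by gcongr; exact hz.trans_le (ρE t)
      _ = L * κ * t.E⁻¹ := by ring
      _ ≤ _ := mul_le_of_le_one_left h3.le h2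
  let ι := {p : T × Q // p.2 ∈ ball p.1.q (ρ p.1)}
  have g1 : GB (K + 1) (fun (p : ι) z => p.1.1.Θ (p.1.1.γ z)) (fun p => p.1.2) (fun p => p.1.1.E)
      fun p => p.1.1.E :=
    ((GB.of_pow (K + 1) c (fun p : ι => p.1.1.one) (fun p => p.1.1.sm' _ (m2 _ _ p.2))
      fun p => p.1.1.bd' _ (m2 _ _ p.2)).comp' (GB.of_uj _ fun p => p.1.1.uγ _ (m1 _ _ p.2))
        fun _ => rfl).mono le_rfl (fun _ => le_rfl) fun _ => (mul_one _).le
  have g2 := ((GB.of_uj (K + 1) fun p : ι => p.1.1.uD _ (m1 _ _ p.2)).mono le_rfl (fun _ => le_rfl)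
    fun p => p.1.1.one).clm_apply g1
  obtain ⟨C1, C10, h1⟩ := g2.bd
  obtain ⟨C, C0, hI⟩ := Crest.Agent.N221.X.int_all (K + 1)
  refine ⟨fun t => g2.sm ⟨(t, t.q), mem_ball_self (ρ0 t)⟩, fun _ => le_rfl,
    C * ((κ ^ K)⁻¹ + C1), by positivity, fun t i hi => ?_⟩
  have e0 := E0 t
  have e1 := t.one
  have r0 := ρ0 t
  refine (hI Q V' _ t.q (ρ t) _ (C1 * (1 * t.E) * t.E ^ (K + 1)) r0
    (fun z hz => (cda (g2.sm ⟨(t, z), hz⟩) _).contDiffWithinAt)
    (fun z hz => t.df z (m1 t z hz) (m2 t z hz)) (fun z hz => h1 ⟨(t, z), hz⟩ _ le_rfl) i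
    (by omega) t.q (mem_ball_self (by positivity))).trans ?_
  rw [one_pow, mul_one]
  have a1 : (t.E ^ ((s + K + 2) * K + s))⁻¹ / ρ t ^ i ≤ (κ ^ K)⁻¹ * (t.E ^ s)⁻¹ := by
    calc _ ≤ (t.E ^ ((s + K + 2) * K + s))⁻¹ / ρ t ^ K := by
          gcongr _ / ?_
          exact pow_le_pow_of_le_one r0.le ((ρκ t).trans κ1) hi
      _ = _ := by simp only [ρ]; rw [mul_pow, inv_pow, ← pow_mul, pow_add]; field_simp
  have a2 : C1 * (1 * t.E) * t.E ^ (K + 1) * ρ t ^ (K + 1 - i) ≤ C1 * (t.E ^ s)⁻¹ := by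
    calc _ ≤ C1 * (1 * t.E) * t.E ^ (K + 1) * (t.E ^ (s + K + 2))⁻¹ := by
          gcongr
          exact (pow_le_of_le_one r0.le ((ρκ t).trans κ1) (by omega)).trans
            (mul_le_of_le_one_left (by positivity) κ1)
      _ = _ := by field_simp; ring
  exact (mul_le_mul_of_nonneg_left (add_le_add a1 a2) C0.le).trans_eq (by ring)

/-- FML -/
theorem fml : ∃ C : ℝ, 0 < C ∧
    ∀ t : Fe Q X V V' c A r ((s + 3 * K + 1 + K + 2) * K + (s + 3 * K + 1)), ∀ i ≤ K,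
    ‖iteratedFDeriv ℝ i (fun z => (t.D z).prod t.ψ (nrm t.ψ t.Θ (t.γ z)) - (0, 1)) t.q‖ ≤
      C * (t.E ^ s)⁻¹ := by
  set T := Fe Q X V V' c A r ((s + 3 * K + 1 + K + 2) * K + (s + 3 * K + 1))
  have g1 := (Fd.gbi (Q := Q) (X := X) (V := V) K c A).reindex fun t : T => t.toFd
  have g0 := (Fd.gb (Q := Q) (X := X) (V := V) K c A).reindex fun t : T => t.toFd
  have g2 := (g1.fsmul ((small (Q := Q) (X := X) (V := V) (V' := V') K (s + 3 * K + 1) c A hr).mono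
    le_rfl (fun _ => le_rfl) fun t => one_le_pow₀ t.one)).clm (ContinuousLinearMap.inl ℝ V' ℝ)
  obtain ⟨C, C0, hC⟩ := (g2.congr (f' := fun t z =>
      (t.D z).prod t.ψ (nrm t.ψ t.Θ (t.γ z)) - (0, 1)) fun t => by
    have h1 : ContinuousAt (fun z => t.ψ (t.Θ (t.γ z))) t.q :=
      t.ψ.continuous.continuousAt.comp (g0.sm t).continuousAt
    filter_upwards [h1.eventually_ne t.ne] with z hz
    simp [nrm, inv_mul_cancel₀ hz]).bd
  refine ⟨C, C0, fun t i hi => (hC t i hi).trans ?_⟩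
  have e1 := t.one
  rw [mul_assoc, mul_right_comm, ← pow_mul, ← pow_succ']
  gcongr
  exact pw_le e1 (by omega)

end Fe

lemma exp_pw (a : ℝ) (j k : ℕ) : exp (a * (k + 1) * j) = exp (a * j) ^ (k + 1) := by
  rw [← exp_nat_mul]; congr 1; push_cast; ring

lemma fl_of {a c0 x : ℝ} (h : exp (-a) ≤ c0 * x) : 1 ≤ c0 * exp a * x := by
  have := mul_le_mul_of_nonneg_left h (exp_pos a).le
  rw [← exp_add, add_neg_cancel, exp_zero] at this
  linarith

/-- the field `crude` -/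
theorem crude_jets {a : ℝ} (ha : 0 ≤ a) (k : ℕ) (c : ℕ → ℝ) (A : ℝ) : ∃ C : ℝ, 0 < C ∧
    ∀ (j : ℕ) (q : Q) (γ : Q → X) (Θ : X → V) (ψ : V →L[ℝ] ℝ), UJ c γ q →
      ContDiffAt ℝ ∞ Θ (γ q) →
      (∀ i, ‖iteratedFDeriv ℝ i Θ (γ q)‖ ≤ c i * exp (a * (i + 1) * j)) →
      exp (-(a * j)) ≤ c 0 * ‖Θ (γ q)‖ → ‖ψ‖ ≤ 1 → ψ (Θ (γ q)) ≠ 0 → ‖nrm ψ Θ (γ q)‖ ≤ A →
      ∀ i ≤ k, ‖iteratedFDeriv ℝ i (fun z => nrm ψ Θ (γ z)) q‖ ≤ C * exp (3 * a * (i + 1) * j) := by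
  obtain ⟨C, C0, hC⟩ := Fd.crude (Q := Q) (X := X) (V := V) k c A
  refine ⟨C, C0, fun j q γ Θ ψ h1 h2 h3 h4 h5 h6 h7 i hi => ?_⟩
  refine (hC ⟨exp (a * j), q, γ, Θ, ψ, one_le_exp (by positivity), h1, h2,
    fun k => exp_pw a j k ▸ h3 k, fl_of h4, h5, h6, h7⟩ i hi).trans_eq ?_
  rw [← exp_nat_mul]; congr 2; push_cast; ring

/-- the field `fml` -/
theorem fml_jets [CompleteSpace V'] {a : ℝ} (ha : 1 ≤ a) (K : ℕ) (τ : ℝ) : ∃ K' : ℕ,
    ∀ (c : ℕ → ℝ) (A r : ℝ), 0 < r → ∃ C : ℝ, 0 < C ∧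
    ∀ (j : ℕ) (q : Q) (γ : Q → X) (D : Q → V →L[ℝ] V') (Θ : X → V) (ψ : V →L[ℝ] ℝ),
      (∀ z ∈ ball q r, UJ c γ z ∧ UJ c D z) →
      (∀ y ∈ ball (γ q) (exp (-(a * j))), ContDiffAt ℝ ∞ Θ y ∧
        ∀ i, ‖iteratedFDeriv ℝ i Θ y‖ ≤ c i * exp (a * (i + 1) * j)) →
      (∀ z ∈ ball q r, γ z ∈ ball (γ q) (exp (-(a * j))) →
        ‖D z (Θ (γ z))‖ ≤ exp (-(K' * j))) →
      exp (-(a * j)) ≤ c 0 * ‖Θ (γ q)‖ → ‖ψ‖ ≤ 1 → ψ (Θ (γ q)) ≠ 0 → ‖nrm ψ Θ (γ q)‖ ≤ A →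
      ∀ i ≤ K, ‖iteratedFDeriv ℝ i (fun z => (D z).prod ψ (nrm ψ Θ (γ z)) - (0, 1)) q‖ ≤
        C * exp (-(τ * j)) := by
  set s := ⌈τ⌉₊
  set b := (s + 3 * K + 1 + K + 2) * K + (s + 3 * K + 1) with hb
  refine ⟨⌈a⌉₊ * b, fun c A r hr => ?_⟩
  obtain ⟨C, C0, hC⟩ := Fe.fml (Q := Q) (X := X) (V := V) (V' := V') K s c A hr
  refine ⟨C, C0, fun j q γ D Θ ψ h1 h2 h3 h4 h5 h6 h7 i hi => ?_⟩
  have p0 : γ q ∈ ball (γ q) (exp (-(a * j))) := mem_ball_self (exp_pos _)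
  have j0 : (0 : ℝ) ≤ j := j.cast_nonneg
  refine (hC ⟨⟨exp (a * j), q, γ, Θ, ψ, one_le_exp (by positivity), (h1 q (mem_ball_self hr)).1,
    (h2 _ p0).1, fun k => exp_pw a j k ▸ (h2 _ p0).2 k, fl_of h4, h5, h6, h7⟩, D,
    fun z hz => (h1 z hz).1, fun z hz => (h1 z hz).2, fun y hy => (h2 y (by rwa [exp_neg])).1,
    fun y hy k => exp_pw a j k ▸ (h2 y (by rwa [exp_neg])).2 k,
    fun z hz hy => (h3 z hz (by rwa [exp_neg])).trans ?_⟩ i hi).trans ?_
  · rw [← exp_nat_mul, ← exp_neg, exp_le_exp, neg_le_neg_iff, ← hb]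
    push_cast
    have := mul_le_mul_of_nonneg_right (Nat.le_ceil a) (show (0 : ℝ) ≤ b * j by positivity)
    linarith
  · gcongr
    rw [← exp_nat_mul, ← exp_neg, exp_le_exp, neg_le_neg_iff]
    have h8 := mul_le_mul_of_nonneg_right (Nat.le_ceil τ) j0
    have h9 := mul_le_mul_of_nonneg_right ha (show (0 : ℝ) ≤ s * j by positivity)
    show τ * j ≤ s * (a * j)
    linarith

namespace LB

variable {E Xs Ys : Type} [NormedAddCommGroup E] [NormedSpace ℝ E] {B : LB E V V' Xs Ys}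

lemma Ok.jets (h : B.Ok) (c : ℕ → ℝ) : ∃ c' : ℕ → ℝ, (∀ k, c k ≤ c' k) ∧
    ∀ q ∈ ball (0 : E) B.R, (∀ x, UJ c' (B.gs x) q) ∧
      ∀ y, UJ c' (fun t => (t, B.u y t)) q ∧ UJ c' (fun t => B.io (t, B.u y t)) q := by
  have h1 := (Ex.UB.id (M := B.R) h.ubs.op fun _ _ hx => (mem_ball_zero_iff.1 hx).le).prod h.ubs
  have h2 := (Ex.UB.id (M := B.R) h.ubu.op fun _ _ hx => (mem_ball_zero_iff.1 hx).le).prod h.ubu
  obtain ⟨c1, -, b1⟩ := h1.bds
  obtain ⟨c2, -, b2⟩ := h2.bds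
  obtain ⟨c3, -, b3⟩ := h.ubi.bds
  exact ⟨fun k => max (max (c k) (c1 k)) (max (c2 k) (c3 k)),
    fun k => (le_max_left _ _).trans (le_max_left _ _), fun q hq =>
    ⟨fun x => ⟨h1.at hq, fun k => (b1 k x q hq).trans ((le_max_right _ _).trans (le_max_left _ _))⟩,
    fun y => ⟨⟨h2.at hq, fun k => (b2 k y q hq).trans ((le_max_left _ _).trans (le_max_right _ _))⟩,
      h.ubi.at hq, fun k => (b3 k y q hq).trans ((le_max_right _ _).trans (le_max_right _ _))⟩⟩⟩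

lemma So.floor {c : ℕ → ℝ} {a K : ℝ} {j : ℕ} {x : Xs} {Θ : E × E → V} {l : E → V →L[ℝ] ℝ} {q : E}
    (h : B.So c a K j x Θ l q) : exp (-(a * j)) ≤ c 0 * ‖Θ (B.gs x q)‖ := by
  have h1 := h.dl 0
  have h2 := (l q).le_opNorm (Θ (B.gs x q))
  rw [norm_iteratedFDeriv_zero] at h1
  rw [h.one, norm_one] at h2
  rw [exp_neg, inv_le_iff_one_le_mul₀ (exp_pos _)]
  exact h2.trans ((mul_le_mul_of_nonneg_right h1 (norm_nonneg _)).trans_eq (by ring))

lemma Ok.ball_sub (h : B.Ok) {x : Xs} {q : E} (hq : ‖B.gs x q‖ < B.r) :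
    ball q B.r ⊆ ball 0 B.R := fun z hz => by
  have h1 : ‖q‖ ≤ ‖B.gs x q‖ := norm_fst_le (B.gs x q)
  have := norm_le_norm_add_norm_sub' z q
  rw [mem_ball_iff_norm] at hz
  rw [mem_ball_zero_iff]
  linarith [h.rp, h.rR]

/-- the field `crude` of `Good`, `Λ = 3 a (k + 2)` -/
theorem Ok.crudeF (h : B.Ok) {a : ℝ} (ha : 0 ≤ a) (k : ℕ) (c : ℕ → ℝ) (A0 : ℝ) : ∃ C : ℝ, 0 < C ∧
    ∀ (K : ℝ) (j : ℕ) (ψ : V →L[ℝ] ℝ) x Θ l q, ‖ψ‖ ≤ 1 → B.So c a K j x Θ l q → q ∈ B.O ψ Θ x →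
      ‖B.gs x q‖ < B.r → ‖nrm ψ Θ (B.gs x q)‖ ≤ A0 →
      ‖iteratedFDeriv ℝ (k + 1) (fun t => nrm ψ Θ (B.gs x t)) q‖ ≤ C * exp (3 * a * (k + 2) * j) := by
  obtain ⟨c', hc, hj⟩ := h.jets c
  obtain ⟨C, C0, hC⟩ := crude_jets (Q := E) (X := E × E) (V := V) ha (k + 1) c' A0
  refine ⟨C, C0, fun K j ψ x Θ l q hψ hs hq hr hA => ?_⟩
  have h1 := hs.cr _ (mem_ball_self (exp_pos _))
  refine (hC j q _ Θ ψ ((hj q (h.ball_sub hr (mem_ball_self h.rp))).1 x) h1.1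
    (fun i => (h1.2.2 i).trans (by gcongr; exact hc i))
    (hs.floor.trans (by gcongr; exact hc 0)) hψ hq hA _ le_rfl).trans_eq ?_
  congr 2; push_cast; ring

/-- the field `fml` of `Good` (take `τ = χ * (K + 1)`) -/
theorem Ok.fmlF [CompleteSpace V'] (h : B.Ok) {a : ℝ} (ha : 1 ≤ a) (K : ℕ) (τ : ℝ) : ∃ K' : ℝ,
    ∀ (c : ℕ → ℝ) (A0 : ℝ), ∃ C : ℝ, 0 < C ∧
    ∀ (j : ℕ) (ψ : V →L[ℝ] ℝ) x Θ l q, ‖ψ‖ ≤ 1 → B.So c a K' j x Θ l q → q ∈ B.O ψ Θ x →
      ‖B.gs x q‖ < B.r → ‖nrm ψ Θ (B.gs x q)‖ ≤ A0 →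
      (B.bx ψ).Fml x (nrm ψ Θ) q K (C * exp (-(τ * j))) := by
  obtain ⟨K', hK⟩ := fml_jets (Q := E) (X := E × E) (V := V) (V' := V') ha K τ
  refine ⟨K', fun c A0 => ?_⟩
  obtain ⟨c', hc, hj⟩ := h.jets c
  obtain ⟨C, C0, hC⟩ := hK c' A0 B.r h.rp
  refine ⟨(K + 1) * C, by positivity, fun j ψ x Θ l q hψ hs hq hr hA => ?_⟩
  rw [mul_assoc]
  refine L.Box.Fml.of_jets fun y hy => ?_
  have e : (q, B.u y q) = B.gs x q := Prod.ext rfl hy
  exact hC j q (fun t => (t, B.u y t)) (fun t => B.io (t, B.u y t)) Θ ψ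
    (fun z hz => (hj z (h.ball_sub hr hz)).2 y)
    (fun w hw => ⟨(hs.cr w (e ▸ hw)).1, fun i => ((hs.cr w (e ▸ hw)).2.2 i).trans
      (by gcongr; exact hc i)⟩)
    (fun z _ hw => by simpa using (hs.cr _ (e ▸ hw)).2.1)
    (by simp only [e]; exact hs.floor.trans (by gcongr; exact hc 0)) hψ (by simp only [e]; exact hq)
    (by simp only [e]; exact hA)

end LB

end Crest.Agent.N221.G0
end
end

-- ▼ part N221/G0/Fld

/-!
Row 221, block G0 (helper33, helper26): the field `new` of a good leaf and `fldS : FldS`.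
-/

set_option autoImplicit false

open Set Metric Filter Topology Real
open scoped ContDiff

noncomputable section

namespace Crest.Agent.N221.G0

namespace Fld

lemma alg {V : Type} [NormedAddCommGroup V] [NormedSpace ℝ V] (ψ : V →L[ℝ] ℝ) {g F : V}
    {ε B m D : ℝ} (s2 : |ψ g - 1| ≤ ε) (e2 : ε ≤ 1 / 4) (s3 : ‖g‖ ≤ B) (m0 : 0 < m)
    (fl : 1 ≤ m * ‖F‖) (hD : ‖ψ g • F - ψ F • g‖ ≤ D) (hm : 4 * m * D ≤ 1) :
    ψ F ≠ 0 ∧ ‖(ψ F)⁻¹ • F - g‖ ≤ 2 * m * B * D + 2 * B * ε := by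
  have D0 := (norm_nonneg _).trans hD
  have e0 := (abs_nonneg _).trans s2
  have B0 := (norm_nonneg _).trans s3
  have u5 : 4 * D ≤ ‖F‖ := le_of_mul_le_mul_left (by linarith) m0
  have d : F - ψ F • g = ψ g • F - ψ F • g - (ψ g - 1) • F := by module
  have F0 := norm_nonneg F
  have n1 : ‖F - ψ F • g‖ ≤ D + ε * ‖F‖ := by
    rw [d]
    refine (norm_sub_le _ _).trans (add_le_add hD ?_)
    rw [norm_smul]; exact mul_le_mul_of_nonneg_right s2 F0
  have n2 : ‖F‖ ≤ 2 * B * |ψ F| := by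
    have a1 := norm_add_le (F - ψ F • g) (ψ F • g)
    rw [sub_add_cancel, norm_smul, Real.norm_eq_abs] at a1
    have a2 := mul_le_mul_of_nonneg_left s3 (abs_nonneg (ψ F))
    have a3 := mul_le_mul_of_nonneg_right e2 F0
    linarith
  have n3 : 1 ≤ m * (2 * B * |ψ F|) := fl.trans (by gcongr)
  have p0 : 0 < |ψ F| := by
    by_contra hn
    rw [le_antisymm (not_lt.1 hn) (abs_nonneg _), mul_zero, mul_zero] at n3
    linarith
  refine ⟨abs_pos.1 p0, ?_⟩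
  have d2 : (ψ F)⁻¹ • F - g = (ψ F)⁻¹ • (F - ψ F • g) := by
    rw [smul_sub, smul_smul, inv_mul_cancel₀ (abs_pos.1 p0), one_smul]
  rw [d2, norm_smul, norm_inv, Real.norm_eq_abs, inv_mul_le_iff₀ p0]
  have a1 := mul_le_mul_of_nonneg_right n3 D0
  have a2 := mul_le_mul_of_nonneg_left n2 e0
  linarith

end Fld

namespace LB

variable {E V V' Xs Ys : Type} [NormedAddCommGroup E] [NormedSpace ℝ E] [NormedAddCommGroup V]
  [NormedSpace ℝ V] [NormedAddCommGroup V'] [NormedSpace ℝ V'] {β : LB E V V' Xs Ys}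

lemma Ok.gs_sm (h : β.Ok) {x : Xs} {q : E} (hq : ‖β.gs x q‖ < β.r) : ContDiffAt ℝ ∞ (β.gs x) q :=
  contDiffAt_id.prodMk (h.ubs.at (h.ball_sub hq (mem_ball_self h.rp)))

/-- the source along its plaque -/
lemma Ok.leafJ (h : β.Ok) (N : ℕ) (c : ℕ → ℝ) (a : ℝ) : ∃ C : ℝ, 0 < C ∧
    ∀ (K : ℝ) (j : ℕ) x Θ l q, β.So c a K j x Θ l q → ‖β.gs x q‖ < β.r → ∀ k ≤ N,
      ‖iteratedFDeriv ℝ k (fun y => Θ (β.gs x y)) q‖ ≤ C * exp (a * j) := by
  let ι := {p : (ℝ × ℕ × Xs) × (E × E → V) × (E → V →L[ℝ] ℝ) × E //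
    β.So c a p.1.1 p.1.2.1 p.1.2.2 p.2.1 p.2.2.1 p.2.2.2 ∧ ‖β.gs p.1.2.2 p.2.2.2‖ < β.r}
  have g1 : GB N (fun (t : ι) (v : E × (E × E)) =>
      t.1.2.1 (β.gs t.1.1.2.2 v.1 + exp (-(a * t.1.1.2.1)) • v.2)) (fun t => (t.1.2.2.2, 0))
      (fun t => exp (a * t.1.1.2.1)) fun _ => 1 := by
    refine GB.of_seq N c (fun t => ?_) (fun _ => le_rfl) (fun t => (exp_pos _).le)
      fun t k _ => by simpa using t.2.1.bl k
    refine ContDiffAt.comp (g := t.1.2.1) _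
      (by simpa using (t.2.1.cr _ (mem_ball_self (exp_pos _))).1) ?_
    exact (ContDiffAt.comp (g := β.gs t.1.1.2.2) (f := Prod.fst) ((t.1.2.2.2, 0) : E × (E × E))
      (h.gs_sm t.2.2) contDiffAt_fst).add (contDiffAt_snd.const_smul _)
  obtain ⟨C, C0, hC⟩ := (g1.comp_aff (x := fun t => t.1.2.2.2)
    (fun _ => ContinuousLinearMap.inl ℝ E (E × E)) (fun _ => 0)
    (fun _ => ContinuousLinearMap.norm_inl_le_one _ _ _) fun _ => by simp).bd
  exact ⟨C, C0, fun K j x Θ l q h1 h2 k hk => by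
    simpa using hC ⟨((K, j, x), Θ, l, q), h1, h2⟩ k hk⟩

lemma Ok.newF (hS : β.Ok) {n N a₀ : ℕ} {θ a : ℝ} (hθ : 0 < θ) (hU : β.IND n N a₀ θ) (ha : 1 ≤ a)
    (c : ℕ → ℝ) : ∃ C₀ : ℝ, ∀ C, C₀ ≤ C → ∀ (K : ℝ) (j : ℕ) (ψ : V →L[ℝ] ℝ) x Θ l, ‖ψ‖ ≤ 1 →
      (∀ q, ‖β.gs x q‖ < β.r → β.So c a K j x Θ l q) → ∀ g q ρ ε B,
      (β.bx ψ).SR N x g q ρ ε B → exp (-(K * j)) ≤ ε →
      C * (B * exp j / ρ) ^ (⌈a⌉₊ * (a₀ + 1)) * ε ^ min θ 1 ≤ 1 →
      ψ (Θ (β.gs x q)) ≠ 0 ∧ ‖nrm ψ Θ (β.gs x q) - g q‖ ≤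
        C * (B * exp j / ρ) ^ (⌈a⌉₊ * (a₀ + 1)) * ε ^ min θ 1 := by
  obtain ⟨C0, hU⟩ := hU
  obtain ⟨C1', C10, hC1⟩ := hS.leafJ N c a
  set C1 := max 1 C1' with hC1d
  have C11 : 1 ≤ C1 := le_max_left _ _
  set C2 := 2 ^ n * |C0| * C1 ^ a₀ with hC2
  have C20 : 0 ≤ C2 := by positivity
  set cz := max 1 (c 0) with hcz
  have c0 : 1 ≤ cz := le_max_left _ _
  refine ⟨4 * cz * C2 + 4, fun C hC K j ψ x Θ l hψ h g q ρ ε B hg he hs => ?_⟩
  have s0 : ∀ y ∈ ball q ρ, ‖β.io (β.gs x y) (g y)‖ ≤ ε ∧ |ψ (g y) - 1| ≤ ε := fun y hy => by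
    have := norm_prod_le_iff.1 (hg.df y hy)
    simpa [L.Box.df, LB.bx, L.Box.gs, LB.gs] using this
  have s2 := (s0 q (mem_ball_self hg.pos)).2
  have s3 : ‖g q‖ ≤ B := by simpa using hg.bd q (mem_ball_self hg.pos) 0 (Nat.zero_le N)
  have e0 : 0 < ε := (exp_pos _).trans_le he
  have B1 := hg.one
  have ρ0 := hg.pos
  have mem : ∀ y ∈ ball q ρ, ‖β.gs x y‖ < β.r := fun y hy => mem_ball_zero_iff.1 (hg.sub y hy)
  have hq := mem q (mem_ball_self ρ0)
  set Ej := exp (a * j) with hEj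
  have E1 : 1 ≤ Ej := one_le_exp (by positivity)
  set A := ⌈a⌉₊ with hA
  have A1 : 1 ≤ A := Nat.ceil_pos.2 (by linarith)
  set X := B * exp j / ρ with hX
  have j1 : 1 ≤ exp (j : ℝ) := one_le_exp (by positivity)
  have b1 : 1 ≤ B / ρ := B1.trans (le_div_self (by linarith) ρ0 hg.le)
  have X1 : 1 ≤ X := by
    rw [hX, mul_div_right_comm]; exact one_le_mul_of_one_le_of_one_le b1 j1
  have X2 : B * Ej / ρ ≤ X ^ A := by
    rw [hX, mul_div_right_comm, mul_div_right_comm, mul_pow, ← exp_nat_mul]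
    refine mul_le_mul (le_self_pow₀ b1 (by omega)) (exp_le_exp.2 ?_) (by positivity)
      (by positivity)
    exact mul_le_mul_of_nonneg_right (Nat.le_ceil a) (by positivity)
  have X3 : B * Ej ≤ X ^ A := (le_div_self (by positivity) ρ0 hg.le).trans X2
  set Y := X ^ A with hY
  have Y1 : 1 ≤ Y := one_le_pow₀ X1
  rw [pow_mul, ← hY] at hs ⊢
  set e := ε ^ min θ 1 with he'
  have e1 : 0 < e := rpow_pos_of_pos e0 _
  have Z1 : 1 ≤ Y ^ (a₀ + 1) := one_le_pow₀ Y1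
  have C4 : 4 ≤ C := by nlinarith [mul_nonneg (by linarith : 0 ≤ 4 * cz) C20]
  have e2 : e ≤ 1 / 4 := by nlinarith [mul_le_mul C4 Z1 zero_le_one (by linarith)]
  have ε1 : ε ≤ 1 := by
    by_contra hn
    have := one_le_rpow (not_le.1 hn).le (lt_min hθ one_pos).le
    linarith
  have e3 : ε ≤ e := by
    simpa using rpow_le_rpow_of_exponent_ge' e0.le ε1 (lt_min hθ one_pos).le (min_le_right θ 1)
  have e4 : ε ^ θ ≤ e :=
    rpow_le_rpow_of_exponent_ge' e0.le ε1 (lt_min hθ one_pos).le (min_le_left θ 1)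
  have bb : B ≤ C1 * (B * Ej) := by nlinarith [mul_le_mul C11 E1 zero_le_one (by linarith)]
  have m2 : ‖β.gs x q‖ < 2 * β.r := by linarith [hS.rp]
  have t1 : β.SR N x (fun y => Θ (β.gs x y)) q ρ ε (C1 * (B * Ej)) := by
    refine ⟨m2, ρ0, hg.le, B1.trans bb, fun y hy => ?_, fun y hy => ?_, fun y hy k hk => ?_⟩
    · exact (ContDiffAt.comp (g := Θ) _ ((h y (mem y hy)).cr _ (mem_ball_self (exp_pos _))).1
        (hS.gs_sm (mem y hy))).contDiffWithinAt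
    · exact ((h y (mem y hy)).cr _ (mem_ball_self (exp_pos _))).2.1.trans he
    · refine (hC1 K j x Θ l y (h y (mem y hy)) (mem y hy) k hk).trans
        (mul_le_mul (le_max_right _ _) ?_ (by positivity) (by linarith))
      exact le_mul_of_one_le_left (by linarith) B1
  have u := hU x g _ q ρ ε _ ⟨m2, ρ0, hg.le, B1.trans bb, hg.sm, fun y hy => (s0 y hy).1,
    fun y hy k hk => (hg.bd y hy k hk).trans bb⟩ t1 ψ hψ
  have fl : 1 ≤ cz * Ej * ‖Θ (β.gs x q)‖ :=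
    (fl_of (h q hq).floor).trans (by gcongr; exact le_max_right _ _)
  set F := Θ (β.gs x q) with hF
  have c3 : 1 / 2 ≤ ‖g q‖ := by
    have := ψ.le_of_opNorm_le hψ (g q)
    rw [Real.norm_eq_abs, one_mul] at this
    linarith [le_abs_self (ψ (g q)), (abs_le.1 s2).1]
  set D := ‖ψ (g q) • F - ψ F • g q‖ with hD
  have D0 : 0 ≤ D := norm_nonneg _
  have u1 : (1 / 2) ^ n * D ≤ |C0| * (C1 * Y) ^ a₀ * e := by
    refine (mul_le_mul_of_nonneg_right (pow_le_pow_left₀ (by norm_num) c3 _) D0).trans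
      (u.trans ?_)
    have := rpow_nonneg e0.le θ
    have : C1 * (B * Ej) / ρ ≤ C1 * Y := by
      rw [mul_div_assoc]; exact mul_le_mul_of_nonneg_left X2 (by linarith)
    gcongr
    exact le_abs_self C0
  have u2 : D ≤ C2 * Y ^ a₀ * e := by
    have := mul_le_mul_of_nonneg_left u1 (show (0 : ℝ) ≤ 2 ^ n by positivity)
    rw [← mul_assoc, ← mul_pow, show (2 : ℝ) * (1 / 2) = 1 by norm_num, one_pow, one_mul] at this
    refine this.trans_eq ?_
    rw [hC2, mul_pow]; ring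
  -- `η = 4 c₀ B E D` is at most the main term
  have u3 : 4 * cz * (B * Ej) * D ≤ 4 * cz * C2 * Y ^ (a₀ + 1) * e := by
    calc _ ≤ 4 * cz * Y * (C2 * Y ^ a₀ * e) := by gcongr
      _ = _ := by ring
  have Ze := mul_pos (zero_lt_one.trans_le Z1) e1
  have u4 : 4 * cz * C2 * Y ^ (a₀ + 1) * e + 4 * (Y ^ (a₀ + 1) * e) ≤ C * Y ^ (a₀ + 1) * e := by
    have := mul_le_mul_of_nonneg_right hC Ze.le
    linarith
  have u5 : 4 * (cz * Ej) * D ≤ 4 * cz * (B * Ej) * D := by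
    rw [← mul_assoc]
    gcongr; exact le_mul_of_one_le_left (by linarith) B1
  obtain ⟨p0, p1⟩ := Fld.alg ψ s2 (e3.trans e2) s3 (by positivity : 0 < cz * Ej) fl hD.ge
    (by linarith)
  refine ⟨p0, p1.trans ?_⟩
  have b2 : B ≤ Y ^ (a₀ + 1) := ((le_mul_of_one_le_right (by linarith) E1).trans X3).trans
    (le_self_pow₀ Y1 (by omega))
  have a2 : B * ε ≤ Y ^ (a₀ + 1) * e := mul_le_mul b2 e3 e0.le (by positivity)
  have a3 : 0 ≤ cz * (B * Ej) * D := by positivity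
  linarith

end LB

theorem fldS : FldS := by
  intro E V V' X Y _ _ _ _ _ _ _ _ _ B hB r N a θ χ a₀ hθ hχ ha hI
  have := FiniteDimensional.complete ℝ V'
  have A1 : 1 ≤ ⌈a₀⌉₊ := Nat.ceil_pos.2 (by linarith)
  refine ⟨⌈a₀⌉₊ * (a + 1), min θ 1, by nlinarith, by nlinarith, lt_min hθ one_pos, min_le_left _ _,
    min_le_right _ _, fun k => ⟨3 * a₀ * (k + 2), fun K A0 => ?_⟩⟩
  obtain ⟨K1, h1⟩ := hB.fmlF ha K (χ * (K + 1))
  refine ⟨max K1 (χ * (K + 1)), fun c => ?_⟩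
  obtain ⟨C1, -, h1⟩ := h1 c A0
  obtain ⟨C2, -, h2⟩ := hB.crudeF (zero_le_one.trans ha) k c A0
  obtain ⟨C3, h3⟩ := hB.newF hθ hI ha c
  refine ⟨max C1 (max C2 C3), 0, fun C hC j _ ψ x Θ l ε' γ hψ hs hA => ?_⟩
  have c1 := (le_max_left _ _).trans hC
  have c2 := ((le_max_left _ _).trans (le_max_right _ _)).trans hC
  have c3 := ((le_max_right _ _).trans (le_max_right _ _)).trans hC
  refine ⟨fun q hq hr => ?_, fun q hq hr hA y hy q' hq' => ?_, fun g q ρ ε b hg he => ?_,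
    fun q hq hr hA => ?_, hA⟩
  · have hr' := mem_ball_zero_iff.1 hr
    have e1 : ∀ᶠ z in 𝓝 (B.gs x q), ContDiffAt ℝ ∞ Θ z :=
      mem_of_superset (ball_mem_nhds _ (exp_pos _)) fun z hz => ((hs q hr').cr z hz).1
    have e2 := (ψ.continuous.continuousAt.comp e1.self_of_nhds.continuousAt).eventually_ne hq
    exact (e1.and e2).mono fun z hz => cda_nrm hz.1 hz.2
  · have hr' := mem_ball_zero_iff.1 hr
    exact (h1 j ψ x Θ l q hψ ((hs q hr').mono (le_max_left _ _)) hq hr' hA y hy q' hq').trans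
      (mul_le_mul_of_nonneg_right c1 (exp_pos _).le)
  · exact h3 C c3 _ j ψ x Θ l hψ (fun q hq => (hs q hq).mono (le_max_right _ _)) g q ρ ε b hg he
  · have hr' := mem_ball_zero_iff.1 hr
    exact (h2 _ j ψ x Θ l q hψ (hs q hr') hq hr' hA).trans
      (mul_le_mul_of_nonneg_right c2 (exp_pos _).le)

end Crest.Agent.N221.G0
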